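import Crest.Agent.N346.Bd.WDefs
import Crest.Agent.N346.Bd.Defs
import Crest.Agent.N346.Br.Adm
import Mathlib.Analysis.FunctionalSpaces.SobolevInequality
import Crest.Agent.N346.Bd.Basic

-- ▼ part N346/Bd/AP
section

/-! Row 346, Part 1 (helper34): the a priori sup bounds along the homotopy (`P1.APStmt`). -/

set_option autoImplicit false

open MeasureTheory Filter Set
open scoped ContDiff Topology
open Crest.GeometryTopology.CoordMetric Crest.MathPhysics.ExteriorData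
open Crest.Agent.R202.Tens Crest.Agent.R247.Bo84 Crest.Agent.N346.Id Crest.Agent.N346.P1

noncomputable section

namespace Crest.Agent.N346.Bd

variable {n : ℕ}

namespace Ap

section
variable {P0 L τ : ℝ} {g K : MetricField n} {EE : VectorField n} {a1 a2 f φ : E n → ℝ} {x : E n}

theorem Th_crit (hd : Jd g φ f univ) (hdf : fderiv ℝ f x = 0) : Th g φ f K x
    = φ x / gm g φ f x * traceK (gb g φ f) (hessM g f) x - traceK g K x := by
  have hw : wv g φ f x = 0 := by simp [wv, grad_eq_zero _ hdf]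
  have t2 := hd.H0_eq (mem_univ x)
  have t3 := H0_eq_Th hd (mem_univ x) K
  rw [hw] at t3
  simp only [aa, hw, map_zero, mul_zero, add_zero, sub_zero] at t2 t3
  linarith

/-- the maximum principle for the Jang equation. -/
theorem f_bound (h : BG P0 g K EE a1 a2) (hd : Jd g φ f univ) (hf : ContDiff ℝ ∞ f) (hτ : 0 < τ)
    (hJ : ∀ x, Th g φ f K x = τ * f x) (hL : 0 < L) (hp : An.Per L f) (x : E n) :
    |τ * f x| ≤ P0 := by
  have hq : ∀ y, 0 < φ y / gm g φ f y := fun y =>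
    div_pos (hd.φ_pos y (mem_univ _)) (hd.gm_pos (mem_univ _))
  have f2 : ∀ y, ContDiffAt ℝ 2 f y := fun y => hf.contDiffAt.of_le (by norm_cast)
  rw [abs_le]
  constructor
  · obtain ⟨y, hy⟩ := (hp.comp fun s => -s).exists_max hL hf.continuous.neg
    have hm : IsLocalMin f y := Eventually.of_forall fun w => by linarith [hy w]
    have t1 : 0 ≤ traceK (gb g φ f) (hessM g f) y := by
      simpa using le_traceK (T := hessM g f) hd.riemb (mem_univ y) (c := 0) fun Y => by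
        rw [bil_hessM, zero_mul]; exact hess_nonneg_of_min _ (f2 y) hm Y
    have t2 := Th_crit (K := K) hd hm.fderiv_eq_zero
    rw [hJ] at t2
    have t3 := mul_nonneg (hq y).le t1
    have t4 := (abs_le.1 (h.trK_le y)).2
    have t5 := mul_le_mul_of_nonneg_left (show f y ≤ f x by linarith [hy x]) hτ.le
    linarith
  · obtain ⟨y, hy⟩ := hp.exists_max hL hf.continuous
    have hm : IsLocalMax f y := Eventually.of_forall hy
    have t1 : traceK (gb g φ f) (hessM g f) y ≤ 0 := by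
      simpa using traceK_le (T := hessM g f) hd.riemb (mem_univ y) (c := 0) fun Y => by
        rw [bil_hessM, zero_mul]; exact hess_nonpos_of_max _ (f2 y) hm Y
    have t2 := Th_crit (K := K) hd hm.fderiv_eq_zero
    rw [hJ] at t2
    have t3 := mul_le_mul_of_nonneg_left t1 (hq y).le
    have t4 := (abs_le.1 (h.trK_le y)).1
    have t5 := mul_le_mul_of_nonneg_left (hy x) hτ.le
    linarith

/-- `R̄ ≤ 3P + 9P²` where `φ` is locally constant. -/
theorem R_le (h : BG P0 g K EE a1 a2) (hd : Jd g φ f univ) {d : ℝ} (hc : φ =ᶠ[𝓝 x] fun _ => d)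
    (hT : |Th g φ f K x| ≤ P0) : scalarCurv (gb g φ f) x ≤ 3 * P0 + 9 * P0 ^ 2 := by
  have hP : 0 ≤ P0 := by linarith [h.P_ge]
  have hw : bil (g x) (wv g φ f x) (wv g φ f x) ≤ 1 := by
    rw [hd.bil_wv_wv (mem_univ x)]; exact (hd.pp_lt_one (mem_univ x)).le
  have h1 := (abs_le.1 (h.R_le x)).2
  have h2 := (abs_le.1 ((h.Ric_le x (wv g φ f x)).trans (mul_le_of_le_one_right hP hw))).1
  have h3 := normSqK_nonneg hd.riemb (mem_univ x) (hd.symT_hh.symm x (mem_univ x))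
  have h4 := abs_le.1 (h.abs_Kww_le hw)
  have h5 := abs_le.1 (h.trK_le x)
  have h6 := abs_le.1 hT
  have h7 : H0 g φ f x ^ 2 ≤ (3 * P0) ^ 2 := by
    rw [H0_eq_Th hd (mem_univ x) K]
    exact sq_le_sq' (by linarith) (by linarith)
  rw [id_G_const hd (mem_univ x) hc]
  linarith

theorem gm_mul_pp (hd : Jd g φ f univ) (x : E n) : gm g φ f x - 1 ≤ gm g φ f x * pp g φ f x := by
  have h1 := hd.gm_sq_mul (mem_univ x)
  have h2 := hd.one_le_gm (mem_univ x)
  have h3 := hd.pp_lt_one (mem_univ x)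
  nlinarith [mul_nonneg (mul_nonneg (by linarith : 0 ≤ gm g φ f x) (sub_nonneg.2 h2))
    (sub_nonneg.2 h3.le)]

theorem norm_df_le (h : BG P0 g K EE a1 a2) (hd : Jd g φ f univ) {δ : ℝ} (hδ : 0 < δ)
    (hφ : δ ≤ φ x) : ‖fderiv ℝ f x‖ ≤ P0 * gm g φ f x / δ := by
  have hP := h.P_ge
  have h1 := norm_sq_le_gam h.riem (mem_univ x) (by linarith) (h.g_hi x) f
  have h2 := hd.gm_sq (mem_univ x)
  have h3 := gam_self_nonneg h.riem (mem_univ x) f
  have h4 := hd.gm_pos (mem_univ x)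
  have h5 : δ ^ 2 * gam g f f x ≤ gm g φ f x ^ 2 := by
    have : δ ^ 2 * gam g f f x ≤ φ x ^ 2 * gam g f f x := by gcongr
    rw [h2, Id.sq]; linarith
  rw [le_div_iff₀ hδ]
  refine (abs_le_of_sq_le_sq' ?_ (by positivity)).2
  have h6 := mul_le_mul_of_nonneg_left h1 (sq_nonneg δ)
  have h7 := mul_le_mul_of_nonneg_left h5 (by linarith : 0 ≤ P0)
  have h8 : P0 * gm g φ f x ^ 2 ≤ P0 ^ 2 * gm g φ f x ^ 2 := by gcongr; nlinarith
  nlinarith

end

section
variable {P : Par} {c : Coef n} {t lam L P0 d : ℝ} {B : ℕ → ℝ} {f z : E n → ℝ} {x : E n}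

theorem a1_mem (c : Coef n) : c.a1 ∈ c.comps := by simp [Coef.comps]
theorem a2_mem (c : Coef n) : c.a2 ∈ c.comps := by simp [Coef.comps]
theorem cw_mem (c : Coef n) : c.cw ∈ c.comps := by simp [Coef.comps]
theorem mw_mem (c : Coef n) : c.mw ∈ c.comps := by simp [Coef.comps]

theorem le_B0 {u : E n → ℝ} (h : Bdd B u) (x : E n) : u x ≤ B 0 := by
  have := h.2 0 x
  simp only [norm_iteratedFDeriv_zero, Real.norm_eq_abs] at this
  exact (le_abs_self _).trans this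

theorem jd (hc : c.Unif lam B) {g : MetricField n} (hg : IsRiemannianOn g univ) (h0 : 0 < d)
    (h1 : d ≤ 1) (hf : ContDiff ℝ ∞ f) (hz : ContDiff ℝ ∞ z) :
    Jd g (phd P d c.a1 c.a2 f z) f univ := by
  refine ⟨hg, ?_, hf.contDiffOn, fun x _ => ?_⟩
  · refine (contDiff_const.add ((contDiff_const.mul ?_).mul ((contDiff_Ph _).comp hz))).contDiffOn
    exact (hc.bdd _ (a1_mem c)).1.mul (contDiff_const.sub ((hc.bdd _ (a2_mem c)).1.mul
      (contDiff_const.sub ((contDiff_cut _ _).comp (contDiff_const.mul hf)))))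
  · have h2 := (chi_mem P (hc.a1_mem x) (hc.a2_mem x) (P.τ * f x)).1
    have h3 := (Ph_mem P (z x)).1
    exact add_pos_of_pos_of_nonneg h0 (mul_nonneg (mul_nonneg (sub_nonneg.2 h1) h2) h3)

theorem per_WW (hp : ∀ u ∈ c.comps, P1.Per L u) (hf : P1.Per L f) (hz : P1.Per L z) :
    An.Per L (WW P d (c.gt t) c.a1 c.a2 f z) := by
  intro x j
  have hg : c.g (x + EuclideanSpace.single j L) = c.g x := by
    ext k l; exact hp _ (Or.inl ⟨k, l, rfl⟩) j x
  have hd : ∀ i, pderiv i f (x + EuclideanSpace.single j L) = pderiv i f x := fun i =>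
    (per_iff.1 hf).pderiv i x j
  simp only [WW, phd, chd, Id.sq, gam, inverseField, Coef.gt, hg, hd, hf j x, hz j x,
    hp _ (a1_mem c) j x, hp _ (a2_mem c) j x]

theorem TT_nonneg (hc : c.Unif lam B) (he : 0 < P.e)
    (hd : Jd (c.gt t) (phi P c t f z) f univ) (x : E n) : 0 ≤ TT P c t f z x := by
  have h1 := hd.pp_nonneg (mem_univ x)
  have h2 := hc.mw_nonneg x
  have h3 := eSq_nonneg hd.riemb (mem_univ x) c.EE
  have h4 : 0 < P.τ := pow_pos he 3
  rw [TT, gbar]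
  positivity

theorem GG_le (hc : c.Unif lam B) (ht : t ∈ Icc (0 : ℝ) 1) (he : 0 < P.e) (hθ : 0 < P.θ)
    (hz3 : 0 ≤ P.z3) (hd : Jd (c.gt t) (phi P c t f z) f univ) (hx : z x ≤ -P.θ - 2) :
    GG P c t f z x ≤ -P.M := by
  have h1 := mul_nonneg ht.1 (TT_nonneg hc he hd x)
  have h2 := mul_nonneg ht.1 (hc.cw_nonneg x)
  have h3 : 0 ≤ -z x := by linarith
  have h4 := mul_nonneg ht.1 (mul_nonneg (hc.an_mem x).1 h3)
  have h5 := mul_nonneg (sub_nonneg.2 ht.2) h3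
  rw [GG, sz_one hθ (by linarith), vt_low (by linarith) hx]
  linarith

theorem le_GG (hc : c.Unif lam B) (ht : t ∈ Icc (0 : ℝ) 1) (he : 0 < P.e) (he1 : P.e ≤ 1)
    (h : BG P0 (c.gt t) (c.Kt t) c.EE c.a1 c.a2) (hd : Jd (c.gt t) (phi P c t f z) f univ)
    (hf : |P.τ * f x| ≤ P0) (hx : -3 ≤ z x) :
    -(P0 ^ 2 + 2 * P0 + 3 * |B 0| + 7) + P.vt (z x) ≤ GG P c t f z x := by
  have hP := h.P_ge
  have hB := le_abs_self (B 0)
  have h1 : TT P c t f z x ≤ P0 ^ 2 + 1 + 2 * |B 0| + 2 * P0 := by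
    have k1 : (P.τ * f x) ^ 2 ≤ P0 ^ 2 := sq_le_sq' (abs_le.1 hf).1 (abs_le.1 hf).2
    have k2 : P.τ * pp (c.gt t) (phi P c t f z) f x ≤ 1 :=
      mul_le_one₀ (pow_le_one₀ he.le he1) (hd.pp_nonneg (mem_univ x)) (hd.pp_lt_one (mem_univ x)).le
    have k3 := le_B0 (hc.bdd _ (mw_mem c)) x
    have k4 := (eSq_gb_le hd (mem_univ x) c.EE).trans (h.E_le x)
    rw [TT, gbar]
    linarith
  have h2 : P.sz (z x) * c.cw x ≤ |B 0| :=
    (mul_le_of_le_one_left (hc.cw_nonneg x) (sz_mem P _).2).trans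
      ((le_B0 (hc.bdd _ (cw_mem c)) x).trans hB)
  have h3 : 0 ≤ (1 - P.sz (z x)) * ((P.e ^ 6)⁻¹ * P.dd (c.b1 x) (c.b2 x) (P.τ * f x)) :=
    mul_nonneg (sub_nonneg.2 (sz_mem P _).2)
      (mul_nonneg (by positivity) (dd_mem P (hc.b1_mem x) (hc.b2_mem x) _).1)
  have h4 : ∀ s ∈ Icc (0 : ℝ) 1, -3 ≤ s * z x := fun s hs => by
    nlinarith [mul_nonneg hs.1 (show 0 ≤ z x + 3 by linarith), hs.2]
  have h5 := h4 _ (hc.an_mem x)
  have h6 := h4 _ (one_sub_mem ht)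
  have h7 : -(P0 ^ 2 + 2 * P0 + 3 * |B 0| + 4) ≤ -TT P c t f z x - P.sz (z x) * c.cw x
      + (1 - P.sz (z x)) * ((P.e ^ 6)⁻¹ * P.dd (c.b1 x) (c.b2 x) (P.τ * f x)) + c.an x * z x := by
    linarith
  have h8 := mul_le_mul_of_nonneg_left h7 ht.1
  have h9 := mul_le_of_le_one_left (by positivity : 0 ≤ P0 ^ 2 + 2 * P0 + 3 * |B 0| + 4) ht.2
  rw [GG]
  linarith

/-- the minimum principle for `z`. -/
theorem z_low (hc : c.Unif lam B) (ht : t ∈ Icc (0 : ℝ) 1) (he : 0 < P.e) (hθ : 0 < P.θ)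
    (hz3 : 0 ≤ P.z3) (h : BG P0 (c.gt t) (c.Kt t) c.EE c.a1 c.a2)
    (hd : Jd (c.gt t) (phi P c t f z) f univ) (hS : Sys P c t f z) (hf : ∀ x, |P.τ * f x| ≤ P0)
    (hM : 3 * P0 + 9 * P0 ^ 2 < P.M) (hL : 0 < L) (hp : An.Per L z) (x : E n) :
    -P.θ - 2 ≤ z x := by
  obtain ⟨y, hy⟩ := (hp.comp fun s => -s).exists_max hL hS.z_smooth.continuous.neg
  have hm : IsLocalMin z y := Eventually.of_forall fun w => by linarith [hy w]
  by_contra hx
  have h1 : z y < -P.θ - 2 := by linarith [hy x, not_le.1 hx]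
  have h2 : phi P c t f z =ᶠ[𝓝 y] fun _ => 1 - t * (1 - P.δ) := by
    filter_upwards [(hS.z_smooth.continuous.tendsto y).eventually (gt_mem_nhds h1)] with w hw
    rw [phi_eq_phd, phd, Ph_zero hθ (by linarith)]; ring
  have h3 := R_le h hd h2 (by rw [hS.jang]; exact hf y)
  have h4 := GG_le hc ht he hθ hz3 hd h1.le
  have h5 := lap_nonneg_of_min hd.riemb (mem_univ y)
    (hS.z_smooth.contDiffAt.of_le (by norm_cast)) hm
  have h6 := hS.conf y
  rw [gam_eq_fderiv_grad, hm.fderiv_eq_zero, gbar] at h6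
  simp only [zero_apply, mul_zero, add_zero] at h6
  linarith

end

end Ap

open Ap in
theorem ap : BGStmt → WStmt → P1.APStmt := by
  intro hBG hW n hn θ t0 t1 lam B hOK
  obtain ⟨P0, hP0⟩ := hBG n lam 0 B
  have hθ : 0 < θ := hOK.θ_pos
  have hθ1 : θ ≤ 1 := hOK.θ_le
  have ht1 : 0 < t1 := by linarith [show 0 < t0 from hOK.t0_pos, show 4 * t0 ≤ t1 from hOK.t01]
  obtain ⟨N, e1, he1, hW⟩ := hW n hn θ t1 P0 hθ ht1
  set C1 := P0 ^ 2 + 2 * P0 + 3 * |B 0| + 7 with hC1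
  set C := |C1| + |3 * P0 + 9 * P0 ^ 2| + 2 with hC
  have hC0 : 0 < C := by positivity
  refine ⟨N + 1, min e1 C⁻¹, lt_min he1 (inv_pos.2 hC0), fun e he hle M hM z3 hz3 => ?_⟩
  have hX : C ≤ e⁻¹ := (le_inv_comm₀ hC0 he).2 (hle.trans (min_le_right _ _))
  have hX1 : 1 ≤ e⁻¹ := by
    linarith [abs_nonneg C1, abs_nonneg (3 * P0 + 9 * P0 ^ 2)]
  have he1' : e ≤ 1 := (one_le_inv₀ he).1 hX1
  have hXN : 1 ≤ e⁻¹ ^ N := one_le_pow₀ hX1
  have hM' : e⁻¹ ^ N * e⁻¹ ≤ M := by rw [← pow_succ, inv_pow]; exact hM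
  have hM1 : e⁻¹ ≤ M := le_trans (le_mul_of_one_le_left (by positivity) hXN) hM'
  set C4 := ((C1 + M + e⁻¹ ^ N) / e ^ 3 + 1) * Real.exp (2 * (z3 + 1)) with hC4
  refine ⟨max (P0 / e ^ 3) (max (max 3 (C4 / e ^ 2)) (P0 * (C4 / e ^ 2 * Real.exp 6) / e ^ 2)),
    fun c hc t ht L f z hL hpc hpf hpz hS => ?_⟩
  set P : Par := ⟨θ, t0, t1, e, M, z3⟩ with hP
  obtain ⟨h, -⟩ := hP0 c hc t ht
  have he2 : e ^ 2 ≤ 1 := pow_le_one₀ he.le he1'
  have d0 : e ^ 2 ≤ 1 - t * (1 - P.δ) := by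
    have := mul_le_of_le_one_left (sub_nonneg.2 he2) ht.2
    change e ^ 2 ≤ 1 - t * (1 - e ^ 2)
    linarith
  have d1 : 1 - t * (1 - P.δ) ≤ 1 := sub_le_self _ (mul_nonneg ht.1 (sub_nonneg.2 he2))
  have hφ := phi_eq_phd P c t f z
  have hd : Jd (c.gt t) (phi P c t f z) f univ :=
    hφ ▸ jd hc h.riem (lt_of_lt_of_le (by positivity) d0) d1 hS.f_smooth hS.z_smooth
  have hτ : 0 < P.τ := pow_pos he 3
  have hf := f_bound h hd hS.f_smooth hτ hS.jang hL (per_iff.1 hpf)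
  have hz := z_low (P := P) hc ht he hθ hz3 h hd hS hf (by
    change _ < M
    linarith [abs_nonneg C1, le_abs_self (3 * P0 + 9 * P0 ^ 2)]) hL (per_iff.1 hpz)
  have hz' : ∀ x, -3 ≤ z x := fun x => by
    have := hz x
    change -θ - 2 ≤ z x at this
    linarith
  obtain ⟨-, hWs, hσ, hW⟩ := hW P rfl rfl he (hle.trans (min_le_left _ _)) _ d0 d1 (c.gt t) (c.Kt t)
    c.EE c.a1 c.a2 f z h hS.f_smooth hS.z_smooth (hφ ▸ hS.jang) hf
  obtain ⟨y, hy⟩ := (per_WW (P := P) (d := 1 - t * (1 - P.δ)) (t := t) hpc hpf hpz).exists_max hL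
    hWs.continuous
  have hm : IsLocalMax _ y := Eventually.of_forall hy
  have hP2 := h.P_ge
  have hC1' : 0 ≤ C1 := by positivity
  have hM0 : 0 ≤ M := by linarith
  have hW0 : WW P (1 - t * (1 - P.δ)) (c.gt t) c.a1 c.a2 f z y ≤ C4 ^ 2 := by
    obtain ⟨-, -, w1, w2⟩ := hW y
    have k1 := divg_smul_grad_nonpos (hφ ▸ hd).riemb (mem_univ y)
      (hσ.differentiable (by simp) y) (by rw [sg]; positivity)
      (hWs.contDiffAt.of_le (by norm_cast)) hm
    rw [gam_eq_fderiv_grad _ (WW _ _ _ _ _ _ _), hm.fderiv_eq_zero] at w2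
    have k2 := hS.conf y
    rw [gbar] at k2
    rw [← hφ] at w1 w2 k1
    have k3 := le_GG (P := P) hc ht he he1' h hd (hf y) (hz' y)
    have k4 := gm_mul_pp hd y
    have k5 := hd.one_le_gm (mem_univ y)
    have k6 : P.τ * (gm (c.gt t) (phi P c t f z) f y - 1) - C1 + P.vt (z y) - e⁻¹ ^ N ≤ 0 := by
      have := mul_le_mul_of_nonneg_left k4 hτ.le
      simp only [zero_apply, mul_zero, add_zero, mul_one] at w2
      change _ - e⁻¹ ^ N ≤ _ at w2
      linarith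
    have k7 := mul_nonneg hτ.le (sub_nonneg.2 k5)
    have k8 : z y ≤ z3 + 1 := by
      by_contra hh
      rw [vt_high (P := P) (by change -θ - 2 ≤ z3; linarith) (not_le.1 hh).le] at k6
      change _ + M - _ ≤ _ at k6
      have := mul_le_mul_of_nonneg_right hXN (sub_nonneg.2 hX1)
      linarith [le_abs_self C1, abs_nonneg (3 * P0 + 9 * P0 ^ 2)]
    have k9 : gm (c.gt t) (phi P c t f z) f y ≤ (C1 + M + e⁻¹ ^ N) / e ^ 3 + 1 := by
      have := vt_ge (P := P) hM0 (z y)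
      change -M ≤ _ at this
      rw [← sub_le_iff_le_add, le_div_iff₀ (by positivity)]
      change e ^ 3 * _ - _ + _ - _ ≤ _ at k6
      linarith
    refine w1.trans ?_
    rw [hC4]
    gcongr
  have hC4' : 0 ≤ C4 := by positivity
  intro x
  obtain ⟨w0, w1, -⟩ := hW x
  rw [← hφ] at w0 w1
  have k0 := hd.one_le_gm (mem_univ x)
  have k1 : gm (c.gt t) (phi P c t f z) f x * Real.exp (2 * z x) ≤ C4 / e ^ 2 := by
    rw [le_div_iff₀ (by positivity)]
    refine (abs_le_of_sq_le_sq' ?_ hC4').2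
    change e ^ 4 * _ ≤ _ at w1
    calc _ = e ^ 4 * (gm (c.gt t) (phi P c t f z) f x * Real.exp (2 * z x)) ^ 2 := by ring
      _ ≤ _ := w1.trans ((hy x).trans hW0)
  have k2 : Real.exp (2 * z x) ≤ C4 / e ^ 2 :=
    (le_mul_of_one_le_left (Real.exp_pos _).le k0).trans k1
  have k3 : gm (c.gt t) (phi P c t f z) f x ≤ C4 / e ^ 2 * Real.exp 6 := by
    have : 1 ≤ Real.exp (2 * z x) * Real.exp 6 := by
      rw [← Real.exp_add]; exact Real.one_le_exp (by linarith [hz' x])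
    calc _ ≤ gm (c.gt t) (phi P c t f z) f x * (Real.exp (2 * z x) * Real.exp 6) :=
          le_mul_of_one_le_right (by linarith) this
      _ ≤ _ := by rw [← mul_assoc]; gcongr
  refine ⟨le_max_of_le_left ?_, le_max_of_le_right (le_max_of_le_left (abs_le.2 ⟨?_, ?_⟩)),
    le_max_of_le_right (le_max_of_le_right ?_)⟩
  · have := hf x
    rw [abs_mul, abs_of_pos hτ] at this
    rw [le_div_iff₀ (by positivity), mul_comm]
    exact this
  · linarith [hz' x, le_max_left 3 (C4 / e ^ 2)]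
  · have := Real.add_one_le_exp (2 * z x)
    have := Real.exp_pos (2 * z x)
    linarith [le_max_right 3 (C4 / e ^ 2), le_max_left 3 (C4 / e ^ 2)]
  · refine (norm_df_le h hd (pow_pos he 2) w0.1).trans ?_
    gcongr

end Crest.Agent.N346.Bd

end
end

-- ▼ part N346/Bd/BG
section

/-!
Row 346, Bd-BG (helper16): coordinate bounds give bounded geometry.
-/

set_option autoImplicit false

open MeasureTheory Filter Set
open scoped ContDiff Topology
open Crest.GeometryTopology.CoordMetric Crest.MathPhysics.ExteriorData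
open Crest.Agent.R202.Tens Crest.Agent.R247.Bo84 Crest.Agent.N346.Id Crest.Agent.N346.P1
open Crest.Agent.N346.An (UB UC UPos)
open Crest.Agent.N346.Br (GU Ix)

noncomputable section

namespace Crest.Agent.N346.Bd.BGx

variable {n : ℕ} {ι : Type} {g K : ι → MetricField n}

theorem uc_bil (h : ∀ i j, UC fun a x => K a x i j) : UC fun a x => bil (K a x) :=
  UB.sum _ fun i _ => UB.sum _ fun j _ => (h i j).smul (UB.const' _)

theorem uc_Gam (h : GU g) : UC fun a x => Gam (g a) x :=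
  UB.sum _ fun i _ => UB.sum _ fun j _ => UB.sum _ fun k _ => (h.uc_chr k i j).smul (UB.const' _)

theorem bil_bd (h : ∀ i j, UC fun a x => K a x i j) :
    ∃ C, 0 ≤ C ∧ ∀ a x Y Z, |bil (K a x) Y Z| ≤ C * ‖Y‖ * ‖Z‖ := by
  obtain ⟨C, h0, hC⟩ := (uc_bil h).bdd 0
  exact ⟨C, h0, fun a x Y Z => ((bil (K a x)).le_opNorm₂ Y Z).trans
    (by gcongr; exact hC a x le_rfl)⟩

theorem Gam_bd (h : GU g) : ∃ C, 0 ≤ C ∧ ∀ a x Y Z, ‖Gam (g a) x Y Z‖ ≤ C * ‖Y‖ * ‖Z‖ := by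
  obtain ⟨C, h0, hC⟩ := (uc_Gam h).bdd 0
  exact ⟨C, h0, fun a x Y Z => ((Gam (g a) x).le_opNorm₂ Y Z).trans
    (by gcongr; exact hC a x le_rfl)⟩

theorem norm_sq_le (h : GU g) : ∃ L, 0 < L ∧ ∀ a x Y, ‖Y‖ ^ 2 ≤ L * bil (g a x) Y Y := by
  obtain ⟨lam, h0, h1⟩ := h.lo
  refine ⟨lam⁻¹, by positivity, fun a x Y => ?_⟩
  rw [le_inv_mul_iff₀ h0, bil_apply]
  exact h1 a x Y

theorem norm_le (h : GU g) : ∃ L, 0 < L ∧ ∀ a x Y, bil (g a x) Y Y ≤ 1 → ‖Y‖ ≤ L := by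
  obtain ⟨L, h0, h1⟩ := norm_sq_le h
  refine ⟨1 + L, by positivity, fun a x Y hY => ?_⟩
  nlinarith [h1 a x Y, mul_le_mul_of_nonneg_left hY h0.le, norm_nonneg Y, sq_nonneg (‖Y‖ - 1)]

theorem ev_abs {u : ι → E n → ℝ} (h : UC u) : ∀ᶠ P in atTop, ∀ a x, |u a x| ≤ P := by
  obtain ⟨C, -, hC⟩ := h.bdd 0
  filter_upwards [eventually_ge_atTop C] with P hP a x using (hC a x le_rfl).trans hP

theorem ev_quad (h : GU g) {q : ι → E n → E n → ℝ} {C : ℝ} (hC : 0 ≤ C)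
    (hq : ∀ a x Y, |q a x Y| ≤ C * ‖Y‖ * ‖Y‖) :
    ∀ᶠ P in atTop, ∀ a x Y, |q a x Y| ≤ P * bil (g a x) Y Y := by
  obtain ⟨L, h0, h1⟩ := norm_sq_le h
  filter_upwards [eventually_ge_atTop (C * L)] with P hP a x Y
  have h2 := bil_self_nonneg (h.riem a) (mem_univ x) Y
  calc |q a x Y| ≤ C * ‖Y‖ ^ 2 := by rw [pow_two, ← mul_assoc]; exact hq a x Y
    _ ≤ C * (L * bil (g a x) Y Y) := mul_le_mul_of_nonneg_left (h1 a x Y) hC
    _ ≤ _ := by rw [← mul_assoc]; exact mul_le_mul_of_nonneg_right hP h2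

theorem ev_b2 (h : GU g) (Cu : ℝ) : ∀ᶠ P in atTop, ∀ a (u : E n → ℝ), ContDiff ℝ ∞ u →
    (∀ x, ‖fderiv ℝ u x‖ ≤ Cu) → (∀ x, ‖fderiv ℝ (fderiv ℝ u) x‖ ≤ Cu) → B2 P (g a) u := by
  obtain ⟨lo, hi, hlo, hlh, hE⟩ := h.inv_bounds
  obtain ⟨C, hC0, hC⟩ := Gam_bd h
  obtain ⟨L, h0, h1⟩ := norm_sq_le h
  filter_upwards [eventually_ge_atTop (hi * Cu ^ 2), eventually_ge_atTop ((Cu + Cu * C) * L)]
    with P hP hP' a u hu d1 d2
  have hCu : 0 ≤ Cu := (norm_nonneg _).trans (d1 0)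
  refine ⟨hu, fun x => ?_, fun x Y => ?_⟩
  · have h2 := ((hE a x).2 fun i => pderiv i u x).2
    simp only [pow_two, Bs.sum_pd_sq] at h2
    refine le_trans h2 (le_trans (mul_le_mul_of_nonneg_left ?_ (hlo.le.trans hlh)) hP)
    rw [← pow_two]
    exact pow_le_pow_left₀ (norm_nonneg _) (d1 x) 2
  · have h2 := bil_self_nonneg (h.riem a) (mem_univ x) Y
    have h3 : |fderiv ℝ (fderiv ℝ u) x Y Y| ≤ Cu * ‖Y‖ * ‖Y‖ :=
      ((fderiv ℝ (fderiv ℝ u) x).le_opNorm₂ Y Y).trans (by gcongr; exact d2 x)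
    have h4 : |fderiv ℝ u x (Gam (g a) x Y Y)| ≤ Cu * (C * ‖Y‖ * ‖Y‖) :=
      ((fderiv ℝ u x).le_opNorm _).trans (mul_le_mul (d1 x) (hC a x Y Y) (norm_nonneg _) hCu)
    calc |hess (g a) u x Y Y| ≤ Cu * ‖Y‖ * ‖Y‖ + Cu * (C * ‖Y‖ * ‖Y‖) := by
          rw [hess_apply]; exact (abs_sub _ _).trans (add_le_add h3 h4)
      _ = (Cu + Cu * C) * ‖Y‖ ^ 2 := by ring
      _ ≤ (Cu + Cu * C) * (L * bil (g a x) Y Y) :=
          mul_le_mul_of_nonneg_left (h1 a x Y) (by positivity)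
      _ ≤ _ := by rw [← mul_assoc]; exact mul_le_mul_of_nonneg_right hP' h2

theorem ev_b2_uc (h : GU g) {u : ι → E n → ℝ} (hu : UC u) :
    ∀ᶠ P in atTop, ∀ a, B2 P (g a) (u a) := by
  obtain ⟨C1, p1, h1⟩ := hu.bdd1 0
  obtain ⟨C2, p2, h2⟩ := hu.fd.bdd1 0
  filter_upwards [ev_b2 h (C1 + C2)] with P hP a
  exact hP a _ (hu.1 a) (fun x => (h1 a x le_rfl).trans (by linarith))
    fun x => (h2 a x le_rfl).trans (by linarith)

theorem uc_normSqK (h : GU g) (hK : ∀ i j, UC fun a x => K a x i j) :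
    UC fun a => normSqK (g a) (K a) :=
  UB.sum _ fun i _ => UB.sum _ fun j _ => UB.sum _ fun k _ => UB.sum _ fun l _ =>
    (((h.uc_inv i k).mul (h.uc_inv j l)).mul (hK i j)).mul (hK k l)

theorem uc_energy (h : GU g) (hK : ∀ i j, UC fun a x => K a x i j) :
    UC fun a => energyDensity (g a) (K a) :=
  (((h.uc_scal.add ((h.uc_traceK hK).pow 2)).sub (uc_normSqK h hK)).mul (UB.const' 2⁻¹)).congr
    fun _ _ => div_eq_mul_inv _ _

theorem uc_mom (h : GU g) (hK : ∀ i j, UC fun a x => K a x i j) (i : Fin n) :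
    UC fun a x => momentumDensity (g a) (K a) x i :=
  (UB.sum _ fun j _ => UB.sum _ fun k _ => (h.uc_inv j k).mul
    ((((hK i j).pd k).sub (UB.sum _ fun l _ => (h.uc_chr l k i).mul (hK l j))).sub
      (UB.sum _ fun l _ => (h.uc_chr l k j).mul (hK i l)))).sub ((h.uc_traceK hK).pd i)

theorem uc_eSq (h : GU g) {EE : ι → VectorField n} (hE : ∀ i, UC fun a x => EE a x i) :
    UC fun a => eSq (g a) (EE a) :=
  (UB.sum _ fun i _ => UB.sum _ fun j _ => ((h.uc i j).mul (hE i)).mul (hE j)).div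
    h.uc_det h.upos_det

theorem ev_cK (h : GU g) (hK : ∀ i j, UC fun a x => K a x i j) :
    ∀ᶠ P in atTop, ∀ a x W, bil (g a x) W W ≤ 1 → |cK (g a) (K a) x W| ≤ P := by
  obtain ⟨L, h0, h1⟩ := norm_le h
  obtain ⟨C, hC0, hC⟩ := Gam_bd h
  obtain ⟨D, hD0, hD⟩ := bil_bd hK
  choose F hF0 hF using fun i j => (hK i j).bdd1 0
  filter_upwards [eventually_ge_atTop
    ((∑ i, ∑ j, F i j * L * L * L) + 2 * (D * (C * L * L) * L))] with P hP a x W hW
  have hL := h1 a x W hW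
  have hd := fun i j => (((hK i j).1 a).differentiable (by simp) x).hasFDerivAt
  have e : fderiv ℝ (fun y => bil (K a y) W W) x W
      = ∑ i, ∑ j, fderiv ℝ (fun y => K a y i j) x W * W i * W j := by
    have := (HasFDerivAt.fun_sum (u := Finset.univ) fun i _ =>
      HasFDerivAt.fun_sum (u := Finset.univ) fun j _ =>
        ((hd i j).mul_const (W i)).mul_const (W j)).fderiv
    simp only [bil_apply]
    rw [this]
    simp only [ContinuousLinearMap.sum_apply, ContinuousLinearMap.smul_apply, smul_eq_mul]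
    exact Finset.sum_congr rfl fun i _ => Finset.sum_congr rfl fun j _ => by ring
  have h2 : |∑ i, ∑ j, fderiv ℝ (fun y => K a y i j) x W * W i * W j|
      ≤ ∑ i, ∑ j, F i j * L * L * L := by
    refine (Finset.abs_sum_le_sum_abs _ _).trans (Finset.sum_le_sum fun i _ =>
      (Finset.abs_sum_le_sum_abs _ _).trans (Finset.sum_le_sum fun j _ => ?_))
    have q1 : |fderiv ℝ (fun y => K a y i j) x W| ≤ F i j * L :=
      ((fderiv ℝ (fun y => K a y i j) x).le_opNorm W).trans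
        (mul_le_mul (hF i j a x le_rfl) hL (norm_nonneg _) (hF0 i j))
    have q2 : ∀ i, |W i| ≤ L := fun i => (PiLp.norm_apply_le W i).trans hL
    have := hF0 i j
    rw [abs_mul, abs_mul]
    exact mul_le_mul (mul_le_mul q1 (q2 i) (abs_nonneg _) (by positivity)) (q2 j) (abs_nonneg _)
      (by positivity)
  have h3 : |bil (K a x) (Gam (g a) x W W) W| ≤ D * (C * L * L) * L := by
    refine (hD a x _ _).trans ?_
    have : ‖Gam (g a) x W W‖ ≤ C * L * L := (hC a x W W).trans (by gcongr)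
    gcongr
  rw [cK, e]
  refine (abs_sub _ _).trans ?_
  rw [abs_mul, abs_two]
  linarith

theorem ev_J (h : GU g) (hK : ∀ i j, UC fun a x => K a x i j) :
    ∀ᶠ P in atTop, ∀ a x W, bil (g a x) W W ≤ 1 → |Jw (g a) (K a) x W| ≤ P := by
  obtain ⟨L, h0, h1⟩ := norm_le h
  obtain ⟨C, hC0, hC⟩ := (UB.pi (w := fun a x i => momentumDensity (g a) (K a) x i)
    (uc_mom h hK)).bdd 0
  filter_upwards [eventually_ge_atTop (∑ _i : Fin n, C * L)] with P hP a x W hW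
  refine ((Finset.abs_sum_le_sum_abs _ _).trans (Finset.sum_le_sum fun i _ => ?_)).trans hP
  rw [abs_mul]
  exact mul_le_mul ((norm_le_pi_norm (fun i => momentumDensity (g a) (K a) x i) i).trans
    (hC a x le_rfl)) ((PiLp.norm_apply_le W i).trans (h1 a x W hW)) (abs_nonneg _) hC0

theorem ev_bg (h : GU g) (hK : ∀ i j, UC fun a x => K a x i j)
    (hKs : ∀ a x i j, K a x i j = K a x j i) {EE : ι → VectorField n}
    (hE : ∀ i, UC fun a x => EE a x i) {a1 a2 : ι → E n → ℝ} (h1 : UC a1) (h2 : UC a2)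
    (m1 : ∀ a x, a1 a x ∈ Icc (0 : ℝ) 1) (m2 : ∀ a x, a2 a x ∈ Icc (0 : ℝ) 1) :
    ∀ᶠ P in atTop, ∀ a, BG P (g a) (K a) (EE a) (a1 a) (a2 a) := by
  obtain ⟨L, hL0, hL⟩ := norm_sq_le h
  obtain ⟨L', hL0', hL'⟩ := norm_le h
  obtain ⟨Cg, hg0, hg⟩ := bil_bd h.uc
  obtain ⟨CR, hR0, hR⟩ := bil_bd (K := fun a => ricM (g a)) h.uc_ric
  obtain ⟨D, hD0, hD⟩ := bil_bd hK
  obtain ⟨c, hc0, hc⟩ := h.det_lo
  obtain ⟨F, hF0, hF⟩ := (h.uc_traceK hK).bdd1 0
  filter_upwards [eventually_ge_atTop 2, ev_b2_uc h h1, ev_b2_uc h (h1.mul h2),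
    ev_abs (uc_eSq h hE), eventually_ge_atTop L, eventually_ge_atTop Cg,
    eventually_ge_atTop (√c)⁻¹, ev_abs h.uc_vol, ev_abs h.uc_scal,
    ev_quad h (q := fun a x Y => bil (ricM (g a) x) Y Y) hR0 fun a x Y => hR a x Y Y,
    eventually_ge_atTop (D * L), ev_abs (h.uc_traceK hK), eventually_ge_atTop (F * L'),
    ev_cK h hK, ev_abs (uc_energy h hK), ev_J h hK]
    with P p1 p2 p3 p4 p5 p6 p7 p8 p9 p10 p11 p12 p13 p14 p15 p16 a
  have hn := fun x Y => bil_self_nonneg (h.riem a) (mem_univ x) Y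
  refine ⟨p1, h.riem a, ⟨fun i j => ((hK i j).1 a).contDiffOn, fun x _ => hKs a x⟩, m1 a, m2 a,
    p2 a, p3 a, fun x => (le_abs_self _).trans (p4 a x),
    fun x Y => (hL a x Y).trans (mul_le_mul_of_nonneg_right p5 (hn x Y)), fun x Y => ?_,
    fun x => ?_, fun x => (le_abs_self _).trans (p8 a x), p9 a, p10 a, fun x Y Z => ?_, p12 a,
    fun x W hW => ?_, p14 a, p15 a, p16 a⟩
  · refine (le_abs_self _).trans ((hg a x Y Y).trans ?_)
    rw [mul_assoc, ← pow_two]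
    exact mul_le_mul_of_nonneg_right p6 (sq_nonneg _)
  · exact (inv_le_of_inv_le₀ (Real.sqrt_pos.2 hc0) p7).trans (Real.sqrt_le_sqrt (hc a x))
  · calc bil (K a x) Y Z ^ 2 ≤ (D * ‖Y‖ * ‖Z‖) ^ 2 := sq_le_sq' (abs_le.1 (hD a x Y Z)).1
          (abs_le.1 (hD a x Y Z)).2
      _ = D ^ 2 * (‖Y‖ ^ 2 * ‖Z‖ ^ 2) := by ring
      _ ≤ D ^ 2 * (L * bil (g a x) Y Y * (L * bil (g a x) Z Z)) := by
          gcongr
          · exact mul_nonneg hL0.le (hn x Y)
          · exact hL a x Y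
          · exact hL a x Z
      _ = (D * L) ^ 2 * (bil (g a x) Y Y * bil (g a x) Z Z) := by ring
      _ ≤ _ := mul_le_mul_of_nonneg_right (pow_le_pow_left₀ (by positivity) p11 2)
          (mul_nonneg (hn x Y) (hn x Z))
  · exact ((fderiv ℝ (traceK (g a) (K a)) x).le_opNorm W).trans
      ((mul_le_mul (hF a x le_rfl) (hL' a x W hW) (norm_nonneg _) hF0).trans p13)

theorem gu_gt (n : ℕ) (lam : ℝ) (B : ℕ → ℝ) : GU fun a : Ix n lam B => a.1.1.gt a.1.2 := by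
  refine ⟨fun a => Br.riem_gt a.2.1 a.2.2, fun i j =>
    ((((UB.const' 1).sub Br.ub_t).mul (UB.const' ((1 : Matrix (Fin n) (Fin n) ℝ) i j))).add
      (Br.ub_t.mul (Br.uc_comp (u := fun c x => c.g x i j) fun c => Or.inl ⟨i, j, rfl⟩))).congr
      fun _ _ => rfl, max lam 0 + if 0 < lam then 0 else 1, by split_ifs <;> positivity,
      fun a x v => ?_⟩
  rw [if_pos a.2.1.lam_pos, max_eq_left a.2.1.lam_pos.le, add_zero, Bs.norm_sq_eq]
  exact Br.gt_lo a.2.1 a.2.2 x v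

end Crest.Agent.N346.Bd.BGx

namespace Crest.Agent.N346.Bd
open BGx

theorem bg : BGStmt := by
  intro n lam Cu B
  have h := ev_bg (gu_gt n lam B) (K := fun a => a.1.1.Kt a.1.2) (EE := fun a => a.1.1.EE)
    (a1 := fun a => a.1.1.a1) (a2 := fun a => a.1.1.a2)
    (fun i j => (Br.ub_t.mul (Br.uc_comp (u := fun c x => c.K x i j)
      fun c => Or.inr (Or.inl ⟨i, j, rfl⟩))).congr fun _ _ => rfl)
    (fun a x i j => by
      show a.1.2 * a.1.1.K x i j = a.1.2 * a.1.1.K x j i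
      rw [a.2.1.K_symm])
    (fun i => Br.uc_comp (u := fun c x => c.EE x i) fun c => Or.inr (Or.inr (Or.inl ⟨i, rfl⟩)))
    (Br.uc_comp fun c => by simp [P1.Coef.comps]) (Br.uc_comp fun c => by simp [P1.Coef.comps])
    (fun a => a.2.1.a1_mem) fun a => a.2.1.a2_mem
  obtain ⟨P, h1, h2⟩ := (h.and (ev_b2 (gu_gt n lam B) Cu)).exists
  exact ⟨P, fun c hc t ht => ⟨h1 ⟨(c, t), hc, ht⟩, h2 ⟨(c, t), hc, ht⟩⟩⟩

end Crest.Agent.N346.Bd

end
end

-- ▼ part N346/Bd/DG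
section

/-!
Row 346, Part 1 (helper98): the abstract degenerate De Giorgi – Stampacchia lemma.
-/

set_option autoImplicit false

open MeasureTheory Filter Set
open scoped ContDiff Topology
open Crest.GeometryTopology.CoordMetric Crest.MathPhysics.ExteriorData
open Crest.Agent.R202.Tens Crest.Agent.R247.Bo84 Crest.Agent.N346.Id Crest.Agent.N346.P1

noncomputable section

namespace Crest.Agent.N346.Bd

namespace DG

theorem hasDerivAt_q2 (t : ℝ) : HasDerivAt (fun s : ℝ => max s 0 ^ 2) (2 * max t 0) t := by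
  rcases lt_trichotomy t 0 with h | h | h
  · rw [max_eq_right h.le, mul_zero]
    refine (hasDerivAt_const t (0 : ℝ)).congr_of_eventuallyEq ?_
    filter_upwards [Iio_mem_nhds h] with s hs
    rw [max_eq_right (le_of_lt hs)]; norm_num
  · subst h
    rw [hasDerivAt_iff_isLittleO_nhds_zero]
    refine Asymptotics.IsBigO.trans_isLittleO (g := fun h : ℝ => h ^ 2) ?_
      (Asymptotics.isLittleO_pow_id (by norm_num))
    refine Asymptotics.IsBigO.of_bound 1 (Eventually.of_forall fun s => ?_)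
    rcases le_total s 0 with hs | hs
    · simp [max_eq_right hs]
      positivity
    · simp [max_eq_left hs]
  · rw [max_eq_left h.le]
    have : HasDerivAt (fun s : ℝ => s ^ 2) (2 * t) t := by simpa using hasDerivAt_pow 2 t
    refine this.congr_of_eventuallyEq ?_
    filter_upwards [Ioi_mem_nhds h] with s hs
    rw [max_eq_left (le_of_lt hs)]

theorem q3_eq (s : ℝ) : max s 0 ^ 3 = max s 0 ^ 2 * s := by
  rcases le_total s 0 with hs | hs
  · simp [max_eq_right hs]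
  · rw [max_eq_left hs]; ring

theorem hasDerivAt_q3 (t : ℝ) : HasDerivAt (fun s : ℝ => max s 0 ^ 3) (3 * max t 0 ^ 2) t := by
  have h := (hasDerivAt_q2 t).mul (hasDerivAt_id t)
  have e : (fun s : ℝ => max s 0 ^ 3) = (fun s : ℝ => max s 0 ^ 2) * id := by
    funext s; simp [q3_eq]
  rw [e]
  refine h.congr_deriv ?_
  rcases le_total t 0 with hs | hs
  · simp [max_eq_right hs]
  · rw [max_eq_left hs, id]; ring

theorem contDiff_q2 : ContDiff ℝ 1 fun s : ℝ => max s 0 ^ 2 := by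
  rw [contDiff_one_iff_deriv]
  refine ⟨fun t => (hasDerivAt_q2 t).differentiableAt, ?_⟩
  have : deriv (fun s : ℝ => max s 0 ^ 2) = fun t => 2 * max t 0 :=
    funext fun t => (hasDerivAt_q2 t).deriv
  rw [this]; fun_prop

theorem contDiff_q3 : ContDiff ℝ 1 fun s : ℝ => max s 0 ^ 3 := by
  simp only [q3_eq]
  exact contDiff_q2.mul contDiff_id

/-- the iteration -/
theorem iter {a : ℕ → ℝ} {m : ℕ} (hm : m ≠ 0) {D c : ℝ} (hD0 : 0 ≤ D) (hc : 0 < c)
    (hca : ∀ j, c ≤ a j) (hrec : ∀ j, a (j + 1) ^ m ≤ D * (8 ^ j * a j) ^ (m + 1))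
    (hD : D * 8 ^ ((m + 1) * m) * a 0 ≤ 1) : False := by
  have ha : ∀ j, 0 ≤ a j := fun j => hc.le.trans (hca j)
  have key : ∀ j, (8 ^ (m + 1)) ^ j * a j ≤ a 0 := by
    intro j
    induction j with
    | zero => simp
    | succ j ih =>
      refine le_of_pow_le_pow_left₀ hm (ha 0) ?_
      have h0 : 0 ≤ ((8 : ℝ) ^ (m + 1)) ^ j * a j := mul_nonneg (by positivity) (ha j)
      calc (((8 : ℝ) ^ (m + 1)) ^ (j + 1) * a (j + 1)) ^ m
          = (((8 : ℝ) ^ (m + 1)) ^ (j + 1)) ^ m * a (j + 1) ^ m := mul_pow _ _ _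
        _ ≤ (((8 : ℝ) ^ (m + 1)) ^ (j + 1)) ^ m * (D * (8 ^ j * a j) ^ (m + 1)) :=
          mul_le_mul_of_nonneg_left (hrec j) (by positivity)
        _ = D * 8 ^ ((m + 1) * m) * (((8 : ℝ) ^ (m + 1)) ^ j * a j) ^ (m + 1) := by
          simp only [mul_pow, ← pow_mul]; ring
        _ ≤ D * 8 ^ ((m + 1) * m) * a 0 ^ (m + 1) :=
          mul_le_mul_of_nonneg_left (pow_le_pow_left₀ h0 ih _) (by positivity)
        _ = (D * 8 ^ ((m + 1) * m) * a 0) * a 0 ^ m := by ring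
        _ ≤ 1 * a 0 ^ m := mul_le_mul_of_nonneg_right hD (pow_nonneg (ha 0) _)
        _ = a 0 ^ m := one_mul _
  obtain ⟨j, hj⟩ := pow_unbounded_of_one_lt (a 0 / c)
    (one_lt_pow₀ (by norm_num : (1 : ℝ) < 8) (Nat.succ_ne_zero m))
  rw [div_lt_iff₀ hc] at hj
  have := mul_le_mul_of_nonneg_left (hca j) (by positivity : (0 : ℝ) ≤ (8 ^ (m + 1)) ^ j)
  exact absurd (key j) (not_le.2 (hj.trans_le this))

/-- Sobolev inequality in the form used -/
theorem sob (m : ℕ) (hm : m ≠ 0) : ∃ C : ℝ, 0 ≤ C ∧ ∀ (u : E (m + 1) → ℝ) (s : Set (E (m + 1)))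
    (c X : ℝ), ContDiff ℝ 1 u → HasCompactSupport u → MeasurableSet s → volume s ≠ ⊤ → 0 ≤ c →
    (∀ x ∈ s, c ≤ u x) → ∫ x, ‖fderiv ℝ u x‖ ≤ X →
    c ^ (m + 1) * volume.real s ^ m ≤ C * X ^ (m + 1) := by
  have hm' : (0 : ℝ) < m := by positivity
  set p : ℝ := (m + 1) / m with hp
  have hp0 : 0 ≤ p := by positivity
  have hpm : p * m = ((m + 1 : ℕ) : ℝ) := by rw [hp]; push_cast; field_simp
  have hc : Real.HolderConjugate (Module.finrank ℝ (E (m + 1))) p := by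
    rw [finrank_euclideanSpace_fin]
    refine ⟨?_, by positivity, by positivity⟩
    rw [hp]; push_cast; field_simp; ring
  set C := lintegralPowLePowLIntegralFDerivConst (volume : Measure (E (m + 1))) p
  refine ⟨(C : ℝ) ^ m, by positivity, fun u s c X hu hcu hs hfin hc0 hcu' hX => ?_⟩
  have hint : Integrable (fderiv ℝ u) :=
    (hu.continuous_fderiv one_ne_zero).integrable_of_hasCompactSupport (hcu.fderiv ℝ)
  have hX0 : 0 ≤ X := (integral_nonneg fun _ => norm_nonneg _).trans hX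
  have h1 : ENNReal.ofReal (c ^ p) * volume s ≤ ENNReal.ofReal (C * X ^ p) := by
    calc ENNReal.ofReal (c ^ p) * volume s = ∫⁻ _ in s, ENNReal.ofReal (c ^ p) :=
          (setLIntegral_const _ _).symm
      _ ≤ ∫⁻ x in s, ‖u x‖ₑ ^ p := by
          refine setLIntegral_mono' hs fun x hx => ?_
          rw [← ENNReal.ofReal_rpow_of_nonneg hc0 hp0, ← ofReal_norm]
          exact ENNReal.rpow_le_rpow (ENNReal.ofReal_le_ofReal
            ((hcu' x hx).trans (le_abs_self _))) hp0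
      _ ≤ ∫⁻ x, ‖u x‖ₑ ^ p := setLIntegral_le_lintegral _ _
      _ ≤ C * (∫⁻ x, ‖fderiv ℝ u x‖ₑ) ^ p := lintegral_pow_le_pow_lintegral_fderiv _ hu hcu hc
      _ ≤ C * ENNReal.ofReal X ^ p := by
          rw [← ofReal_integral_norm_eq_lintegral_enorm hint]
          gcongr
      _ = ENNReal.ofReal (C * X ^ p) := by
          rw [ENNReal.ofReal_mul (NNReal.coe_nonneg C), ENNReal.ofReal_rpow_of_nonneg hX0 hp0,
            ENNReal.ofReal_coe_nnreal]
  have h2 : c ^ p * volume.real s ≤ C * X ^ p := by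
    have := ENNReal.toReal_mono ENNReal.ofReal_ne_top h1
    rwa [ENNReal.toReal_mul, ENNReal.toReal_ofReal (by positivity),
      ENNReal.toReal_ofReal (by positivity)] at this
  have h3 := pow_le_pow_left₀ (by positivity) h2 m
  rwa [mul_pow, mul_pow, ← Real.rpow_natCast (c ^ p), ← Real.rpow_natCast (X ^ p),
    ← Real.rpow_mul hc0, ← Real.rpow_mul hX0, hpm, Real.rpow_natCast, Real.rpow_natCast] at h3

/-- the pointwise inequality -/
theorem ptw {P z d g a w : ℝ} (hP : 2 ≤ P) (hz0 : 0 ≤ z) (hz1 : z ≤ 1) (hg : 0 ≤ g)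
    (ha : 0 ≤ a) (h : d ^ 2 ≤ P * g * a) (hw : g / P - P ≤ w) :
    3 * z ^ 2 * d ≤ 2 * P ^ 2 * (z ^ 2 * w + 2 * z * a) + 2 * P ^ 3 * z ^ 2 := by
  have hP0 : 0 < P := by linarith
  have h1 : z ^ 2 * d ≤ (z * a + P * z ^ 2 * g) / 2 := by
    refine le_of_pow_le_pow_left₀ two_ne_zero (by positivity) ?_
    have e1 : (z ^ 2 * d) ^ 2 ≤ z ^ 4 * (P * g * a) := by
      rw [mul_pow, ← pow_mul]; exact mul_le_mul_of_nonneg_left h (by positivity)
    have e2 : z ^ 4 * (P * g * a) ≤ (z * a) * (P * z ^ 2 * g) := by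
      have : z * ((z * a) * (P * z ^ 2 * g)) ≤ 1 * ((z * a) * (P * z ^ 2 * g)) :=
        mul_le_mul_of_nonneg_right hz1 (by positivity)
      nlinarith
    nlinarith [sq_nonneg (z * a - P * z ^ 2 * g)]
  have h2 : P * g ≤ P ^ 2 * w + P ^ 3 := by
    have := mul_le_mul_of_nonneg_left hw (by positivity : 0 ≤ P ^ 2)
    have e : P ^ 2 * (g / P - P) = P * g - P ^ 3 := by field_simp
    linarith
  have h3 := mul_le_mul_of_nonneg_left h2 (by positivity : 0 ≤ z ^ 2)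
  have h4 : 0 ≤ z * a := by positivity
  have h5 : 0 ≤ P * z ^ 2 * g := by positivity
  have h6 : 1 * (z * a) ≤ P ^ 2 * (z * a) := mul_le_mul_of_nonneg_right (by nlinarith) h4
  nlinarith

variable {n : ℕ}

/-- the energy estimate -/
theorem energy {P k : ℝ} (hP : 2 ≤ P) {ψ γ : E n → ℝ} {V : E n → E n} (hψ : ContDiff ℝ 1 ψ)
    (hV : ContDiff ℝ 1 V) (h1 : ∀ x, ψ x ≤ 1) (hb : Bornology.IsBounded {x | 1 / 4 ≤ ψ x})
    (h : ∀ x, 1 / 4 < ψ x → 0 ≤ γ x ∧ ‖fderiv ℝ ψ x‖ ^ 2 ≤ P * γ x * fderiv ℝ ψ x (V x) ∧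
      γ x / P - P ≤ divE (fun y i => V y i) x) (hk : 1 / 4 ≤ k) :
    ContDiff ℝ 1 (fun x => max (ψ x - k) 0 ^ 3) ∧ HasCompactSupport (fun x => max (ψ x - k) 0 ^ 3) ∧
    ∫ x, ‖fderiv ℝ (fun x => max (ψ x - k) 0 ^ 3) x‖ ≤ 2 * P ^ 3 * volume.real {x | k < ψ x} := by
  have hK : IsCompact {x | 1 / 4 ≤ ψ x} :=
    Metric.isCompact_of_isClosed_isBounded (isClosed_le continuous_const hψ.continuous) hb
  have hz : ∀ x, x ∉ {x | 1 / 4 ≤ ψ x} → max (ψ x - k) 0 = 0 := fun x hx =>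
    max_eq_right (by simp only [mem_ofPred_eq, not_le] at hx; linarith)
  have hψk : ContDiff ℝ 1 fun x => ψ x - k := hψ.sub contDiff_const
  have c2 : ContDiff ℝ 1 fun x => max (ψ x - k) 0 ^ 2 := contDiff_q2.comp hψk
  have c3 : ContDiff ℝ 1 fun x => max (ψ x - k) 0 ^ 3 := contDiff_q3.comp hψk
  have s1 : HasCompactSupport fun x => max (ψ x - k) 0 := .intro hK hz
  have s2 : HasCompactSupport fun x => max (ψ x - k) 0 ^ 2 :=
    .intro hK fun x hx => by rw [hz x hx]; norm_num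
  have s3 : HasCompactSupport fun x => max (ψ x - k) 0 ^ 3 :=
    .intro hK fun x hx => by rw [hz x hx]; norm_num
  refine ⟨c3, s3, ?_⟩
  have hd : ∀ x, HasFDerivAt (fun x => ψ x - k) (fderiv ℝ ψ x) x := fun x =>
    (hψ.differentiable one_ne_zero x).hasFDerivAt.sub_const k
  have d2 : ∀ x, fderiv ℝ (fun x => max (ψ x - k) 0 ^ 2) x
      = (2 * max (ψ x - k) 0) • fderiv ℝ ψ x := fun x => by
    have := ((hasDerivAt_q2 (ψ x - k)).comp_hasFDerivAt x (hd x)).fderiv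
    exact this
  have d3 : ∀ x, fderiv ℝ (fun x => max (ψ x - k) 0 ^ 3) x
      = (3 * max (ψ x - k) 0 ^ 2) • fderiv ℝ ψ x := fun x => by
    have := ((hasDerivAt_q3 (ψ x - k)).comp_hasFDerivAt x (hd x)).fderiv
    exact this
  have hVi : ∀ i, ContDiff ℝ 1 fun x => (fun y i => V y i : VectorField n) x i := fun i =>
    (EuclideanSpace.proj i : E n →L[ℝ] ℝ).contDiff.comp hV
  have hibp := Bs.ibp_divE c2 s2 hVi
  have e1 : ∀ x, ∑ i, pderiv i (fun x => max (ψ x - k) 0 ^ 2) x * V x i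
      = 2 * max (ψ x - k) 0 * fderiv ℝ ψ x (V x) := fun x => by
    rw [← Bs.fderiv_eq_sum, d2]; simp
  simp only [e1] at hibp
  have cz : Continuous fun x => max (ψ x - k) 0 := hψk.continuous.max continuous_const
  have cdiv : Continuous (divE (fun y i => V y i : VectorField n)) := by
    unfold divE
    exact continuous_finsetSum _ fun i _ => Bs.continuous_pd (hVi i) i
  have i1 : Integrable fun x => max (ψ x - k) 0 ^ 2 * divE (fun y i => V y i : VectorField n) x :=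
    (c2.continuous.mul cdiv).integrable_of_hasCompactSupport s2.mul_right
  have i2 : Integrable fun x => 2 * max (ψ x - k) 0 * fderiv ℝ ψ x (V x) :=
    ((continuous_const.mul cz).mul ((hψ.continuous_fderiv one_ne_zero).clm_apply
      hV.continuous)).integrable_of_hasCompactSupport s1.mul_left.mul_right
  have i12 : Integrable fun x => max (ψ x - k) 0 ^ 2 * divE (fun y i => V y i : VectorField n) x
      + 2 * max (ψ x - k) 0 * fderiv ℝ ψ x (V x) := i1.add i2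
  have i3 : Integrable fun x => max (ψ x - k) 0 ^ 2 :=
    c2.continuous.integrable_of_hasCompactSupport s2
  have hopen : MeasurableSet {x | k < ψ x} :=
    (isOpen_lt continuous_const hψ.continuous).measurableSet
  have hfin : volume {x | k < ψ x} ≠ ⊤ :=
    ((measure_mono fun x (hx : k < ψ x) => show 1 / 4 ≤ ψ x by linarith).trans_lt
      hK.measure_lt_top).ne
  have hz1 : ∀ x, max (ψ x - k) 0 ≤ 1 := fun x => max_le (by linarith [h1 x]) zero_le_one
  have hI : ∫ x, max (ψ x - k) 0 ^ 2 ≤ volume.real {x | k < ψ x} := by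
    rw [← integral_indicator_one hopen]
    refine integral_mono i3 ((integrable_indicator_iff hopen).2 (integrableOn_const hfin))
      fun x => ?_
    by_cases hx : x ∈ {x | k < ψ x}
    · rw [indicator_of_mem hx]
      exact pow_le_one₀ (le_max_right _ _) (hz1 x)
    · rw [indicator_of_notMem hx]
      have : max (ψ x - k) 0 = 0 :=
        max_eq_right (by simp only [mem_ofPred_eq, not_lt] at hx; linarith)
      simp [this]
  calc ∫ x, ‖fderiv ℝ (fun x => max (ψ x - k) 0 ^ 3) x‖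
      ≤ ∫ x, (2 * P ^ 2 * (max (ψ x - k) 0 ^ 2 * divE (fun y i => V y i : VectorField n) x
          + 2 * max (ψ x - k) 0 * fderiv ℝ ψ x (V x)) + 2 * P ^ 3 * max (ψ x - k) 0 ^ 2) := by
        refine integral_mono ((c3.continuous_fderiv one_ne_zero).integrable_of_hasCompactSupport
          (s3.fderiv ℝ)).norm (((i1.add i2).const_mul _).add (i3.const_mul _)) fun x => ?_
        simp only [d3, norm_smul, Real.norm_eq_abs]
        rw [abs_of_nonneg (by positivity)]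
        by_cases hx : k < ψ x
        · obtain ⟨a1, a2, a3⟩ := h x (hk.trans_lt hx)
          refine ptw hP (le_max_right _ _) (hz1 x) a1 ?_ a2 a3
          rcases a1.eq_or_lt with a0 | a0
          · rw [← a0, mul_zero, zero_mul] at a2
            have : fderiv ℝ ψ x = 0 := by
              rw [← norm_eq_zero]; exact pow_eq_zero_iff (two_ne_zero) |>.1 (le_antisymm a2 (sq_nonneg _))
            simp [this]
          · exact nonneg_of_mul_nonneg_right ((sq_nonneg _).trans a2) (mul_pos (by linarith) a0)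
        · have : max (ψ x - k) 0 = 0 := max_eq_right (by linarith [not_lt.1 hx])
          simp [this]
    _ = 2 * P ^ 3 * ∫ x, max (ψ x - k) 0 ^ 2 := by
        rw [integral_add (i12.const_mul _) (i3.const_mul _), integral_const_mul,
          integral_const_mul, integral_add i1 i2, hibp]
        ring
    _ ≤ _ := mul_le_mul_of_nonneg_left hI (by positivity)

end DG

open DG in
theorem dg : DGStmt := by
  intro n hn
  obtain ⟨m, rfl⟩ : ∃ m, n = m + 1 := ⟨n - 1, by omega⟩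
  have hm : m ≠ 0 := by omega
  obtain ⟨C, hC0, hC⟩ := sob m hm
  obtain ⟨N0, hN0⟩ := pow_unbounded_of_one_lt (C * 1024 ^ (m + 1) * 8 ^ ((m + 1) * m))
    (by norm_num : (1 : ℝ) < 2)
  refine ⟨N0 + 3 * (m + 1), fun P hP ψ γ V hψ hV _ h1 h2 hb h => ?_⟩
  by_contra hlt
  rw [not_le] at hlt
  have hP0 : 0 < P := by linarith
  have hK : IsCompact {x | 1 / 4 ≤ ψ x} :=
    Metric.isCompact_of_isClosed_isBounded (isClosed_le continuous_const hψ.continuous) hb
  have hfin : ∀ k : ℝ, 1 / 4 ≤ k → volume {x | k < ψ x} ≠ ⊤ := fun k hk =>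
    ((measure_mono fun x (hx : k < ψ x) => show 1 / 4 ≤ ψ x by linarith).trans_lt
      hK.measure_lt_top).ne
  set kk : ℕ → ℝ := fun j => 1 / 2 - (1 / 2) ^ j / 4 with hkk
  have hk1 : ∀ j, 1 / 4 ≤ kk j := fun j => by
    have : ((1 : ℝ) / 2) ^ j ≤ 1 := pow_le_one₀ (by norm_num) (by norm_num)
    simp only [hkk]; linarith
  have hk2 : ∀ j, kk j ≤ 1 / 2 := fun j => by
    have : 0 ≤ ((1 : ℝ) / 2) ^ j := by positivity
    simp only [hkk]; linarith
  have hpos : 0 < volume.real {x | 1 / 2 < ψ x} := by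
    obtain ⟨x0, hx0⟩ := h2
    exact ENNReal.toReal_pos ((isOpen_lt continuous_const hψ.continuous).measure_pos volume
      ⟨x0, show 1 / 2 < ψ x0 by rw [hx0]; norm_num⟩).ne' (hfin _ (by norm_num))
  refine iter (a := fun j => volume.real {x | kk j < ψ x}) hm
    (D := C * (1024 * P ^ 3) ^ (m + 1)) (by positivity) hpos (fun j => ?_) (fun j => ?_) ?_
  · exact measureReal_mono (fun x (hx : 1 / 2 < ψ x) => show kk j < ψ x from (hk2 j).trans_lt hx)
      (hfin _ (hk1 j))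
  · obtain ⟨c3, s3, hE⟩ := energy hP hψ hV h1 hb h (hk1 j)
    have := hC _ {x | kk (j + 1) < ψ x} (((1 / 2) ^ j / 8) ^ 3) _ c3 s3
      (isOpen_lt continuous_const hψ.continuous).measurableSet (hfin _ (hk1 _)) (by positivity)
      (fun x (hx : kk (j + 1) < ψ x) => pow_le_pow_left₀ (by positivity)
        (le_max_of_le_left (by simp only [hkk, pow_succ] at hx ⊢; linarith)) 3) hE
    have e : ((8 : ℝ) ^ j * 512) ^ (m + 1) * (((1 / 2) ^ j / 8) ^ 3) ^ (m + 1) = 1 := by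
      rw [← mul_pow, show (8 : ℝ) ^ j * 512 * ((1 / 2) ^ j / 8) ^ 3 = (8 * (1 / 2) ^ 3) ^ j by
        rw [mul_pow, ← pow_mul, mul_comm 3 j, pow_mul]; ring]
      norm_num
    calc volume.real {x | kk (j + 1) < ψ x} ^ m
        = ((8 : ℝ) ^ j * 512) ^ (m + 1) * ((((1 / 2) ^ j / 8) ^ 3) ^ (m + 1)
            * volume.real {x | kk (j + 1) < ψ x} ^ m) := by rw [← mul_assoc, e, one_mul]
      _ ≤ ((8 : ℝ) ^ j * 512) ^ (m + 1)
            * (C * (2 * P ^ 3 * volume.real {x | kk j < ψ x}) ^ (m + 1)) :=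
          mul_le_mul_of_nonneg_left this (by positivity)
      _ = _ := by
          rw [mul_left_comm, ← mul_pow, mul_assoc C, ← mul_pow]
          congr 2; ring
  · have e0 : kk 0 = 1 / 4 := by simp only [hkk]; norm_num
    simp only [e0]
    have h3 : C * (1024 * P ^ 3) ^ (m + 1) * 8 ^ ((m + 1) * m) ≤ P ^ (N0 + 3 * (m + 1)) := by
      have : (2 : ℝ) ^ N0 ≤ P ^ N0 := pow_le_pow_left₀ (by norm_num) hP _
      calc C * (1024 * P ^ 3) ^ (m + 1) * 8 ^ ((m + 1) * m)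
          = C * 1024 ^ (m + 1) * 8 ^ ((m + 1) * m) * P ^ (3 * (m + 1)) := by
            rw [mul_pow, ← pow_mul]; ring
        _ ≤ P ^ N0 * P ^ (3 * (m + 1)) :=
            mul_le_mul_of_nonneg_right (hN0.le.trans this) (by positivity)
        _ = _ := (pow_add _ _ _).symm
    calc _ ≤ P ^ (N0 + 3 * (m + 1)) * (P ^ (N0 + 3 * (m + 1)))⁻¹ :=
          mul_le_mul h3 hlt.le measureReal_nonneg (by positivity)
      _ = 1 := mul_inv_cancel₀ (by positivity)

end Crest.Agent.N346.Bd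

end
end

-- ▼ part N346/Bd/Far
section

/-!
Row 346, Bd-Far: the far-field geometry of good data, `far : FarStmt`.
-/

set_option autoImplicit false

open MeasureTheory Filter Set
open scoped ContDiff Topology RealInnerProductSpace
open Crest.GeometryTopology.CoordMetric Crest.MathPhysics.ExteriorData
open Crest.Agent.R202.Tens Crest.Agent.R247.Bo84 Crest.Agent.N346.Id Crest.Agent.N346.P1

noncomputable section

namespace Crest.Agent.N346.Bd

namespace Rad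

variable {n : ℕ} {x : E n}

/-! ### flat calculus of `‖x‖ ^ p` -/

theorem hasFDerivAt_nrp (hx : x ≠ 0) (p : ℝ) :
    HasFDerivAt (fun y : E n => ‖y‖ ^ p) ((p * ‖x‖ ^ (p - 2)) • innerSL ℝ x) x := by
  have hr : 0 < ‖x‖ := norm_pos_iff.2 hx
  have h := (hasStrictFDerivAt_norm_sq x).hasFDerivAt.rpow_const (p := p / 2)
    (Or.inl (by positivity))
  have e : ∀ (y : E n) (q : ℝ), (‖y‖ ^ 2) ^ (q / 2) = ‖y‖ ^ q := fun y q => by
    rw [← Real.rpow_natCast, ← Real.rpow_mul (norm_nonneg _)]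
    congr 1
    push_cast
    ring
  simp only [e, show p / 2 - 1 = (p - 2) / 2 by ring] at h
  refine h.congr_fderiv ?_
  rw [two_smul, smul_add, ← add_smul]
  congr 1
  ring

theorem contDiffAt_nrp (hx : x ≠ 0) (p : ℝ) : ContDiffAt ℝ ∞ (fun y : E n => ‖y‖ ^ p) x :=
  (contDiffAt_norm ℝ hx).rpow_const_of_ne (norm_ne_zero_iff.2 hx)


theorem norm_fderiv_nrp (hx : x ≠ 0) (p : ℝ) :
    ‖fderiv ℝ (fun y : E n => ‖y‖ ^ p) x‖ = |p| * ‖x‖ ^ (p - 1) := by
  have hr : 0 < ‖x‖ := norm_pos_iff.2 hx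
  rw [(hasFDerivAt_nrp hx p).fderiv, norm_smul, innerSL_apply_norm, norm_mul, Real.norm_eq_abs,
    Real.norm_of_nonneg (Real.rpow_nonneg hr.le _), mul_assoc, ← Real.rpow_add_one hr.ne']
  congr 2
  ring

theorem fderiv2_nrp (hx : x ≠ 0) (p : ℝ) (Y Z : E n) :
    fderiv ℝ (fderiv ℝ fun y : E n => ‖y‖ ^ p) x Y Z
      = p * ‖x‖ ^ (p - 2) * ⟪Y, Z⟫ + p * (p - 2) * ‖x‖ ^ (p - 2 - 2) * (⟪x, Y⟫ * ⟪x, Z⟫) := by
  have e : (fderiv ℝ fun y : E n => ‖y‖ ^ p) =ᶠ[𝓝 x]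
      fun y => (p * ‖y‖ ^ (p - 2)) • innerSL ℝ y := by
    filter_upwards [eventually_ne_nhds hx] with y hy using (hasFDerivAt_nrp hy p).fderiv
  have h := ((hasFDerivAt_nrp hx (p - 2)).const_mul p).fun_smul
    (innerSL ℝ : E n →L[ℝ] E n →L[ℝ] ℝ).hasFDerivAt
  have e2 : ∀ A B : E n, (innerSL ℝ : E n →L[ℝ] E n →L[ℝ] ℝ) A B = ⟪A, B⟫ := fun _ _ => rfl
  rw [e.fderiv_eq, h.fderiv]
  simp [e2]
  ring

theorem lap_nrp (hx : x ≠ 0) (p : ℝ) :
    lap (fun y : E n => ‖y‖ ^ p) x = p * (n + p - 2) * ‖x‖ ^ (p - 2) := by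
  have hr : 0 < ‖x‖ := norm_pos_iff.2 hx
  have h2 : ContDiffAt ℝ 2 (fun y : E n => ‖y‖ ^ p) x :=
    (contDiffAt_nrp hx p).of_le (by norm_cast)
  have e : ‖x‖ ^ (p - 2 - 2) * ‖x‖ ^ 2 = ‖x‖ ^ (p - 2) := by
    rw [← Real.rpow_natCast, ← Real.rpow_add hr]
    congr 1
    push_cast
    ring
  simp only [lap, ← fderiv_fderiv_ee h2, fderiv2_nrp hx, Finset.sum_add_distrib,
    ← Finset.mul_sum]
  simp only [EuclideanSpace.inner_single_right, conj_trivial, one_mul, mul_one,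
    ← Bs.norm_sq_eq, PiLp.single_eq_same, Finset.sum_const, Finset.card_univ, Fintype.card_fin,
    nsmul_eq_mul]
  rw [mul_assoc (p * (p - 2)), e]
  ring

theorem norm_eq_nrp : (fun y : E n => ‖y‖) = fun y => ‖y‖ ^ (1 : ℝ) := by simp

theorem norm_fderiv_norm (hx : x ≠ 0) : ‖fderiv ℝ (fun y : E n => ‖y‖) x‖ = 1 := by
  rw [norm_eq_nrp, norm_fderiv_nrp hx]
  simp

theorem abs_fderiv2_norm (hx : x ≠ 0) (Y : E n) :
    |fderiv ℝ (fderiv ℝ fun y : E n => ‖y‖) x Y Y| ≤ ‖x‖⁻¹ * ‖Y‖ ^ 2 := by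
  have hr : 0 < ‖x‖ := norm_pos_iff.2 hx
  rw [norm_eq_nrp, fderiv2_nrp hx, real_inner_self_eq_norm_sq,
    show (1 : ℝ) - 2 - 2 = -(3 : ℕ) by norm_num, show (1 : ℝ) - 2 = -1 by norm_num,
    Real.rpow_neg_one, Real.rpow_neg hr.le, Real.rpow_natCast]
  have h1 : ⟪x, Y⟫ * ⟪x, Y⟫ ≤ ‖x‖ ^ 2 * ‖Y‖ ^ 2 := by
    have := abs_real_inner_le_norm x Y
    rw [← abs_mul_abs_self, ← mul_pow, pow_two]
    exact mul_le_mul this this (abs_nonneg _) (by positivity)
  have h2 : (‖x‖ ^ 3)⁻¹ * (⟪x, Y⟫ * ⟪x, Y⟫) ≤ ‖x‖⁻¹ * ‖Y‖ ^ 2 :=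
    (mul_le_mul_of_nonneg_left h1 (by positivity)).trans_eq (by field_simp)
  have h3 : 0 ≤ (‖x‖ ^ 3)⁻¹ * (⟪x, Y⟫ * ⟪x, Y⟫) :=
    mul_nonneg (by positivity) (mul_self_nonneg _)
  rw [abs_le]
  constructor <;> linarith

/-! ### the flat metric -/

theorem bil_one (Y Z : E n) : bil (1 : Matrix (Fin n) (Fin n) ℝ) Y Z = ⟪Y, Z⟫ := by
  rw [bil_eq_mat, mat_one]
  simp [PiLp.inner_apply, mul_comm]

theorem gam_one_self (u : E n → ℝ) (x : E n) :
    gam (fun _ => (1 : Matrix (Fin n) (Fin n) ℝ)) u u x = ‖fderiv ℝ u x‖ ^ 2 := by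
  rw [← Bs.sum_pd_sq]
  simp [gam, inverseField, Matrix.one_apply]

theorem abs_gam_one (u v : E n → ℝ) (x : E n) :
    |gam (fun _ => (1 : Matrix (Fin n) (Fin n) ℝ)) u v x|
      ≤ ‖fderiv ℝ u x‖ * ‖fderiv ℝ v x‖ := by
  refine abs_le_of_sq_le_sq' ?_ (by positivity) |> abs_le.2
  rw [mul_pow, ← gam_one_self, ← gam_one_self]
  exact gam_sq_le (riem_const Matrix.PosDef.one) (mem_univ x) u v

end Rad

open Rad in
theorem far : FarStmt := by
  intro n hn m A Q g K EE ψ s R0 C c0 e0 θ0 r1 hG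
  have hn3 : (3 : ℝ) ≤ n := by exact_mod_cast hn
  have hC := hG.C_ge
  have hC0 : 0 < C := by linarith
  have hconf : Conf (fun _ => (1 : Matrix (Fin n) (Fin n) ℝ)) g ψ {x : E n | R0 < ‖x‖} :=
    ⟨⟨isOpen_lt continuous_const continuous_norm, fun _ _ => contDiffOn_const,
      fun _ _ => Matrix.PosDef.one⟩, hG.ψ_smooth.contDiffOn, fun y hy => hG.g_far y (le_of_lt hy)⟩
  obtain ⟨q, hq⟩ : ∃ q, q = Real.exp (2 * C) := ⟨_, rfl⟩
  have hq1 : 1 ≤ q := hq ▸ Real.one_le_exp (by linarith)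
  obtain ⟨N, hN⟩ : ∃ N : ℝ, N = n * n * (C * C) := ⟨_, rfl⟩
  have hCC : C ≤ C * C := by nlinarith
  have hN1 : n * (C * C) ≤ N := by rw [hN]; gcongr; nlinarith
  have hN2 : C * C ≤ N := le_trans (by nlinarith) hN1
  have hψ2 : ∀ x, ContDiffAt ℝ 2 ψ x := fun x => (hG.ψ_smooth.of_le (by norm_cast)).contDiffAt
  -- pointwise facts
  have H : ∀ x : E n, R0 + 8 * C ≤ ‖x‖ → x ∈ {x : E n | R0 < ‖x‖} ∧ x ≠ 0 ∧ 1 ≤ ‖x‖ ∧
      Real.exp (-(2 * ψ x)) ≤ q ∧ q⁻¹ ≤ Real.exp (-(2 * ψ x)) ∧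
      ‖fderiv ℝ ψ x‖ ≤ C * ‖x‖ ^ (1 - (n : ℝ)) ∧
      ‖fderiv ℝ (fderiv ℝ ψ) x‖ ≤ C * ‖x‖ ^ (-(n : ℝ)) ∧
      |lap ψ x| ≤ C * ‖x‖ ^ (-(n : ℝ) - e0) ∧
      ‖fderiv ℝ ψ x‖ ^ 2 ≤ C * C * ‖x‖ ^ (-(n : ℝ) - e0) ∧
      ‖x‖ ^ (-(n : ℝ) - e0) ≤ ‖x‖ ^ (-(n : ℝ)) ∧
      ∀ Y, ‖Y‖ ^ 2 ≤ q * bil (g x) Y Y := by
    intro x hx
    have h1 : 1 ≤ ‖x‖ := by linarith [hG.R0_ge]
    have hr : 0 < ‖x‖ := by linarith
    have hU : x ∈ {x : E n | R0 < ‖x‖} := by
      show R0 < ‖x‖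
      linarith
    have dec : ∀ p : ℝ, p ≤ 0 → (1 + ‖x‖) ^ p ≤ ‖x‖ ^ p := fun p hp =>
      Real.rpow_le_rpow_of_nonpos hr (by linarith) hp
    have a0 : |ψ x| ≤ C := by
      have := hG.ψ_decay 0 (by norm_num) x
      rw [norm_iteratedFDeriv_zero] at this
      exact this.trans (mul_le_of_le_one_right hC0.le
        (Real.rpow_le_one_of_one_le_of_nonpos (by linarith) (by push_cast; linarith)))
    have a1 : ‖fderiv ℝ ψ x‖ ≤ C * ‖x‖ ^ (1 - (n : ℝ)) := by
      have := hG.ψ_decay 1 (by norm_num) x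
      rw [norm_iteratedFDeriv_one, show 2 - (n : ℝ) - (1 : ℕ) = 1 - n by push_cast; ring] at this
      exact this.trans (mul_le_mul_of_nonneg_left (dec _ (by linarith)) hC0.le)
    have a2 : ‖fderiv ℝ (fderiv ℝ ψ) x‖ ≤ C * ‖x‖ ^ (-(n : ℝ)) := by
      have := hG.ψ_decay 2 le_rfl x
      rw [← norm_iteratedFDeriv_fderiv, norm_iteratedFDeriv_one,
        show 2 - (n : ℝ) - (2 : ℕ) = -n by push_cast; ring] at this
      exact this.trans (mul_le_mul_of_nonneg_left (dec _ (by linarith)) hC0.le)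
    have a3 : Real.exp (-(2 * ψ x)) ≤ q := hq ▸ Real.exp_le_exp.2 (by linarith [(abs_le.1 a0).1])
    refine ⟨hU, norm_pos_iff.1 hr, h1, a3, ?_, a1, a2, (hG.ψ_lap x).trans
      (mul_le_mul_of_nonneg_left (dec _ (by linarith [hG.e0_pos])) hC0.le), ?_,
      Real.rpow_le_rpow_of_exponent_le h1 (by linarith [hG.e0_pos]), fun Y => ?_⟩
    · rw [hq, ← Real.exp_neg]
      exact Real.exp_le_exp.2 (by linarith [(abs_le.1 a0).2])
    · refine (pow_le_pow_left₀ (norm_nonneg _) a1 2).trans ?_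
      rw [mul_pow, pow_two, pow_two, ← Real.rpow_add hr]
      exact mul_le_mul_of_nonneg_left
        (Real.rpow_le_rpow_of_exponent_le h1 (by linarith [hG.e0_lt])) (by positivity)
    · rw [hconf.bil_eq hU, bil_one, real_inner_self_eq_norm_sq, ← mul_assoc]
      refine le_mul_of_one_le_left (sq_nonneg _) ?_
      have := mul_le_mul_of_nonneg_right a3 (Real.exp_pos (2 * ψ x)).le
      rwa [← Real.exp_add, neg_add_cancel, Real.exp_zero] at this
  have hN0 : 1 ≤ N := by nlinarith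
  refine ⟨q * (11 * N), R0 + 8 * C, by positivity, fun x hx => ?_, fun x Y hx => ?_,
    fun x hx => ?_, fun x Y hx => ?_, fun x hx => ?_⟩
  · obtain ⟨hU, -, h1, a3, -, -, -, a7, a8, -, -⟩ := H x hx
    rw [hconf.scalar_eq hU, scalarCurv_const, lap_one (hψ2 x), gam_one_self, abs_mul,
      abs_of_pos (Real.exp_pos _), mul_assoc q]
    refine mul_le_mul a3 ?_ (abs_nonneg _) (by linarith)
    have hw : 0 ≤ ‖x‖ ^ (-(n : ℝ) - e0) := Real.rpow_nonneg (norm_nonneg _) _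
    generalize ‖x‖ ^ (-(n : ℝ) - e0) = w at *
    have b1 : |2 * (n - 1 : ℝ) * lap ψ x| ≤ 2 * N * w := by
      rw [abs_mul, abs_of_nonneg (by linarith)]
      calc _ ≤ 2 * n * (C * C * w) := by gcongr; linarith; exact a7.trans (by gcongr)
        _ = 2 * (n * (C * C)) * w := by ring
        _ ≤ _ := by gcongr
    have b2 : (n - 1 : ℝ) * (n - 2) * ‖fderiv ℝ ψ x‖ ^ 2 ≤ N * w := by
      calc _ ≤ n * n * (C * C * w) := by gcongr <;> linarith
        _ = _ := by rw [hN]; ring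
    have b3 : 0 ≤ (n - 1 : ℝ) * (n - 2) * ‖fderiv ℝ ψ x‖ ^ 2 :=
      mul_nonneg (mul_nonneg (by linarith) (by linarith)) (sq_nonneg _)
    have b4 : 0 ≤ N * w := by positivity
    rw [abs_le] at b1 ⊢
    constructor <;> linarith [b1.1, b1.2]
  · obtain ⟨hU, -, h1, -, -, -, a6, a7, a8, a9, a10⟩ := H x hx
    rw [hconf.ric_eq hU, bil_ricM_const, lap_one (hψ2 x), gam_one_self, hess_const, bil_one,
      real_inner_self_eq_norm_sq]
    have hw : 0 ≤ ‖x‖ ^ (-(n : ℝ)) := Real.rpow_nonneg (norm_nonneg _) _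
    have a7' : |lap ψ x| ≤ N * ‖x‖ ^ (-(n : ℝ)) := a7.trans (by gcongr; linarith)
    have a8' : ‖fderiv ℝ ψ x‖ ^ 2 ≤ C * C * ‖x‖ ^ (-(n : ℝ)) := a8.trans (by gcongr)
    generalize ‖x‖ ^ (-(n : ℝ)) = w at *
    have c1 : |fderiv ℝ (fderiv ℝ ψ) x Y Y| ≤ C * C * w * ‖Y‖ ^ 2 := by
      calc _ ≤ ‖fderiv ℝ (fderiv ℝ ψ) x‖ * ‖Y‖ * ‖Y‖ := (fderiv ℝ (fderiv ℝ ψ) x).le_opNorm₂ Y Y
        _ ≤ C * C * w * ‖Y‖ * ‖Y‖ := by gcongr; exact a6.trans (by gcongr)
        _ = _ := by ring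
    have c2 : |fderiv ℝ ψ x Y * fderiv ℝ ψ x Y| ≤ C * C * w * ‖Y‖ ^ 2 := by
      have := (fderiv ℝ ψ x).le_opNorm Y
      calc _ = ‖fderiv ℝ ψ x Y‖ ^ 2 := by rw [abs_mul, pow_two]; rfl
        _ ≤ (‖fderiv ℝ ψ x‖ * ‖Y‖) ^ 2 := by gcongr
        _ ≤ _ := by rw [mul_pow]; gcongr
    have c3 : |(n - 2 : ℝ) * (fderiv ℝ (fderiv ℝ ψ) x Y Y - fderiv ℝ ψ x Y * fderiv ℝ ψ x Y)|
        ≤ 2 * (N * w * ‖Y‖ ^ 2) := by
      rw [abs_mul, abs_of_nonneg (by linarith)]
      calc _ ≤ n * (2 * (C * C * w * ‖Y‖ ^ 2)) := by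
            gcongr
            · linarith
            · exact (abs_sub _ _).trans (by linarith)
        _ = 2 * (n * (C * C) * w * ‖Y‖ ^ 2) := by ring
        _ ≤ _ := by gcongr
    have c4 : |(lap ψ x + (n - 2 : ℝ) * ‖fderiv ℝ ψ x‖ ^ 2) * ‖Y‖ ^ 2|
        ≤ 2 * (N * w) * ‖Y‖ ^ 2 := by
      rw [abs_mul, abs_of_nonneg (sq_nonneg ‖Y‖)]
      refine mul_le_mul_of_nonneg_right ((abs_add_le _ _).trans ?_) (sq_nonneg _)
      have : (n - 2 : ℝ) * ‖fderiv ℝ ψ x‖ ^ 2 ≤ N * w := by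
        calc _ ≤ n * (C * C * w) := by gcongr; linarith
          _ = n * (C * C) * w := by ring
          _ ≤ _ := by gcongr
      rw [abs_of_nonneg (a := (n - 2 : ℝ) * _) (mul_nonneg (by linarith) (sq_nonneg _))]
      linarith
    have c5 : 0 ≤ N * w * ‖Y‖ ^ 2 := by positivity
    calc _ ≤ 11 * N * w * ‖Y‖ ^ 2 := by
          rw [abs_le] at c3 c4 ⊢
          constructor <;> linarith [c3.1, c3.2, c4.1, c4.2]
      _ ≤ 11 * N * w * (q * bil (g x) Y Y) := by gcongr; exact a10 Y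
      _ = _ := by ring
  · obtain ⟨hU, hx0, -, a3, -⟩ := H x hx
    rw [hconf.gam_eq hU, gam_one_self, norm_fderiv_norm hx0]
    nlinarith
  · obtain ⟨hU, hx0, h1, -, -, a5, -, -, -, -, a10⟩ := H x hx
    rw [hconf.hess_eq hU, hess_const, bil_one, real_inner_self_eq_norm_sq]
    have a5' : ‖fderiv ℝ ψ x‖ ≤ N * ‖x‖⁻¹ := a5.trans (by
      rw [← Real.rpow_neg_one]
      gcongr
      · linarith
      · linarith)
    have hw : 0 < ‖x‖⁻¹ := by positivity
    have d1 := abs_fderiv2_norm hx0 Y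
    have d2 : |fderiv ℝ ψ x Y * fderiv ℝ (fun y : E n => ‖y‖) x Y| ≤ N * ‖x‖⁻¹ * ‖Y‖ ^ 2 := by
      have e1 := (fderiv ℝ ψ x).le_opNorm Y
      have e2 := (fderiv ℝ (fun y : E n => ‖y‖) x).le_opNorm Y
      rw [norm_fderiv_norm hx0, one_mul] at e2
      calc _ = ‖fderiv ℝ ψ x Y‖ * ‖fderiv ℝ (fun y : E n => ‖y‖) x Y‖ := abs_mul _ _
        _ ≤ N * ‖x‖⁻¹ * ‖Y‖ * ‖Y‖ := by gcongr; exact e1.trans (by gcongr)
        _ = _ := by ring
    have d3 : |‖Y‖ ^ 2 * gam (fun _ => (1 : Matrix (Fin n) (Fin n) ℝ)) (fun y => ‖y‖) ψ x|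
        ≤ N * ‖x‖⁻¹ * ‖Y‖ ^ 2 := by
      have := abs_gam_one (fun y : E n => ‖y‖) ψ x
      rw [norm_fderiv_norm hx0, one_mul] at this
      rw [abs_mul, abs_of_nonneg (sq_nonneg ‖Y‖), mul_comm]
      gcongr
      exact this.trans a5'
    have d4 : ‖x‖⁻¹ * ‖Y‖ ^ 2 ≤ N * ‖x‖⁻¹ * ‖Y‖ ^ 2 := by
      gcongr
      exact le_mul_of_one_le_left hw.le hN0
    have d5 : 0 ≤ N * ‖x‖⁻¹ * ‖Y‖ ^ 2 := by positivity
    calc _ ≤ 11 * N * ‖x‖⁻¹ * ‖Y‖ ^ 2 := by
          rw [abs_le] at d1 d2 d3 ⊢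
          constructor <;> linarith [d1.1, d1.2, d2.1, d2.2, d3.1, d3.2]
      _ ≤ 11 * N * ‖x‖⁻¹ * (q * bil (g x) Y Y) := by gcongr; exact a10 Y
      _ = _ := by ring
  · obtain ⟨hU, hx0, h1, -, a4, a5, -⟩ := H x hx
    have hr : 0 < ‖x‖ := by linarith
    have h2 : ContDiffAt ℝ 2 (fun y : E n => ‖y‖ ^ (-a0 n)) x :=
      (contDiffAt_nrp hx0 _).of_le (by norm_cast)
    rw [hconf.lap_eq hU h2, lap_one h2, lap_nrp hx0]
    have ha : 3 / 4 ≤ a0 n := by unfold a0; linarith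
    have e1 := abs_gam_one ψ (fun y : E n => ‖y‖ ^ (-a0 n)) x
    rw [norm_fderiv_nrp hx0, abs_neg, abs_of_pos (a := a0 n) (by linarith)] at e1
    have hw : 0 < ‖x‖ ^ (-a0 n - 2) := Real.rpow_pos_of_pos hr _
    have e2 : ‖x‖ ^ (-a0 n - 1) = ‖x‖ ^ (-a0 n - 2) * ‖x‖ := by
      rw [← Real.rpow_add_one hr.ne']; congr 1; ring
    have e3 : ‖fderiv ℝ ψ x‖ * ‖x‖ ≤ 1 / 8 := by
      have : ‖x‖ ^ (1 - (n : ℝ)) ≤ (‖x‖ ^ 2)⁻¹ := by
        rw [← Real.rpow_natCast, ← Real.rpow_neg hr.le]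
        exact Real.rpow_le_rpow_of_exponent_le h1 (by push_cast; linarith)
      calc _ ≤ C * (‖x‖ ^ 2)⁻¹ * ‖x‖ := by gcongr; exact a5.trans (by gcongr)
        _ = C / ‖x‖ := by field_simp
        _ ≤ _ := by rw [div_le_iff₀ hr]; linarith [hG.R0_ge]
    rw [e2] at e1
    generalize ‖x‖ ^ (-a0 n - 2) = w at *
    generalize gam (fun _ => (1 : Matrix (Fin n) (Fin n) ℝ)) ψ (fun y : E n => ‖y‖ ^ (-a0 n)) x
      = G at *
    have e4 : G ≤ a0 n * w * (1 / 8) := by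
      calc G ≤ _ := (le_abs_self _).trans e1
        _ = a0 n * w * (‖fderiv ℝ ψ x‖ * ‖x‖) := by ring
        _ ≤ _ := by gcongr
    have e5 : -a0 n * (n + -a0 n - 2) * w + (n - 2) * G ≤ -((11 * N)⁻¹ * w) := by
      have f1 : (n - 2 : ℝ) * G ≤ (n - 2) * (a0 n * w * (1 / 8)) := by gcongr; linarith
      have f2 : (n + -a0 n - 2 : ℝ) = (n - 2) / 4 := by unfold a0; ring
      have f3 : (11 * N)⁻¹ ≤ 3 / 32 := by
        rw [inv_le_comm₀ (by positivity) (by norm_num)]; linarith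
      have f4 : 3 / 4 * 1 ≤ a0 n * (n - 2) := by gcongr; linarith
      rw [f2]
      nlinarith
    calc _ ≤ Real.exp (-(2 * ψ x)) * -((11 * N)⁻¹ * w) := by gcongr
      _ ≤ q⁻¹ * -((11 * N)⁻¹ * w) :=
        mul_le_mul_of_nonpos_right a4 (neg_nonpos.2 (by positivity))
      _ = _ := by rw [mul_inv q]; ring

end Crest.Agent.N346.Bd

end
end

-- ▼ part N346/Bd/S12

/-!
Row 346, Bd-S1, Bd-S2: the minimum principle for `z` and the inner barrier for `f`.
-/

set_option autoImplicit false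

open MeasureTheory Filter Set
open scoped ContDiff Topology
open Crest.GeometryTopology.CoordMetric Crest.MathPhysics.ExteriorData
open Crest.Agent.R202.Tens Crest.Agent.R247.Bo84 Crest.Agent.N346.Id Crest.Agent.N346.P1

noncomputable section

namespace Crest.Agent.N346.Bd

theorem s1 : S1Stmt := by
  intro n hn S hS P T0 R bp hG
  refine ⟨1, one_pos, fun e he _ M z3 an f z h x0 => ?_⟩
  by_contra hx0
  have hn3 : (3 : ℝ) ≤ n := by exact_mod_cast hn
  have hθ := Setup.OK.θ_pos hS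
  have hP : 0 < P := by linarith [hG.P_ge]
  obtain ⟨B0, hB0, hB⟩ := h.exists_bound
  obtain ⟨R', hR'⟩ := h.anch S.θ hθ
  have hzc := h.z_smooth.continuous
  obtain ⟨m, hm, H⟩ := glob_max (F := fun x => -S.θ - z x) (continuous_const.sub hzc)
    ⟨B0, fun x => by linarith [(abs_le.1 (hB x).2.1).1]⟩ hG.bp_b2.smooth.continuous hG.bp_nonneg
    hG.bp_top (x0 := x0) (by linarith [not_le.1 hx0])
  obtain ⟨C1, hC1⟩ : ∃ C1, C1 = n * P + (e ^ 3 * B0 + 2 * P) * P := ⟨_, rfl⟩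
  have hC0 : 0 < C1 := by rw [hC1]; positivity
  obtain ⟨μ, hμ⟩ : ∃ μ, μ = P⁻¹ * (1 + |R'|) ^ (-(2 * n : ℝ)) := ⟨_, rfl⟩
  have hμ0 : 0 < μ := by rw [hμ]; positivity
  obtain ⟨ε, hε, hε0, x, hmax, hx⟩ := H (min μ (S.θ / 2) / (2 * C1))
    (div_pos (lt_min hμ0 (by linarith)) (by linarith))
  have hεC : 2 * (ε * C1) ≤ min μ (S.θ / 2) := by
    rw [le_div_iff₀ (by linarith)] at hε0; linarith
  have hzx : z x < -S.θ := by linarith [mul_nonneg hε.le (hG.bp_nonneg x)]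
  have hd := h.jd
  have hU := mem_univ x
  have hph : ph S e f z =ᶠ[𝓝 x] fun _ => e ^ 2 := ph_low hS hzc (by linarith)
  have hb2 : ContDiffAt ℝ 2 bp x := hG.bp_b2.smooth.contDiffAt.of_le (by norm_cast)
  have a1 : 0 ≤ laplaceBeltrami (gB S e f z) z x + ε * laplaceBeltrami (gB S e f z) bp x := by
    rw [← lap_const_mul hd.riemb hU ε hb2, ← lap_add hd.riemb hU (h.cz2 x)
      (contDiffAt_const.mul hb2)]
    refine lap_nonneg_of_min hd.riemb hU ((h.cz2 x).add (contDiffAt_const.mul hb2)) ?_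
    filter_upwards [hmax] with y hy using by linarith
  have hw : bil (S.g x) (wv S.g (ph S e f z) f x) (wv S.g (ph S e f z) f x) ≤ 1 := by
    rw [hd.bil_wv_wv hU]; exact (hd.pp_lt_one hU).le
  have a2 := H0_eq_Th hd hU S.K
  rw [h.J] at a2
  have a3 := hS.C0_big x (wv S.g (ph S e f z) f x) (by rw [bil_apply] at hw; exact hw)
  have a4 : |traceK S.g S.K x
      - bil (S.K x) (wv S.g (ph S e f z) f x) (wv S.g (ph S e f z) f x)| ≤ 2 * P :=
    (abs_sub _ _).trans (by linarith [hG.trK_le x, hG.toBG.abs_Kww_le hw])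
  have a5 : |e ^ 3 * f x| ≤ e ^ 3 * B0 := by
    rw [abs_mul, abs_of_pos (pow_pos he 3)]
    gcongr
    exact (hB x).1
  have a6 : |laplaceBeltrami (gB S e f z) bp x| ≤ C1 := by
    refine (abs_lap_gb_le hd hU (fderiv_of_const hph) hb2 hP.le hP.le (hG.bp_b2.h_le x)
      ((hG.bp_b2.d_le x).trans (by nlinarith [hG.P_ge]))).trans ?_
    rw [hC1, a2]
    gcongr
    exact (abs_add_le _ _).trans (add_le_add a5 a4)
  have a7 := h.U x
  have a8 := id_G_const hd hU hph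
  have a9 := H0_sq_le hd hU
  have b1 := mul_nonneg ((by norm_num : (0 : ℝ) ≤ 1 / 2).trans (al_ge hn))
    (gam_self_nonneg hd.riemb hU z)
  have b2 := mul_nonneg (pow_pos he 3).le (hd.pp_nonneg hU)
  have b3 := eSq_nonneg hd.riemb hU (S.coef 0).EE
  have b4 := h.vt_nonpos (x := x) (by linarith)
  rw [rhs, sz_one (P := S.par e 0 0) hθ hzx.le] at a7
  rw [a2] at a8 a9
  generalize traceK S.g S.K x
    - bil (S.K x) (wv S.g (ph S e f z) f x) (wv S.g (ph S e f z) f x) = k at *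
  generalize e ^ 3 * f x = t at *
  generalize normSqK (gb S.g (ph S e f z) f) (hh S.g (ph S e f z) f) x = N at *
  have b5 : (t + k) ^ 2 - N - t ^ 2 ≤ (n - 1) * k ^ 2 := by
    refine le_of_mul_le_mul_left ?_ (show (0 : ℝ) < n by linarith)
    nlinarith [sq_nonneg (t - (n - 1) * k)]
  have b6 : ε * laplaceBeltrami (gB S e f z) bp x ≤ ε * C1 :=
    mul_le_mul_of_nonneg_left ((le_abs_self _).trans a6) hε.le
  have b7 : 2 * S.mw x - an x * z x ≤ min μ (S.θ / 2) := by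
    linarith [le_abs_self (scalarCurv S.g x), neg_abs_le
      (bil (ricM S.g x) (wv S.g (ph S e f z) f x) (wv S.g (ph S e f z) f x))]
  rcases le_total R' ‖x‖ with hr | hr
  · rw [hR' x hr (by rw [abs_of_neg (by linarith)]; linarith)] at b7
    linarith [min_le_right μ (S.θ / 2), Setup.OK.mw_pos hS x]
  · have c1 : μ ≤ S.mw x := by
      refine le_trans ?_ (hG.mw_lo x)
      rw [hμ]
      refine mul_le_mul_of_nonneg_left (Real.rpow_le_rpow_of_nonpos (by positivity) ?_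
        (by linarith)) (by positivity)
      linarith [le_abs_self R']
    have c2 : an x * z x ≤ 0 := mul_nonpos_of_nonneg_of_nonpos (h.an_mem x).1 (by linarith)
    linarith [min_le_left μ (S.θ / 2)]

section S2

variable {n : ℕ} {S : Setup n} {e M z3 ρ : ℝ} {an f z : E n → ℝ} {x : E n}

/-- touching from above by the inner barrier -/
theorem touch (hS : S.OK) (he : 0 < e) (he1 : e ≤ 1) (h : Sl S e M z3 an f z)
    (hρ : ρ ∈ Icc (3 / 16 : ℝ) S.ra) (hx : S.s x < ρ)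
    (hmax : IsLocalMax (fun y => e ^ 2 * f y - S.y ρ y) x) (hph : ph S e f z x = e ^ 2) :
    e ^ 3 * f x ≤ -2 * S.t1 := by
  have hd := h.jd
  have hU := mem_univ x
  have hV : IsOpen {x | S.s x < ρ} := isOpen_lt hS.good.s_smooth.continuous continuous_const
  have hd' : Jd S.g (fun _ => 1) (S.y ρ) {x | S.s x < ρ} :=
    ⟨⟨hV, fun i j => (hS.good.riem.contDiffOn i j).mono (subset_univ _),
      fun y _ => hS.good.riem.posDef y trivial⟩, contDiffOn_const, hS.y_smooth ρ hρ,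
      fun _ _ => one_pos⟩
  have hx' : x ∈ {x | S.s x < ρ} := hx
  have hcrit : fderiv ℝ (ph S e f z) x = 0 := by
    refine IsLocalMin.fderiv_eq_zero (Eventually.of_forall fun y => ?_)
    rw [hph]
    exact (ph_mem S (pow_le_one₀ he.le he1) f z y).1
  have hf2 := hd.cf2 hU
  have hy2 := hd'.cf2 hx'
  have t1 := (touch_of_max (contDiffAt_const.mul hf2) hy2 hmax).1
  have t2 : ∀ i, pderiv i (S.y ρ) x = e ^ 2 * pderiv i f x := fun i => by
    rw [← Bs.pd_const_mul, pderiv, pderiv, t1]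
  have e1 : gb S.g (fun _ => 1) (S.y ρ) x = gb S.g (ph S e f z) f x := by
    ext i j
    simp only [gb, XX, Matrix.add_apply, Matrix.of_apply, hph, t2]
    ring
  have e2 : gm S.g (fun _ => 1) (S.y ρ) x = gm S.g (ph S e f z) f x := by
    simp only [gm, Id.sq, gam, hph, t2, Finset.mul_sum]
    congr 2
    exact Finset.sum_congr rfl fun i _ => Finset.sum_congr rfl fun j _ => by ring
  have e3 : ∀ T, traceK (gb S.g (fun _ => 1) (S.y ρ)) T x
      = traceK (gb S.g (ph S e f z) f) T x := fun T => by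
    simp only [traceK, inverseField, e1]
  have e4 : traceK (gb S.g (ph S e f z) f) (hessM S.g fun y => e ^ 2 * f y) x
      = e ^ 2 * traceK (gb S.g (ph S e f z) f) (hessM S.g f) x := by
    simp only [traceK, hessM, Matrix.of_apply, hess_const_mul _ hf2, Finset.mul_sum]
    exact Finset.sum_congr rfl fun i _ => Finset.sum_congr rfl fun j _ => by ring
  have t3 := traceK_hessM_le_of_max hd.riemb hU S.g (contDiffAt_const.mul hf2) hy2 hmax
  have t4 := hS.y_super ρ hρ x hx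
  have t5 := h.J x
  rw [Jd.Th_eq, H0_of_crit hd' hx' (by simp), e2, e3, e3] at t4
  rw [Jd.Th_eq, H0_of_crit hd hU hcrit, hph] at t5
  rw [e4] at t3
  have t6 := mul_le_mul_of_nonneg_left t3 (one_div_pos.2 (hd.gm_pos hU)).le
  have t7 : e ^ 2 / gm S.g (ph S e f z) f x * traceK (gb S.g (ph S e f z) f) (hessM S.g f) x
      = 1 / gm S.g (ph S e f z) f x
        * (e ^ 2 * traceK (gb S.g (ph S e f z) f) (hessM S.g f) x) := by ring
  linarith

/-- the maximum over `{s ≤ ρ}` is attained inside -/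
theorem max_inside (hS : S.OK) (h : Sl S e M z3 an f z) (hρ : ρ ∈ Icc (3 / 16 : ℝ) S.ra)
    (hx : S.s x ≤ ρ) (hmax : IsMaxOn (fun y => e ^ 2 * f y - S.y ρ y) {y | S.s y ≤ ρ} x) :
    S.s x < ρ := by
  refine hx.lt_of_ne fun hxe => ?_
  obtain ⟨B0, -, hB⟩ := h.exists_bound
  obtain ⟨x', hx', H⟩ := hS.y_steep ρ hρ x hxe (e ^ 2 * B0)
  have h1 : ‖f x' - f x‖ ≤ B0 * ‖x' - x‖ :=
    convex_univ.norm_image_sub_le_of_norm_fderiv_le (fun y _ => Bs.smooth_diff h.f_smooth y)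
      (fun y _ => (hB y).2.2.1) (mem_univ x) (mem_univ x')
  have h2 := mul_le_mul_of_nonneg_left (abs_le.1 h1).1 (sq_nonneg e)
  have h3 : e ^ 2 * f x' - S.y ρ x' ≤ e ^ 2 * f x - S.y ρ x := hmax (le_of_lt hx')
  linarith

end S2

theorem s2 : S2Stmt := by
  intro n hn S hS P T0 R bp _
  have ht1 : 0 < S.t1 := by
    have h1 : 0 < S.t0 := hS.par_ok.t0_pos
    have h2 : 4 * S.t0 ≤ S.t1 := hS.par_ok.t01
    linarith
  refine ⟨min 1 (S.t1 / (|S.Cy| + 1)), lt_min one_pos (by positivity),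
    fun e he he' M z3 an f z h => ?_⟩
  have he1 : e ≤ 1 := he'.trans (min_le_left _ _)
  have heC : e * S.Cy < S.t1 := by
    have := he'.trans (min_le_right _ _)
    rw [le_div_iff₀ (by positivity)] at this
    nlinarith [le_abs_self S.Cy]
  have hsc := hS.good.s_smooth.continuous
  have hfc := h.f_smooth.continuous
  have hra := hS.ra_gt
  -- the compact parameter domain
  set D : Set (ℝ × E n) := {p | p.1 ∈ Icc (3 / 16 : ℝ) S.ra ∧ S.s p.2 ≤ p.1} with hD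
  have hball : ∀ x, S.s x ≤ S.ra → x ∈ Metric.closedBall (0 : E n) S.R0 := fun x hx => by
    rw [mem_closedBall_zero_iff]
    by_contra hc
    linarith [hS.good.s_far x (not_le.1 hc).le, hS.rab, hS.rb_lt]
  have hDc : IsClosed D := (isClosed_Icc.preimage continuous_fst).inter
    (isClosed_le (hsc.comp continuous_snd) continuous_fst)
  have hDK : IsCompact D := (isCompact_Icc.prod (isCompact_closedBall (0 : E n) S.R0)).of_isClosed_subset
    hDc fun p hp => ⟨hp.1, hball _ (hp.2.trans hp.1.2)⟩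
  have hGc : ContinuousOn (fun p : ℝ × E n => e * (e ^ 2 * f p.2 - S.y p.1 p.2)) D :=
    continuousOn_const.mul
      ((continuous_const.mul (hfc.comp continuous_snd)).continuousOn.sub hS.y_cont)
  have key : ∀ p ∈ D, e * (e ^ 2 * f p.2 - S.y p.1 p.2) < -S.t1 := by
    by_contra hc
    push Not at hc
    have hBK : IsCompact (D ∩ (fun p : ℝ × E n => e * (e ^ 2 * f p.2 - S.y p.1 p.2)) ⁻¹'
        Ici (-S.t1)) := hDK.of_isClosed_subset
      (hGc.preimage_isClosed_of_isClosed hDc isClosed_Ici) inter_subset_left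
    obtain ⟨⟨ρ, x1⟩, ⟨⟨hρ, hx1⟩, hG1⟩, hmin⟩ := hBK.exists_isMinOn hc continuous_fst.continuousOn
    have hG1' : -S.t1 ≤ e * (e ^ 2 * f x1 - S.y ρ x1) := hG1
    have hAc : IsCompact {y | S.s y ≤ ρ} := (isCompact_closedBall (0 : E n) S.R0).of_isClosed_subset
      (isClosed_le hsc continuous_const) fun y hy => hball y (le_trans hy hρ.2)
    have hyc : ContinuousOn (S.y ρ) {y | S.s y ≤ ρ} :=
      hS.y_cont.comp (f := fun y => (ρ, y)) (by fun_prop) fun y hy => ⟨hρ, hy⟩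
    obtain ⟨x, hx, hmax⟩ := hAc.exists_isMaxOn (f := fun y => e ^ 2 * f y - S.y ρ y) ⟨x1, hx1⟩
      ((continuous_const.mul hfc).continuousOn.sub hyc)
    have hin := max_inside hS h hρ hx hmax
    have hloc : IsLocalMax (fun y => e ^ 2 * f y - S.y ρ y) x :=
      hmax.isLocalMax (mem_of_superset ((isOpen_lt hsc continuous_const).mem_nhds hin)
        fun y (hy : S.s y < ρ) => hy.le)
    have hy := hS.y_mem ρ hρ x hx
    have hchi : (S.par e 0 0).chi ((S.coef 0).a1 x) ((S.coef 0).a2 x) (e ^ 3 * f x) = 0 := by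
      rcases hρ.1.eq_or_lt with h0 | h0
      · have : (S.coef 0).a1 x = 0 := cut_zero (by norm_num) (by
          have : (3 / 16 : ℝ) = ρ := h0
          linarith)
        rw [Par.chi, this, zero_mul]
      · have hev : ∀ᶠ r in 𝓝[<] ρ, (r, x) ∈ D ∧ r < ρ := by
          filter_upwards [Ioo_mem_nhdsLT (max_lt h0 hin)] with r hr
          exact ⟨⟨⟨(le_max_left _ _).trans hr.1.le, hr.2.le.trans hρ.2⟩,
            (le_max_right _ _).trans hr.1.le⟩, hr.2⟩
        have htd : Tendsto (fun r : ℝ => (r, x)) (𝓝[<] ρ) (𝓝[D] (ρ, x)) :=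
          tendsto_nhdsWithin_iff.2 ⟨((by fun_prop : Continuous fun r : ℝ => (r, x)).tendsto ρ).mono_left
            nhdsWithin_le_nhds, hev.mono fun r hr => hr.1⟩
        have hle : e * (e ^ 2 * f x - S.y ρ x) ≤ -S.t1 := by
          refine le_of_tendsto ((hGc (ρ, x) ⟨hρ, hx⟩).tendsto.comp htd) ?_
          filter_upwards [hev] with r hr
          by_contra hc'
          exact absurd (hmin ⟨hr.1, (not_le.1 hc').le⟩) (not_le.2 hr.2)
        have h1 : (S.coef 0).a2 x = 1 := by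
          have : cut S.ra S.rb (S.s x) = 0 := cut_zero hS.rab (le_trans hx hρ.2)
          simp [Setup.coef, this]
        have h2 : cut (-S.t1) (-S.t1 / 2) (e ^ 3 * f x) = 0 :=
          cut_zero (by linarith) (by nlinarith [hy.2])
        simp [Par.chi, Setup.par, h1, h2]
    have h3 := touch hS he he1 h hρ hin hloc (by rw [ph_eq, hchi]; ring)
    have h4 : e ^ 2 * f x1 - S.y ρ x1 ≤ e ^ 2 * f x - S.y ρ x := hmax hx1
    nlinarith [mul_le_mul_of_nonneg_left h4 he.le, mul_le_mul_of_nonneg_left hy.1 he.le]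
  intro x hx
  have h1 : e * (e ^ 2 * f x - S.y S.ra x) < -S.t1 := key (S.ra, x) ⟨⟨by linarith, le_rfl⟩, hx⟩
  have h2 := (hS.y_mem S.ra ⟨by linarith, le_rfl⟩ x hx).2
  nlinarith

end Crest.Agent.N346.Bd

end
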