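import Crest.Agent.N346.Bd.FarB
import Crest.Agent.N346.Basic2
import Crest.Agent.N346.Bd.Basic
import Crest.Agent.N346.Id.Frame

-- ▼ part N346/Bd/S45
section

/-! Row 346, Part 1 (helper10): S4 (bound and barrier for `f`) and S5 (barrier for `1/γ`). -/

set_option autoImplicit false

open MeasureTheory Filter Set
open scoped ContDiff Topology
open Crest.GeometryTopology.CoordMetric Crest.MathPhysics.ExteriorData
open Crest.Agent.R202.Tens Crest.Agent.R247.Bo84 Crest.Agent.N346.Id Crest.Agent.N346.P1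

noncomputable section

namespace Crest.Agent.N346.Bd

variable {n : ℕ} {S : Setup n} {P T0 R e M z3 : ℝ} {bp an f z : E n → ℝ} {x : E n}

namespace Fb

theorem traceK_sign {G g : MetricField n} {U : Set (E n)} (hG : IsRiemannianOn G U) (hx : x ∈ U)
    {u : E n → ℝ} (hu : ContDiffAt ℝ 2 u x) (σ : ℝ) :
    traceK G (hessM g fun y => σ * u y) x = σ * traceK G (hessM g u) x := by
  obtain ⟨ξ, hξ⟩ := exists_frame hG hx
  rw [Bd.traceK_frame hG hx hξ, Bd.traceK_frame hG hx hξ, Finset.mul_sum]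
  exact Finset.sum_congr rfl fun a _ => by rw [bil_hessM, bil_hessM, hess_const_mul σ hu]

namespace Ctx
variable (c : Ctx S P T0 R e M z3 bp an f z)
include c

theorem f2 : ContDiffAt ℝ 2 f x := c.f_smooth.contDiffAt.of_le (by norm_cast)

theorem f_barrier (hC : 2 * n * P * e ≤ 1) {σ T : ℝ} (hT : 0 ≤ T)
    (hs : ∀ x, ‖x‖ = 9 * e⁻¹ ^ 4 → σ * (e ^ 3 * f x) ≤ T) {x0 : E n} (hx0 : 9 * e⁻¹ ^ 4 ≤ ‖x0‖) :
    σ * (e ^ 3 * f x0) ≤ T * Real.exp (-e ^ 2 * (‖x0‖ - 9 * e⁻¹ ^ 4)) := by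
  have he := c.e_pos
  have hP := c.P_one
  have he3 : 0 < e ^ 3 := by positivity
  set ρ := 9 * e⁻¹ ^ 4 with hρ
  set h : ℝ → ℝ := fun r => T / e ^ 3 * Real.exp (-e ^ 2 * (r - ρ)) with hh
  have h0 : ∀ r, 0 ≤ h r := fun r => by simp only [hh]; positivity
  have hd : ∀ r, HasDerivAt h (-e ^ 2 * h r) r := fun r => by
    have := ((((hasDerivAt_id r).sub_const ρ).const_mul (-e ^ 2)).exp).const_mul (T / e ^ 3)
    refine this.congr_deriv ?_
    simp only [hh, id]; ring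
  by_contra hcon
  push Not at hcon
  obtain ⟨B, hB⟩ := c.f_bdd
  obtain ⟨m, hm, H⟩ := ext_max (ρ := ρ) (F := fun y => σ * f y - h ‖y‖)
    ((continuous_const.mul c.f_smooth.continuous).sub
      ((show Continuous h by simp only [hh]; fun_prop).comp continuous_norm)).continuousOn
    ⟨|σ| * B, fun y _ => by
      have := mul_le_mul_of_nonneg_left (hB y) (abs_nonneg σ)
      rw [← abs_mul] at this
      linarith [le_abs_self (σ * f y), h0 ‖y‖]⟩
    (fun y hy => by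
      have := hs y hy
      simp only [hh, hy, sub_self, mul_zero, Real.exp_zero, mul_one, sub_nonpos]
      rw [le_div_iff₀ he3]; linarith)
    c.geo.bp_b2.smooth.continuous c.geo.bp_nonneg c.geo.bp_top hx0 (by
      simp only [hh, sub_pos]
      rw [div_mul_eq_mul_div, div_lt_iff₀ he3]; linarith)
  have hn0 : (0 : ℝ) < n := by exact_mod_cast (by linarith [c.hn] : 0 < n)
  obtain ⟨ε, hε, hε0, x1, hx1, hmax, hv⟩ := H (e ^ 3 * m / (2 * (n * P))) (by positivity)
  obtain ⟨r1, r2, -⟩ := c.radial hx1.le (h := h) (h1 := fun r => -e ^ 2 * h r)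
    (h2 := -e ^ 2 * (-e ^ 2 * h ‖x1‖)) (by simp only [hh]; fun_prop) (fun r _ => hd r)
    ((hd _).const_mul _)
  have hr : 1 ≤ ‖x1‖ := c.one_le hx1.le
  have hu : ContDiffAt ℝ 2 (fun y => σ * f y) x1 := contDiffAt_const.mul c.f2
  have hbε : ContDiffAt ℝ 2 (fun y => ε * bp y) x1 := contDiffAt_const.mul c.bp2
  have hm2 : IsLocalMax (fun y => σ * f y - (h ‖y‖ + ε * bp y)) x1 := by
    simpa only [sub_sub] using hmax
  have hH : |-e ^ 2 * h ‖x1‖| * (P / ‖x1‖) + |-e ^ 2 * (-e ^ 2 * h ‖x1‖)| * P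
      ≤ 2 * e ^ 4 * P * h ‖x1‖ := by
    have := h0 ‖x1‖
    rw [neg_mul, abs_neg, abs_of_nonneg (by positivity), show -e ^ 2 * -(e ^ 2 * h ‖x1‖)
      = e ^ 4 * h ‖x1‖ by ring, abs_of_nonneg (by positivity)]
    have a1 : P / ‖x1‖ ≤ P * e ^ 2 := by
      rw [div_le_iff₀ (by linarith), mul_assoc]
      refine le_mul_of_one_le_right (by linarith) ?_
      have a2 : e ^ 2 * ρ ≤ e ^ 2 * ‖x1‖ := by gcongr
      have a3 : e ^ 2 * ρ = 9 * e⁻¹ ^ 2 := by rw [hρ]; field_simp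
      nlinarith [c.X_ge]
    have := mul_le_mul_of_nonneg_left a1 (by positivity : 0 ≤ e ^ 2 * h ‖x1‖)
    linarith
  have t1 : traceK (gB S e f z) (hessM S.g fun y => σ * f y) x1
      ≤ n * (2 * e ^ 4 * P * h ‖x1‖ + ε * P) :=
    traceK_le c.jd.riemb (mem_univ x1) fun Y => by
      rw [bil_hessM]
      have b0 := bil_self_nonneg c.geo.riem (mem_univ x1) Y
      have b1 := (touch_of_max hu (r1.add hbε) hm2).2 S.g Y
      rw [hess_add r1 hbε, hess_const_mul ε c.bp2] at b1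
      have b2 := (abs_le.1 (r2 Y)).2.trans (mul_le_mul_of_nonneg_right hH b0)
      have b3 := mul_le_mul_of_nonneg_left (abs_le.1 (c.geo.bp_b2.h_le x1 Y)).2 hε.le
      have := h0 ‖x1‖
      have b4 := mul_le_mul_of_nonneg_left (c.jd.bil_le_gb (mem_univ x1) Y)
        (by positivity : 0 ≤ 2 * e ^ 4 * P * h ‖x1‖ + ε * P)
      linarith
  rw [traceK_sign c.jd.riemb (mem_univ x1) c.f2] at t1
  have t2 := c.jd.H0_eq (mem_univ x1)
  rw [c.H0_far hx1.le, c.aa_far hx1, c.ph_far hx1.le, mul_zero, add_zero] at t2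
  have hγ := c.jd.one_le_gm (mem_univ x1)
  have hh1 := h0 ‖x1‖
  have t3 : σ * (e ^ 3 * f x1) ≤ n * (2 * e ^ 4 * P * h ‖x1‖ + ε * P) := by
    rw [t2, mul_left_comm]
    refine (mul_le_mul_of_nonneg_left t1 (by positivity)).trans
      (mul_le_of_le_one_left (by positivity) ?_)
    rw [div_le_one (by linarith)]; exact hγ
  have t4 := mul_le_mul_of_nonneg_right hC (by positivity : 0 ≤ e ^ 3 * h ‖x1‖)
  have t5 := mul_le_mul_of_nonneg_left hv he3.le
  have t6 := mul_nonneg he3.le (mul_nonneg hε.le (c.geo.bp_nonneg x1))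
  rw [le_div_iff₀ (by positivity)] at hε0
  have t7 := mul_pos he3 hm
  linarith

theorem f_bound (hC : 2 * n * P * e ≤ 1) {σ : ℝ} (hσ : |σ| = 1) (x0 : E n) :
    σ * (e ^ 3 * f x0) ≤ T0 := by
  have he := c.e_pos
  obtain ⟨B, hB⟩ := c.f_bdd
  have hB0 : 0 ≤ B := (abs_nonneg _).trans (hB 0)
  have h1 : ∀ y, σ * (e ^ 3 * f y) ≤ e ^ 3 * B := fun y => by
    refine (le_abs_self _).trans ?_
    rw [abs_mul, hσ, one_mul, abs_mul, abs_of_nonneg (by positivity)]
    exact mul_le_mul_of_nonneg_left (hB y) (by positivity)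
  by_contra hcon
  push Not at hcon
  have hpos : 0 < σ * (e ^ 3 * f x0) := c.T0_nonneg.trans_lt hcon
  have ht : Tendsto (fun y : E n => e ^ 3 * B * Real.exp (-e ^ 2 * (‖y‖ - 9 * e⁻¹ ^ 4)))
      (cocompact (E n)) (𝓝 (e ^ 3 * B * 0)) := by
    refine Tendsto.const_mul _ (Real.tendsto_exp_atBot.comp ?_)
    exact (tendsto_atTop_add_const_right _ _ tendsto_norm_cocompact_atTop).const_mul_atTop_of_neg
      (by have := pow_pos he 2; linarith)
  rw [mul_zero] at ht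
  have hc : Continuous fun y => σ * (e ^ 3 * f y) :=
    continuous_const.mul (continuous_const.mul c.f_smooth.continuous)
  obtain ⟨x1, hx1⟩ := hc.exists_forall_ge' x0 (by
    filter_upwards [ht.eventually (gt_mem_nhds hpos),
      tendsto_norm_cocompact_atTop.eventually_ge_atTop (9 * e⁻¹ ^ 4)] with y h2 h3
    exact (c.f_barrier hC (by positivity) (fun y _ => h1 y) h3).trans h2.le)
  have hmax : IsLocalMax (fun y => (σ * e ^ 3) * f y) x1 :=
    Eventually.of_forall fun y => by simpa only [mul_assoc] using hx1 y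
  have hσ0 : σ * e ^ 3 ≠ 0 := mul_ne_zero (by rintro rfl; simp at hσ) (by positivity)
  have hdf : fderiv ℝ f x1 = 0 := by
    have := hmax.fderiv_eq_zero
    rw [fderiv_const_mul (c.f_smooth.differentiable (by simp) x1)] at this
    exact (smul_eq_zero.1 this).resolve_left hσ0
  have hw : wv S.g (ph S e f z) f x1 = 0 := by simp [wv, grad_eq_zero _ hdf]
  have t1 : traceK (gB S e f z) (hessM S.g fun y => (σ * e ^ 3) * f y) x1 ≤ 0 := by
    simpa using traceK_le (T := hessM S.g fun y => (σ * e ^ 3) * f y) c.jd.riemb (mem_univ x1)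
      (c := 0) fun Y => by
        rw [bil_hessM, zero_mul]; exact hess_nonpos_of_max _ (contDiffAt_const.mul c.f2) hmax Y
  rw [traceK_sign c.jd.riemb (mem_univ x1) c.f2] at t1
  have t2 := c.jd.H0_eq (mem_univ x1)
  have t3 := H0_eq_Th c.jd (mem_univ x1) S.K
  rw [c.sl.J, hw] at t3
  simp only [aa, hw, map_zero, mul_zero, add_zero, sub_zero] at t2 t3
  have hq : 0 < ph S e f z x1 / gm S.g (ph S e f z) f x1 :=
    div_pos (c.jd.φ_pos x1 (mem_univ _)) (c.jd.gm_pos (mem_univ _))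
  have t4 : σ * traceK (gB S e f z) (hessM S.g f) x1 ≤ 0 := by
    by_contra hh
    have := mul_pos (pow_pos he 3) (not_le.1 hh)
    linarith
  have t5 := mul_le_mul_of_nonneg_left t4 hq.le
  have t6 : -(σ * traceK S.g S.K x1) ≤ T0 := by
    refine (neg_le_abs _).trans ?_
    rw [abs_mul, hσ, one_mul]; exact c.geo.trK_T x1
  have t7 : σ * (e ^ 3 * f x1) = σ * H0 S.g (ph S e f z) f x1 - σ * traceK S.g S.K x1 := by
    rw [t3]; ring
  rw [t2] at t7
  linarith [hx1 x0]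

theorem g_barrier (hC : (n * (4 * n * (4 * n + 2) * P) + P * (4 * n * P)) * e ≤ 1)
    (hP1 : P * e ≤ 1) (hf : FB e T0 f) : GFar S e f z := by
  intro x0 hx0
  have he := c.e_pos
  have hP := c.P_one
  set ρ := 9 * e⁻¹ ^ 4 with hρ
  have hρ0 : 0 < ρ := by positivity
  have hy : ∀ y, Real.exp (-ell S.g (ph S e f z) f y) = (gm' S e f z y)⁻¹ := fun y => by
    rw [Real.exp_neg, ell, Real.exp_log (c.jd.gm_pos (mem_univ y))]
  have hb : ∀ y : E n, ρ ≤ ‖y‖ → (ρ / ‖y‖) ^ (4 * n) = ρ ^ (4 * n) * ‖y‖ ^ (-((4 * n : ℕ) : ℝ)) :=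
    fun y _ => by rw [Real.rpow_neg (norm_nonneg _), Real.rpow_natCast, div_pow, div_eq_mul_inv]
  have cl : ∀ y, ContDiffAt ℝ 2 (ell S.g (ph S e f z) f) y := fun y =>
    (c.jd.c_ell (mem_univ y)).of_le (by norm_cast)
  by_contra hcon
  push Not at hcon
  obtain ⟨m, hm, H⟩ := ext_max (ρ := ρ) (F := fun y => 1 - ρ ^ (4 * n) * ‖y‖ ^ (-((4 * n : ℕ) : ℝ))
      - Real.exp (-ell S.g (ph S e f z) f y))
    (fun y hy => ((continuousAt_const.sub (continuousAt_const.mul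
      (c.radial_pow hy (Nat.cast_nonneg _)).1.continuousAt)).sub
      (cl y).neg.exp.continuousAt).continuousWithinAt)
    ⟨1, fun y _ => by
      have : 0 ≤ ρ ^ (4 * n) * ‖y‖ ^ (-((4 * n : ℕ) : ℝ)) := by positivity
      linarith [Real.exp_pos (-ell S.g (ph S e f z) f y)]⟩
    (fun y hy' => by
      rw [← hb y hy'.ge, hy', div_self hρ0.ne', one_pow]
      linarith [Real.exp_pos (-ell S.g (ph S e f z) f y)])
    c.geo.bp_b2.smooth.continuous c.geo.bp_nonneg c.geo.bp_top hx0 (by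
      rw [← hb x0 hx0, hy]; linarith)
  obtain ⟨ε, hε, hε0, x1, hx1, hmax, hv⟩ := H (e ^ 3 * m / (4 * (n * P + P * P))) (by positivity)
  obtain ⟨r1, r2, r3⟩ := c.radial_pow hx1.le (a := ((4 * n : ℕ) : ℝ)) (Nat.cast_nonneg _)
  have hr : 1 ≤ ‖x1‖ := c.one_le hx1.le
  have hb0 := c.jd.riemb
  have cy : ContDiffAt ℝ 2 (fun y => Real.exp (-ell S.g (ph S e f z) f y)) x1 := (cl x1).neg.exp
  have cb : ContDiffAt ℝ 2 (fun y : E n => ρ ^ (4 * n) * ‖y‖ ^ (-((4 * n : ℕ) : ℝ))) x1 :=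
    contDiffAt_const.mul r1
  have hbε : ContDiffAt ℝ 2 (fun y => ε * bp y) x1 := contDiffAt_const.mul c.bp2
  have t0 := lap_nonpos_of_max hb0 (mem_univ x1) (((contDiffAt_const.sub cb).sub cy).sub hbε) hmax
  rw [lap_sub hb0 (mem_univ x1) ((contDiffAt_const.sub cb).sub cy) hbε,
    lap_sub hb0 (mem_univ x1) (contDiffAt_const.sub cb) cy,
    lap_sub hb0 (mem_univ x1) contDiffAt_const cb, lap_const,
    lap_const_mul hb0 (mem_univ x1) _ r1, lap_const_mul hb0 (mem_univ x1) _ c.bp2] at t0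
  -- the Laplacian of `y`
  have d1 : deriv (fun t : ℝ => Real.exp (-t)) = fun t => -Real.exp (-t) := by
    funext t; simpa using ((hasDerivAt_neg t).exp).deriv
  have d2 : ∀ t : ℝ, deriv (fun t : ℝ => -Real.exp (-t)) t = Real.exp (-t) := fun t => by
    simpa using ((hasDerivAt_neg t).exp.neg).deriv
  have t1 := lap_comp (φ := fun t => Real.exp (-t)) hb0 (mem_univ x1) (by fun_prop) (cl x1)
  rw [d1, d2, c.jd.lap_gb_ell (mem_univ x1) (c.ph_ev hx1), c.dH0 hx1] at t1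
  simp only [hy x1] at t1 hv
  have hγ := c.jd.one_le_gm (mem_univ x1)
  have hγ0 := c.jd.gm_pos (mem_univ x1)
  have hp0 := c.jd.pp_nonneg (mem_univ x1)
  have hp := c.jd.one_sub_pp (mem_univ x1)
  set y := (gm' S e f z x1)⁻¹ with hyd
  have y0 : 0 < y := inv_pos.2 hγ0
  have y1 : y ≤ 1 := inv_le_one_of_one_le₀ hγ
  rw [← inv_pow] at hp
  change 1 - pp' S e f z x1 = y ^ 2 at hp
  have u1 : y * (gm' S e f z x1 * pp' S e f z x1) = pp' S e f z x1 := by
    rw [← mul_assoc, hyd, inv_mul_cancel₀ hγ0.ne', one_mul]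
  have u2 := mul_nonneg y0.le (Bd.normSqK_nonneg hb0 (mem_univ x1)
    (c.jd.symT_hh.symm x1 (mem_univ x1)))
  have er : e ^ 4 * ρ = 9 := by rw [hρ]; field_simp
  have ur : 1 / ‖x1‖ ≤ e ^ 4 / 9 := by
    rw [div_le_div_iff₀ (by linarith) (by norm_num)]
    nlinarith [mul_le_mul_of_nonneg_left hx1.le (pow_pos he 4).le]
  have u3 : ‖x1‖ ^ (-(n : ℝ)) ≤ e ^ 4 / 9 := by
    refine le_trans ?_ ur
    rw [one_div, ← Real.rpow_neg_one]
    refine Real.rpow_le_rpow_of_exponent_le hr (neg_le_neg ?_)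
    exact_mod_cast (by linarith [c.hn] : 1 ≤ n)
  have u4 : -bil (ricM S.g x1) (wv S.g (ph S e f z) f x1) (wv S.g (ph S e f z) f x1)
      ≤ e ^ 3 / 2 * pp' S e f z x1 := by
    have := (neg_le_abs _).trans (c.geo.Ric_far x1 (wv S.g (ph S e f z) f x1) (c.R_le' hx1.le))
    rw [c.jd.bil_wv_wv (mem_univ x1)] at this
    refine this.trans (mul_le_mul_of_nonneg_right ?_ hp0)
    have v1 := mul_le_mul_of_nonneg_left u3 (by linarith : 0 ≤ P)
    have v2 := mul_le_mul_of_nonneg_right hP1 (pow_pos he 3).le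
    have := pow_pos he 3
    linarith
  have u5 := mul_le_mul_of_nonneg_left u4 y0.le
  have u6 := mul_le_mul_of_nonneg_right y1 (by positivity : 0 ≤ e ^ 3 / 2 * pp' S e f z x1)
  have t2 : laplaceBeltrami (gB S e f z) (fun y => Real.exp (-ell S.g (ph S e f z) f y)) x1
      ≤ -(e ^ 3 / 2 * pp' S e f z x1) := by
    have : e ^ 3 * (y * (gm' S e f z x1 * pp' S e f z x1)) = e ^ 3 * pp' S e f z x1 := by rw [u1]
    linarith
  -- the barrier
  set k := ‖x1‖ ^ (-((4 * n : ℕ) : ℝ)) with hk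
  have k0 : 0 ≤ k := by positivity
  have t3 := (le_abs_self _).trans (c.abs_lapb hx1 r1 (by positivity) (by positivity) r2 r3
    ((hf x1).trans c.geo.T0_le))
  have t4 : (n : ℝ) * (((4 * n : ℕ) : ℝ) * (((4 * n : ℕ) : ℝ) + 2) * P * k / ‖x1‖ ^ 2)
      + P * (((4 * n : ℕ) : ℝ) * k / ‖x1‖ * P) ≤ e ^ 3 / 2 * k := by
    push_cast
    have v1 : 1 / ‖x1‖ ^ 2 ≤ 1 / ‖x1‖ :=
      one_div_le_one_div_of_le (by linarith) (by nlinarith)
    have v2 := mul_le_mul_of_nonneg_left (v1.trans ur)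
      (by positivity : 0 ≤ n * (4 * n * (4 * n + 2) * P) * k)
    have v3 := mul_le_mul_of_nonneg_left ur (by positivity : 0 ≤ P * (4 * n * P) * k)
    have v4 := mul_le_mul_of_nonneg_right hC (by positivity : 0 ≤ e ^ 3 * k)
    have v5 : 0 ≤ e ^ 3 * k := by positivity
    calc _ = n * (4 * n * (4 * n + 2) * P) * k * (1 / ‖x1‖ ^ 2)
          + P * (4 * n * P) * k * (1 / ‖x1‖) := by ring
      _ ≤ _ := by linarith
  have t5 := mul_le_mul_of_nonneg_left (t3.trans t4) (by positivity : 0 ≤ ρ ^ (4 * n))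
  have t6 := mul_le_mul_of_nonneg_left ((le_abs_self _).trans (c.abs_lapb_bp hx1 (hf x1))) hε.le
  have t7 : ρ ^ (4 * n) * k + m ≤ pp' S e f z x1 := by
    have := mul_nonneg hε.le (c.geo.bp_nonneg x1)
    have := mul_le_mul_of_nonneg_left y1 y0.le
    linarith
  have t8 := mul_le_mul_of_nonneg_left t7 (by positivity : 0 ≤ e ^ 3 / 2)
  rw [le_div_iff₀ (by positivity)] at hε0
  have t9 := mul_pos (pow_pos he 3) hm
  linarith

end Ctx
end Fb

theorem s4 : S4Stmt := by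
  intro n hn S hS P T0 R bp hG
  obtain ⟨e1, he1, H⟩ := Fb.exists_e1 R (2 * n * P)
  refine ⟨e1, he1, fun e he hle M z3 an f z hsl hz => ?_⟩
  obtain ⟨h1, h2, h3⟩ := H e he hle
  have c : Fb.Ctx S P T0 R e M z3 bp an f z := ⟨hn, hS, hG, hsl, he, h1, h2, hz⟩
  have b1 := fun x => c.f_bound h3 (σ := 1) (by simp) x
  have b2 := fun x => c.f_bound h3 (σ := -1) (by simp) x
  refine ⟨fun x => abs_le.2 ⟨by linarith [b2 x], by linarith [b1 x]⟩, fun x hx => abs_le.2 ⟨?_, ?_⟩⟩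
  · linarith [c.f_barrier h3 c.T0_nonneg (fun y _ => b2 y) hx]
  · linarith [c.f_barrier h3 c.T0_nonneg (fun y _ => b1 y) hx]

theorem s5 : S5Stmt := by
  intro n hn S hS P T0 R bp hG
  obtain ⟨e1, he1, H⟩ := Fb.exists_e1 R (n * (4 * n * (4 * n + 2) * P) + P * (4 * n * P))
  obtain ⟨e2, he2, H2⟩ := Fb.exists_e1 R P
  refine ⟨min e1 e2, lt_min he1 he2, fun e he hle M z3 an f z hsl hz hf => ?_⟩
  obtain ⟨h1, h2, h3⟩ := H e he (hle.trans (min_le_left _ _))
  have c : Fb.Ctx S P T0 R e M z3 bp an f z := ⟨hn, hS, hG, hsl, he, h1, h2, hz⟩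
  exact c.g_barrier h3 (H2 e he (hle.trans (min_le_right _ _))).2.2 hf

end Crest.Agent.N346.Bd

end
end

-- ▼ part N346/Bd/S6
section

/-! Row 346, Part 1 (helper10): S6 (upper barrier for `ψ = γ e^{2z}`). -/

set_option autoImplicit false

open MeasureTheory Filter Set
open scoped ContDiff Topology
open Crest.GeometryTopology.CoordMetric Crest.MathPhysics.ExteriorData
open Crest.Agent.R202.Tens Crest.Agent.R247.Bo84 Crest.Agent.N346.Id Crest.Agent.N346.P1

noncomputable section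

namespace Crest.Agent.N346.Bd

variable {n : ℕ} {S : Setup n} {P T0 R e M z3 : ℝ} {bp an f z : E n → ℝ} {x : E n}

namespace Fb

theorem two_gam_le {G : MetricField n} {U : Set (E n)} (hG : IsRiemannianOn G U) (hx : x ∈ U)
    (u v : E n → ℝ) : |2 * gam G u v x| ≤ gam G u u x + gam G v v x := by
  have h1 := gam_sq_le hG hx u v
  have h2 := gam_self_nonneg hG hx u
  have h3 := gam_self_nonneg hG hx v
  refine abs_le.2 (abs_le_of_sq_le_sq' ?_ (by positivity))
  nlinarith [sq_nonneg (gam G u u x - gam G v v x)]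

theorem gam_lin {G : MetricField n} {U : Set (E n)} (hG : IsRiemannianOn G U) (hx : x ∈ U)
    {u v : E n → ℝ} (hu : ContDiffAt ℝ 2 u x) (hv : ContDiffAt ℝ 2 v x) (k : ℝ) :
    gam G (fun y => u y + k * v y) (fun y => u y + k * v y) x
      = gam G u u x + k * (2 * gam G u v x) + k ^ 2 * gam G v v x := by
  have du := hu.differentiableAt (by norm_num)
  have dv := hv.differentiableAt (by norm_num)
  rw [gam_add_left du (dv.const_mul k), gam_const_mul_left k dv, gam_add_right du (dv.const_mul k),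
    gam_add_right du (dv.const_mul k), gam_const_mul_right k dv, gam_const_mul_right k dv,
    gam_comm hG hx v u]
  ring

theorem lap_log {G : MetricField n} {U : Set (E n)} (hG : IsRiemannianOn G U) (hx : x ∈ U)
    {u : E n → ℝ} (hu : ContDiffAt ℝ 2 u x) (h0 : 0 < u x) {k : ℝ} (hk : 0 ≤ k) :
    ContDiffAt ℝ 2 (fun y => Real.log (1 + k * u y)) x ∧
    gam G (fun y => Real.log (1 + k * u y)) (fun y => Real.log (1 + k * u y)) x
      = (k / (1 + k * u x)) ^ 2 * gam G u u x ∧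
    laplaceBeltrami G (fun y => Real.log (1 + k * u y)) x
      = k / (1 + k * u x) * laplaceBeltrami G u x - (k / (1 + k * u x)) ^ 2 * gam G u u x := by
  have hpos : ∀ t : ℝ, 0 < t → 1 + k * t ≠ 0 := fun t ht => by positivity
  have d1 : ∀ t : ℝ, 0 < t → HasDerivAt (fun t => Real.log (1 + k * t)) (k / (1 + k * t)) t :=
    fun t ht => by simpa using (((hasDerivAt_id t).const_mul k).const_add 1).log (hpos t ht)
  have hc : ContDiffAt ℝ 2 (fun t : ℝ => Real.log (1 + k * t)) (u x) :=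
    (contDiffAt_const.add (contDiffAt_const.mul contDiffAt_id)).log (hpos _ h0)
  have e1 := (d1 _ h0).deriv
  have e2 : deriv (deriv fun t => Real.log (1 + k * t)) (u x) = -(k / (1 + k * u x)) ^ 2 := by
    have : deriv (fun t => Real.log (1 + k * t)) =ᶠ[𝓝 (u x)] fun t => k / (1 + k * t) :=
      (lt_mem_nhds h0).mono fun t ht => (d1 t ht).deriv
    rw [this.deriv_eq]
    have h := ((hasDerivAt_const (u x) k).div
      (((hasDerivAt_id (u x)).const_mul k).const_add 1) (hpos _ h0)).deriv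
    refine h.trans ?_
    simp only [id]
    field_simp; ring
  have hd := hc.differentiableAt (by norm_num)
  have hd' := hu.differentiableAt (by norm_num)
  refine ⟨hc.comp x hu, ?_, ?_⟩
  · rw [gam_comp_left hd hd', gam_comp_right hd hd', e1]; ring
  · rw [lap_comp hG hx hc hu, e1, e2]; ring

namespace Ctx
variable (c : Ctx S P T0 R e M z3 bp an f z)
include c

theorem far5 (hx : e⁻¹ ^ 5 ≤ ‖x‖) : 18 * e⁻¹ ^ 4 ≤ ‖x‖ := by
  have := mul_le_mul_of_nonneg_right c.X_ge (pow_pos (inv_pos.2 c.e_pos) 4).le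
  linarith [pow_succ' e⁻¹ 4]

theorem far5' (hx : e⁻¹ ^ 5 ≤ ‖x‖) : 9 * e⁻¹ ^ 4 < ‖x‖ := by
  linarith [c.far5 hx, pow_pos (inv_pos.2 c.e_pos) 4]

theorem kap (hg : GFar S e f z) (hx : e⁻¹ ^ 5 ≤ ‖x‖) :
    pp' S e f z x ≤ 9 * e ∧ gm' S e f z x ≤ 1 + (e⁻¹ ^ 5 / ‖x‖) ^ a0 n := by
  have he := c.e_pos
  have hr : 0 < ‖x‖ := by linarith [c.one_le (c.far5' hx).le]
  have h1 := hg x (c.far5' hx).le
  have e1 : 9 * e⁻¹ ^ 4 / ‖x‖ = 9 * e * (e⁻¹ ^ 5 / ‖x‖) := by field_simp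
  set u := e⁻¹ ^ 5 / ‖x‖ with hu
  have u0 : 0 < u := by positivity
  have u1 : u ≤ 1 := (div_le_one hr).2 hx
  have e9 : 9 * e ≤ 1 / 2 := by linarith [c.e_le]
  have a1 : (9 * e) ^ (4 * n) ≤ 9 * e / 2 := by
    have := pow_le_pow_of_le_one (by positivity : 0 ≤ 9 * e) (by linarith)
      (by linarith [c.hn] : 2 ≤ 4 * n)
    nlinarith
  have a2 : u ^ (4 * n) ≤ u ^ a0 n := by
    rw [← Real.rpow_natCast]
    refine Real.rpow_le_rpow_of_exponent_ge u0 u1 ?_
    have := a0_le c.hn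
    have : (0 : ℝ) ≤ n := Nat.cast_nonneg n
    push_cast; linarith
  have a3 : u ^ a0 n ≤ 1 := Real.rpow_le_one u0.le u1 (by linarith [a0_ge c.hn])
  rw [e1, mul_pow] at h1
  set κ := (9 * e) ^ (4 * n) * u ^ (4 * n) with hκ
  have κ0 : 0 ≤ κ := by positivity
  have κ1 : κ ≤ 9 * e / 2 * u ^ a0 n := mul_le_mul a1 a2 (by positivity) (by positivity)
  have b0 : 0 ≤ u ^ a0 n := by positivity
  have κ2 : κ ≤ 9 * e / 2 := κ1.trans (mul_le_of_le_one_right (by positivity) a3)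
  have κ3 : κ ≤ u ^ a0 n / 4 := κ1.trans (by nlinarith)
  have hγ0 := c.jd.gm_pos (mem_univ x)
  have hγ := c.jd.one_le_gm (mem_univ x)
  have hp := c.jd.one_sub_pp (mem_univ x)
  rw [← inv_pow] at hp
  constructor
  · change pp S.g (ph S e f z) f x ≤ _
    nlinarith [sq_nonneg (1 - (gm S.g (ph S e f z) f x)⁻¹)]
  · have := mul_le_mul_of_nonneg_left h1 hγ0.le
    rw [mul_inv_cancel₀ hγ0.ne'] at this
    change gm S.g (ph S e f z) f x ≤ _
    by_contra hc
    have := mul_lt_mul_of_pos_right (not_le.1 hc) (show 0 < 1 - κ by linarith)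
    nlinarith

theorem t_far (hf : FFar e T0 f) (hx : e⁻¹ ^ 5 ≤ ‖x‖) : |e ^ 3 * f x| ≤ 8 * P * e / ‖x‖ := by
  have he := c.e_pos
  have hr : 0 < ‖x‖ := by linarith [c.one_le (c.far5' hx).le]
  have hP := c.P_one
  refine (hf x (c.far5' hx).le).trans ?_
  set v := e ^ 2 * ‖x‖ / 2 with hv
  have v0 : 0 < v := by positivity
  have a1 : Real.exp (-e ^ 2 * (‖x‖ - 9 * e⁻¹ ^ 4)) ≤ Real.exp (-v) := by
    refine Real.exp_le_exp.2 ?_
    have := mul_le_mul_of_nonneg_left (c.far5 hx) (pow_pos he 2).le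
    linarith
  have a2 : Real.exp (-v) ≤ 2 / v ^ 2 := by
    rw [Real.exp_neg, inv_eq_one_div, div_le_div_iff₀ (Real.exp_pos _) (by positivity)]
    linarith [Real.quadratic_le_exp_of_nonneg v0.le]
  have a3 : 2 / v ^ 2 ≤ 8 * e / ‖x‖ := by
    rw [div_le_div_iff₀ (by positivity) hr]
    have b1 := mul_le_mul_of_nonneg_left hx (pow_pos he 5).le
    rw [← mul_pow, mul_inv_cancel₀ he.ne', one_pow] at b1
    have b2 := mul_le_mul_of_nonneg_right b1 hr.le
    calc _ ≤ 2 * (e ^ 5 * ‖x‖ * ‖x‖) := by linarith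
      _ = _ := by rw [hv]; ring
  calc _ ≤ P * (8 * e / ‖x‖) := mul_le_mul c.geo.T0_le (a1.trans (a2.trans a3))
        (Real.exp_pos _).le (by linarith)
    _ = _ := by ring

theorem lapb_pow (hC : 2 * P * (n * (n + 2) * P * 9 + 8 * P * (n * P)) * e ≤ 1)
    (hf : FFar e T0 f) (hg : GFar S e f z) (hx : e⁻¹ ^ 5 ≤ ‖x‖) :
    laplaceBeltrami (gB S e f z) (fun y => ‖y‖ ^ (-a0 n)) x
      ≤ -(‖x‖ ^ (-a0 n) / ‖x‖ ^ 2 / (2 * P)) := by
  have he := c.e_pos
  have hx' := c.far5' hx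
  have hr : 0 < ‖x‖ := by linarith [c.one_le hx'.le]
  have hP := c.P_one
  have ha0 : 0 ≤ a0 n := by linarith [a0_ge c.hn]
  have ha1 : a0 n ≤ n := by linarith [a0_le c.hn]
  obtain ⟨r1, r2, r3⟩ := c.radial_pow hx'.le ha0
  rw [c.lapb hx' r1, c.jd.traceK_gb (mem_univ x), ← lap_eq_traceK c.geo.riem (mem_univ x) r1,
    bil_hessM]
  have a1 := c.geo.lap_r x (c.R_le' hx'.le)
  rw [show -a0 n - 2 = -a0 n - (2 : ℕ) by norm_num, Real.rpow_sub_natCast hr.ne'] at a1
  have a2 := (neg_le_abs _).trans (r2 (wv S.g (ph S e f z) f x))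
  rw [c.jd.bil_wv_wv (mem_univ x)] at a2
  have a3 : -(e ^ 3 * f x * fderiv ℝ (fun y : E n => ‖y‖ ^ (-a0 n)) x (wv S.g (ph S e f z) f x))
      ≤ 8 * P * e / ‖x‖ * (a0 n * ‖x‖ ^ (-a0 n) / ‖x‖ * P) := by
    refine (neg_le_abs _).trans ?_
    rw [abs_mul]
    exact mul_le_mul (c.t_far hf hx) (c.dw_le (by positivity) r3) (abs_nonneg _) (by positivity)
  set k := ‖x‖ ^ (-a0 n) / ‖x‖ ^ 2 with hk
  have k0 : 0 ≤ k := by positivity
  have a4 : a0 n * (a0 n + 2) * P * ‖x‖ ^ (-a0 n) / ‖x‖ ^ 2 * pp S.g (ph S e f z) f x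
      ≤ n * (n + 2) * P * k * (9 * e) := by
    rw [mul_div_assoc]
    have := (c.kap hg hx).1
    have := c.jd.pp_nonneg (mem_univ x)
    gcongr
  have a5 : 8 * P * e / ‖x‖ * (a0 n * ‖x‖ ^ (-a0 n) / ‖x‖ * P) ≤ 8 * P * (n * P) * e * k := by
    calc _ = 8 * P * (a0 n * P) * e * k := by rw [hk]; field_simp
      _ ≤ _ := by gcongr
  have a6 : (n * (n + 2) * P * 9 + 8 * P * (n * P)) * e * k ≤ k / (2 * P) := by
    rw [le_div_iff₀ (by positivity)]
    linarith [mul_le_mul_of_nonneg_right hC k0]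
  have e1 : P⁻¹ * k = 2 * (k / (2 * P)) := by field_simp
  linarith

/-- the `W`-inequality in the far region -/
theorem W_far (hx : 9 * e⁻¹ ^ 4 < ‖x‖) :
    -(4 * P * ‖x‖ ^ (-(n : ℝ))) + an x * z x
      ≤ laplaceBeltrami (gB S e f z) (fun y => ell S.g (ph S e f z) f y + 2 * z y) x
        + gam (gB S e f z) (fun y => ell S.g (ph S e f z) f y + 2 * z y)
          (fun y => ell S.g (ph S e f z) f y + 2 * z y) x := by
  have he := c.e_pos
  have hP := c.P_one
  have hb := c.jd.riemb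
  have hr := c.one_le hx.le
  have cl : ContDiffAt ℝ 2 (ell S.g (ph S e f z) f) x :=
    (c.jd.c_ell (mem_univ x)).of_le (by norm_cast)
  have cz : ContDiffAt ℝ 2 z x := c.z_smooth.contDiffAt.of_le (by norm_cast)
  rw [gam_lin hb (mem_univ x) cl cz, lap_add hb (mem_univ x) cl (contDiffAt_const.mul cz),
    lap_const_mul hb (mem_univ x) 2 cz]
  have w := c.jd.id_W (mem_univ x)
  have e1 : (fun y => pp S.g (ph S e f z) f y • Vv S.g (ph S e f z) f y
      + grad (gB S e f z) (ell S.g (ph S e f z) f) y)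
      =ᶠ[𝓝 x] grad (gB S e f z) (ell S.g (ph S e f z) f) :=
    mem_of_superset ((isOpen_lt continuous_const continuous_norm).mem_nhds hx) fun y hy => by
      simp [c.Vv_far hy]
  have e2 := c.jd.grad_gb_ell (mem_univ x)
  rw [c.aa_far hx, mul_zero, zero_smul, sub_zero] at e2
  rw [divg_congr e1, divg_grad, c.Vv_far hx, c.aa_far hx, c.dH0 hx, c.H0_far hx.le, ← e2,
    ← gam_eq_bil hb (mem_univ x), map_zero] at w
  have u := c.sl.U x
  have rh := c.rhs_far hx.le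
  have g1 := (abs_le.1 (two_gam_le hb (mem_univ x) (ell S.g (ph S e f z) f) z)).1
  have g2 : al n * gam (gB S e f z) z z x ≤ 1 * gam (gB S e f z) z z x := by
    refine mul_le_mul_of_nonneg_right ?_ (gam_self_nonneg hb (mem_univ x) z)
    have : (3 : ℝ) ≤ n := by exact_mod_cast c.hn
    rw [al, div_le_one (by linarith)]; linarith
  have g3 := gam_self_nonneg hb (mem_univ x) z
  have hp0 := c.jd.pp_nonneg (mem_univ x)
  have g4 := mul_le_mul_of_nonneg_left (le_mul_of_one_le_left hp0 (c.jd.one_le_gm (mem_univ x)))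
    (pow_pos he 3).le
  have k0 : 0 ≤ P * ‖x‖ ^ (-(n : ℝ)) := by positivity
  have b1 : -scalarCurv S.g x ≤ P * ‖x‖ ^ (-(n : ℝ)) := by
    refine ((neg_le_abs _).trans (c.geo.R_far x (c.R_le' hx.le))).trans
      (mul_le_mul_of_nonneg_left ?_ (by linarith))
    exact Real.rpow_le_rpow_of_exponent_le hr (by linarith [c.ok.good.e0_pos])
  have b2 := (le_abs_self _).trans
    (c.geo.Ric_far x (wv S.g (ph S e f z) f x) (c.R_le' hx.le))
  rw [c.jd.bil_wv_wv (mem_univ x)] at b2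
  have b3 := mul_le_mul_of_nonneg_left (c.jd.pp_lt_one (mem_univ x)).le k0
  have b4 : S.mw x ≤ P * ‖x‖ ^ (-(n : ℝ)) :=
    (c.geo.mw_hi x).trans (mul_le_mul_of_nonneg_left (Real.rpow_le_rpow_of_nonpos (by linarith)
      (by linarith) (neg_nonpos.2 (Nat.cast_nonneg n))) (by linarith))
  linarith

set_option maxHeartbeats 400000 in
theorem p_barrier (hC : 2 * P * (n * (n + 2) * P * 9 + 8 * P * (n * P)) * e ≤ 1)
    (hC2 : 20 * P ^ 2 * e ≤ 1) (hf : FFar e T0 f) (hg : GFar S e f z) : PFar S e f z := by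
  intro Mb hMb hs x0 hx0
  have he := c.e_pos
  have hP := c.P_one
  have hX := c.X_ge
  have ha0 : 0 ≤ a0 n := by linarith [a0_ge c.hn]
  set ρ := e⁻¹ ^ 5 with hρ
  have hρ0 : 0 < ρ := by positivity
  have hρa : e⁻¹ ≤ ρ ^ a0 n := by
    rw [hρ, ← Real.rpow_natCast, ← Real.rpow_mul (by positivity)]
    conv_lhs => rw [← Real.rpow_one e⁻¹]
    exact Real.rpow_le_rpow_of_exponent_le (by linarith) (by push_cast; linarith [a0_ge c.hn])
  have hb : ∀ y : E n, (ρ / ‖y‖) ^ a0 n = ρ ^ a0 n * ‖y‖ ^ (-a0 n) := fun y => by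
    rw [Real.div_rpow hρ0.le (norm_nonneg _), Real.rpow_neg (norm_nonneg _), div_eq_mul_inv]
  set k := Mb * ρ ^ a0 n with hk
  have k0 : 0 ≤ k := by positivity
  have hB : ∀ y : E n, 1 + Mb * (ρ / ‖y‖) ^ a0 n = 1 + k * ‖y‖ ^ (-a0 n) := fun y => by
    rw [hb, hk]; ring
  have hψ : ∀ y, Real.log (psi S e f z y) = ell S.g (ph S e f z) f y + 2 * z y := fun y => by
    rw [psi, Real.log_mul (c.jd.gm_pos (mem_univ y)).ne' (Real.exp_pos _).ne', Real.log_exp, ell]
  have hψ0 : ∀ y, 0 < psi S e f z y := fun y =>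
    mul_pos (c.jd.gm_pos (mem_univ y)) (Real.exp_pos _)
  have cG : ∀ y, ContDiffAt ℝ 2 (fun y => ell S.g (ph S e f z) f y + 2 * z y) y := fun y =>
    ((c.jd.c_ell (mem_univ y)).of_le (by norm_cast)).add
      (contDiffAt_const.mul (c.z_smooth.contDiffAt.of_le (by norm_cast)))
  have hb0 := c.jd.riemb
  have hL := fun (y : E n) (hy : ρ ≤ ‖y‖) => lap_log hb0 (mem_univ y)
    (c.radial_pow (c.far5' hy).le ha0).1
    (Real.rpow_pos_of_pos (by linarith [c.one_le (c.far5' hy).le]) _) k0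
  have hbb : ∀ y : E n, ρ ≤ ‖y‖ → (ρ / ‖y‖) ^ a0 n ≤ 1 := fun y hy =>
    Real.rpow_le_one (by positivity) ((div_le_one (by linarith)).2 hy) ha0
  have hγ : ∀ y : E n, ρ ≤ ‖y‖ → ell S.g (ph S e f z) f y ≤ Real.log (1 + k * ‖y‖ ^ (-a0 n)) :=
    fun y hy => by
      refine Real.log_le_log (c.jd.gm_pos (mem_univ y)) ((c.kap hg hy).2.trans ?_)
      rw [← hB]
      have := mul_le_mul_of_nonneg_right hMb (by positivity : 0 ≤ (ρ / ‖y‖) ^ a0 n)
      linarith
  by_contra hcon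
  push Not at hcon
  obtain ⟨Bz, hBz⟩ := c.z_bdd
  obtain ⟨m, hm, H⟩ := ext_max (ρ := ρ) (F := fun y => (ell S.g (ph S e f z) f y + 2 * z y)
      - Real.log (1 + k * ‖y‖ ^ (-a0 n)))
    (fun y hy => ((cG y).continuousAt.sub (hL y hy).1.continuousAt).continuousWithinAt)
    ⟨2 * Bz, fun y hy => by linarith [hγ y hy, le_abs_self (z y), hBz y]⟩
    (fun y hy => by
      rw [← hψ, ← hB, hy, div_self hρ0.ne', Real.one_rpow, mul_one, sub_nonpos]
      exact Real.log_le_log (hψ0 y) (hs y hy))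
    c.geo.bp_b2.smooth.continuous c.geo.bp_nonneg c.geo.bp_top hx0 (by
      rw [← hψ, ← hB, sub_pos]
      exact Real.log_lt_log (by positivity) hcon)
  obtain ⟨R', hR'⟩ := c.sl.anch (m / 2) (by positivity)
  set C := n * P + P * P + (n ^ 2 * P + P) + P with hCd
  have C0 : 0 < C := by positivity
  set η := min (m / 2) ((max R' 1) ^ (-(n : ℝ))) with hη
  have η0 : 0 < η := lt_min (by positivity) (Real.rpow_pos_of_pos (by positivity) _)
  obtain ⟨ε, hε, hε0, x1, hx1, hmax, hv⟩ := H (min 1 (η / (2 * C))) (by positivity)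
  obtain ⟨ε1, ε2⟩ := le_min_iff.1 hε0
  have hx1' := c.far5' hx1.le
  have hr : 1 ≤ ‖x1‖ := c.one_le hx1'.le
  obtain ⟨l1, l2, l3⟩ := hL x1 hx1.le
  have hbε : ContDiffAt ℝ 2 (fun y => ε * bp y) x1 := contDiffAt_const.mul c.bp2
  have hm2 : IsLocalMax (fun y => (ell S.g (ph S e f z) f y + 2 * z y)
      - (Real.log (1 + k * ‖y‖ ^ (-a0 n)) + ε * bp y)) x1 := by simpa only [sub_sub] using hmax
  have t1 := lap_le_of_max hb0 (mem_univ x1) (cG x1) (l1.add hbε) hm2
  rw [lap_add hb0 (mem_univ x1) l1 hbε, lap_const_mul hb0 (mem_univ x1) _ c.bp2, l3] at t1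
  have hd := (touch_of_max (cG x1) (l1.add hbε) hm2).1
  have t2 := c.W_far hx1'
  rw [gam_congr_fderiv hd hd, gam_lin hb0 (mem_univ x1) l1 c.bp2] at t2
  have t3 := (le_abs_self _).trans (two_gam_le hb0 (mem_univ x1)
    (fun y => Real.log (1 + k * ‖y‖ ^ (-a0 n))) bp)
  have t4 : gam (gB S e f z) bp bp x1 ≤ P :=
    (gam_gb_le c.jd (mem_univ x1) bp).trans (c.geo.bp_b2.d_le x1)
  set u := ‖x1‖ ^ (-a0 n) with hu
  have u0 : 0 < u := Real.rpow_pos_of_pos (by linarith) _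
  have B0 : 0 < 1 + k * u := by positivity
  have t5 : (k / (1 + k * u)) ^ 2 * gam (gB S e f z) (fun y => ‖y‖ ^ (-a0 n))
      (fun y => ‖y‖ ^ (-a0 n)) x1 ≤ n ^ 2 * P := by
    refine (mul_le_mul_of_nonneg_left ((gam_gb_le c.jd (mem_univ x1) _).trans
      (c.radial_pow hx1'.le ha0).2.2) (sq_nonneg _)).trans ?_
    rw [← mul_assoc, ← mul_pow]
    refine mul_le_mul_of_nonneg_right (pow_le_pow_left₀ (by positivity) ?_ 2) (by linarith)
    have v1 : k * u / (1 + k * u) ≤ 1 := by rw [div_le_one B0]; linarith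
    have v2 : a0 n / ‖x1‖ ≤ n := (div_le_self ha0 hr).trans (by linarith [a0_le c.hn])
    calc _ = k * u / (1 + k * u) * (a0 n / ‖x1‖) := by rw [hu]; ring
      _ ≤ 1 * n := mul_le_mul v1 v2 (by positivity) zero_le_one
      _ = n := one_mul _
  have hT : |e ^ 3 * f x1| ≤ T0 := (hf x1 hx1'.le).trans (mul_le_of_le_one_right c.T0_nonneg
    (Real.exp_le_one_iff.2 (mul_nonpos_of_nonpos_of_nonneg (neg_nonpos.2 (sq_nonneg e))
      (sub_nonneg.2 hx1'.le))))
  have t6 := (le_abs_self _).trans (c.abs_lapb_bp hx1' hT)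
  rw [l2] at t2 t3
  have t7 : ε * laplaceBeltrami (gB S e f z) bp x1 + ε * (2 * gam (gB S e f z)
      (fun y => Real.log (1 + k * ‖y‖ ^ (-a0 n))) bp x1) + ε ^ 2 * gam (gB S e f z) bp bp x1
      ≤ ε * C := by
    have v1 := mul_le_mul_of_nonneg_left t6 hε.le
    have v2 := mul_le_mul_of_nonneg_left (t3.trans (add_le_add t5 t4)) hε.le
    have v3 : ε ^ 2 * gam (gB S e f z) bp bp x1 ≤ ε * P :=
      mul_le_mul (pow_le_of_le_one hε.le ε1 two_ne_zero) t4
        (gam_self_nonneg hb0 (mem_univ x1) bp) hε.le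
    rw [hCd]; linarith
  -- the barrier term
  have t8 : k / (1 + k * u) * laplaceBeltrami (gB S e f z) (fun y => ‖y‖ ^ (-a0 n)) x1
      ≤ -(5 * P * ‖x1‖ ^ (-(n : ℝ))) := by
    have v1 : ρ ^ a0 n / 2 ≤ k / (1 + k * u) := by
      rw [div_le_div_iff₀ (by norm_num) B0, ← hB]
      have w1 := mul_le_mul_of_nonneg_left (hbb x1 hx1.le) (by linarith : 0 ≤ Mb)
      have w2 : 1 + Mb * (ρ / ‖x1‖) ^ a0 n ≤ 2 * Mb := by linarith
      have := mul_le_mul_of_nonneg_left w2 (by positivity : 0 ≤ ρ ^ a0 n)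
      rw [hk]; linarith
    have v2 : ‖x1‖ ^ (-(n : ℝ)) ≤ u / ‖x1‖ ^ 2 := by
      rw [hu, ← Real.rpow_sub_natCast (by linarith)]
      exact Real.rpow_le_rpow_of_exponent_le hr (by push_cast; linarith [a0_le c.hn])
    have v3 : 20 * P ^ 2 ≤ e⁻¹ := by rw [← one_div, le_div_iff₀ he]; exact hC2
    have v4 : 10 * P ^ 2 * (‖x1‖ ^ (-(n : ℝ)) / (2 * P))
        ≤ k / (1 + k * u) * (u / ‖x1‖ ^ 2 / (2 * P)) :=
      mul_le_mul (by linarith) (by gcongr) (by positivity) (by positivity)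
    have v5 := mul_le_mul_of_nonneg_left (c.lapb_pow hC hf hg hx1.le)
      (by positivity : 0 ≤ k / (1 + k * u))
    have e1 : 10 * P ^ 2 * (‖x1‖ ^ (-(n : ℝ)) / (2 * P)) = 5 * P * ‖x1‖ ^ (-(n : ℝ)) := by
      field_simp; ring
    linarith
  have n0 : 0 ≤ ‖x1‖ ^ (-(n : ℝ)) := by positivity
  have t9 : ‖x1‖ ^ (-(n : ℝ)) + an x1 * z x1 ≤ η / 2 := by
    rw [le_div_iff₀ (by positivity)] at ε2
    linarith [mul_le_mul_of_nonneg_right hP n0]
  have hz : m / 2 ≤ z x1 := by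
    linarith [hγ x1 hx1.le, mul_nonneg hε.le (c.geo.bp_nonneg x1)]
  rcases le_total R' ‖x1‖ with h | h
  · rw [hR' x1 h (hz.trans (le_abs_self _)), one_mul] at t9
    linarith [min_le_left (m / 2) ((max R' 1) ^ (-(n : ℝ)))]
  · have v1 : (max R' 1) ^ (-(n : ℝ)) ≤ ‖x1‖ ^ (-(n : ℝ)) :=
      Real.rpow_le_rpow_of_nonpos (by linarith) (h.trans (le_max_left _ _))
        (neg_nonpos.2 (Nat.cast_nonneg n))
    have v2 := mul_nonneg (c.sl.an_mem x1).1 (show 0 ≤ z x1 by linarith)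
    linarith [min_le_right (m / 2) ((max R' 1) ^ (-(n : ℝ)))]

end Ctx
end Fb

theorem s6 : S6Stmt := by
  intro n hn S hS P T0 R bp hG
  obtain ⟨e1, he1, H⟩ := Fb.exists_e1 R (2 * P * (n * (n + 2) * P * 9 + 8 * P * (n * P)))
  obtain ⟨e2, he2, H2⟩ := Fb.exists_e1 R (20 * P ^ 2)
  refine ⟨min e1 e2, lt_min he1 he2, fun e he hle M z3 an f z hsl hz hf hg => ?_⟩
  obtain ⟨h1, h2, h3⟩ := H e he (hle.trans (min_le_left _ _))
  have c : Fb.Ctx S P T0 R e M z3 bp an f z := ⟨hn, hS, hG, hsl, he, h1, h2, hz⟩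
  exact c.p_barrier h3 (H2 e he (hle.trans (min_le_right _ _))).2.2 hf hg

end Crest.Agent.N346.Bd

end
end

-- ▼ part N346/Bd/S7cA
section

/-! Row 346, Bd-S7c (helper89): the abstract energy argument. -/

set_option autoImplicit false

open MeasureTheory Filter Set Metric
open scoped ContDiff Topology
open Crest.GeometryTopology.CoordMetric Crest.Agent.N346.Bs

noncomputable section

namespace Crest.Agent.N346.Bd.S7c

variable {n : ℕ}

theorem integrable_jap {b : ℝ} (hb : (n : ℝ) < b) :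
    Integrable fun x : E n => (1 + ‖x‖) ^ (-b) :=
  integrable_one_add_norm (by simpa using hb)

theorem amgm {η d w D h : ℝ} (hD : 0 ≤ D) (hh : 0 ≤ h) (hw : w ^ 2 ≤ D * h) :
    2 * η * d * w ≤ η ^ 2 * D / 48 + 48 * d ^ 2 * h := by
  refine (le_abs_self _).trans (abs_le_of_sq_le_sq' ?_ (by positivity)).2
  have h1 := mul_le_mul_of_nonneg_left hw (by positivity : 0 ≤ 4 * η ^ 2 * d ^ 2)
  rw [sq_abs]
  nlinarith [sq_nonneg (η ^ 2 * D / 48 - 48 * d ^ 2 * h)]

theorem energy_abs {D G : E n → ℝ} {W : E n → E n} (hD : Continuous D) (h0 : ∀ x, 0 ≤ D x)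
    (hG : Integrable G) (hW : ContDiff ℝ 1 W)
    (hdiv : ∀ x, D x / 24 - G x ≤ divE (fun y i => W y i) x) {R1 C b : ℝ} (hb : (n : ℝ) < 2 + b)
    (hC : 0 ≤ C) (hfar : ∀ x, R1 ≤ ‖x‖ → ‖W x‖ ^ 2 ≤ D x * (C * (1 + ‖x‖) ^ (-b))) :
    Integrable D ∧ ∫ x, D x ≤ 48 * ∫ x, G x := by
  obtain ⟨c, hc, hη⟩ := exists_eta_grad' n
  have hWi : ∀ i, ContDiff ℝ 1 fun x => W x i := fun i =>
    (EuclideanSpace.proj i : E n →L[ℝ] ℝ).contDiff.comp hW
  have ce : ∀ R : ℝ, Continuous (eta R : E n → ℝ) := fun R => (contDiff_eta R).continuous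
  have cd : ∀ R : ℝ, Continuous (fderiv ℝ (eta R : E n → ℝ)) := fun R =>
    (contDiff_eta R).continuous_fderiv (by simp)
  have cj : Continuous fun x : E n => C * (1 + ‖x‖) ^ (-b) :=
    continuous_const.mul ((continuous_const.add continuous_norm).rpow_const fun x =>
      .inl (add_pos_of_pos_of_nonneg one_pos (norm_nonneg x)).ne')
  set B : ℝ → E n → ℝ := fun R x =>
    48 * ‖fderiv ℝ (eta R) x‖ ^ 2 * (C * (1 + ‖x‖) ^ (-b)) with hB
  have cB : ∀ R, Continuous (B R) := fun R => (continuous_const.mul ((cd R).norm.pow 2)).mul cj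
  have B0 : ∀ R x, 0 ≤ B R x := fun R x => by simp only [hB]; positivity
  have hH := (integrable_jap (n := n) hb).const_mul (48 * c ^ 2 * C)
  have hBH : ∀ R, 1 ≤ R → ∀ x, B R x ≤ 48 * c ^ 2 * C * (1 + ‖x‖) ^ (-(2 + b)) := fun R hR x => by
    have h1 : (0 : ℝ) < 1 + ‖x‖ := by positivity
    have h2 := pow_le_pow_left₀ (norm_nonneg _) (hη R hR x) 2
    calc B R x ≤ 48 * (c / (1 + ‖x‖)) ^ 2 * (C * (1 + ‖x‖) ^ (-b)) := by
          simp only [hB]; gcongr
      _ = _ := by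
          rw [neg_add, Real.rpow_add h1, Real.rpow_neg h1.le 2, Real.rpow_two]; field_simp
  have e2 : ∀ R (x : E n), eta R x ^ 2 ≤ 1 := fun R x =>
    pow_le_one₀ (eta_nonneg _ _) (eta_le_one _ _)
  have hbd : ∀ R, 1 ≤ R → ∀ x, ‖eta R x ^ 2 * G x + B R x‖ ≤
      ‖G x‖ + 48 * c ^ 2 * C * (1 + ‖x‖) ^ (-(2 + b)) := fun R hR x => by
    refine (norm_add_le _ _).trans (add_le_add ?_ ?_)
    · rw [norm_mul, Real.norm_of_nonneg (sq_nonneg _)]
      exact mul_le_of_le_one_left (norm_nonneg _) (e2 R x)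
    · rw [Real.norm_of_nonneg (B0 R x)]; exact hBH R hR x
  have hm : ∀ R, AEStronglyMeasurable (fun x => eta R x ^ 2 * G x + B R x) := fun R =>
    (((ce R).pow 2).aestronglyMeasurable.mul hG.1).add (cB R).aestronglyMeasurable
  have hlim : Tendsto (fun R => ∫ x, (eta R x ^ 2 * G x + B R x)) atTop (𝓝 (∫ x, G x)) := by
    refine tendsto_integral_filter_of_dominated_convergence _ (.of_forall hm)
      ((eventually_ge_atTop 1).mono fun R hR => .of_forall (hbd R hR)) (hG.norm.add hH)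
      (.of_forall fun x => ?_)
    exact tendsto_const_nhds.congr' ((eventually_eta x).mono fun R h => by simp [hB, h.1, h.2])
  have key : ∀ᶠ R in atTop, ∫ x in closedBall (0 : E n) R, D x ≤
      48 * ∫ x, (eta R x ^ 2 * G x + B R x) := by
    filter_upwards [eventually_ge_atTop 1, eventually_ge_atTop R1] with R hR hR1
    have hR0 : 0 < R := one_pos.trans_le hR
    have hcs : HasCompactSupport fun x : E n => eta R x ^ 2 :=
      (hasCompactSupport_eta hR0).comp_left (g := fun t : ℝ => t ^ 2) (by simp)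
    have hi : ∀ {u : E n → ℝ}, Continuous u → Integrable fun x => eta R x ^ 2 * u x := fun hu =>
      (((ce R).pow 2).mul hu).integrable_of_hasCompactSupport hcs.mul_right
    have hF : Integrable fun x => eta R x ^ 2 * G x + B R x :=
      (hG.norm.add hH).mono' (hm R) (.of_forall (hbd R hR))
    have cdv : Continuous (divE fun y i => W y i) :=
      continuous_finsetSum _ fun i _ => continuous_pd (hWi i) i
    have hibp := ibp_divE (V := fun y i => W y i) (smooth_one ((contDiff_eta R).pow 2)) hcs hWi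
    have hpd : ∀ x, ∑ i, pderiv i (fun x => eta R x ^ 2) x * W x i =
        2 * eta R x * fderiv ℝ (eta R) x (W x) := fun x => by
      rw [← fderiv_eq_sum, ((smooth_diff (contDiff_eta R) x).hasFDerivAt.pow 2).fderiv]
      simp
    simp only [hpd] at hibp
    have hi2 : Integrable fun x => 2 * eta R x * fderiv ℝ (eta R) x (W x) :=
      ((continuous_const.mul (ce R)).mul ((cd R).clm_apply hW.continuous)).integrable_of_hasCompactSupport
        (hasCompactSupport_eta hR0).mul_left.mul_right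
    have hpt : ∀ x, eta R x ^ 2 * D x ≤ 48 * (eta R x ^ 2 * G x + B R x) +
        48 * (eta R x ^ 2 * divE (fun y i => W y i) x
          + 2 * eta R x * fderiv ℝ (eta R) x (W x)) := fun x => by
      have h1 := mul_le_mul_of_nonneg_left (hdiv x) (sq_nonneg (eta R x))
      have h2 : -(2 * eta R x * fderiv ℝ (eta R) x (W x)) ≤ eta R x ^ 2 * D x / 48 + B R x := by
        rcases le_total ‖x‖ R with h | h
        · have := mul_nonneg (sq_nonneg (eta R x)) (h0 x)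
          rw [fderiv_eta_of_le hR0 h]
          simp only [zero_apply, mul_zero, neg_zero]
          linarith [B0 R x]
        · have h3 := amgm (η := eta R x) (d := ‖fderiv ℝ (eta R) x‖) (h0 x) (by positivity)
            (hfar x (hR1.trans h))
          have h4 := mul_le_mul_of_nonneg_left
            ((neg_le_abs _).trans ((fderiv ℝ (eta R) x).le_opNorm (W x))) (eta_nonneg R x)
          simp only [hB]
          nlinarith
      nlinarith
    calc ∫ x in closedBall (0 : E n) R, D x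
        = ∫ x in closedBall (0 : E n) R, eta R x ^ 2 * D x :=
          setIntegral_congr_fun measurableSet_closedBall fun x hx => by
            simp only [eta_eq_one hR0 (by simpa using hx), one_pow, one_mul]
      _ ≤ ∫ x, eta R x ^ 2 * D x := setIntegral_le_integral (hi hD)
          (.of_forall fun x => mul_nonneg (sq_nonneg _) (h0 x))
      _ ≤ _ := integral_mono (hi hD) ((hF.const_mul 48).add (((hi cdv).add hi2).const_mul 48)) hpt
      _ = _ := by
          refine (integral_add (hF.const_mul 48) (((hi cdv).add hi2).const_mul 48)).trans ?_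
          simp only [Pi.add_apply]
          rw [integral_const_mul, integral_const_mul, integral_add (hi cdv) hi2, hibp]
          ring
  have hcov := aecover_closedBall (μ := volume) (x := (0 : E n)) (tendsto_id (x := atTop))
  have hint : Integrable D := hcov.integrable_of_integral_norm_bounded (48 * ((∫ x, G x) + 1))
    (fun R => hD.continuousOn.integrableOn_compact (isCompact_closedBall _ _)) (by
      filter_upwards [key, hlim.eventually (eventually_le_nhds (lt_add_one _))] with R h1 h2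
      simp only [Real.norm_of_nonneg (h0 _), id]
      linarith)
  exact ⟨hint, le_of_tendsto_of_tendsto (hcov.integral_tendsto_of_countably_generated hint)
    (hlim.const_mul 48) key⟩

end Crest.Agent.N346.Bd.S7c

end
end

-- ▼ part N346/Bd/S7c

/-! Row 346, Bd-S7c (helper89): the energy is finite and polynomially bounded. -/

set_option autoImplicit false

open MeasureTheory Filter Set
open scoped ContDiff Topology
open Crest.GeometryTopology.CoordMetric Crest.MathPhysics.ExteriorData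
open Crest.Agent.R202.Tens Crest.Agent.R247.Bo84 Crest.Agent.N346.Id Crest.Agent.N346.P1

noncomputable section

namespace Crest.Agent.N346.Bd

namespace S7c

variable {n : ℕ} {S : Setup n} {e M z3 P T0 R P1 : ℝ} {bp an f z : E n → ℝ} {x : E n}

/-- smallness of `e` -/
structure Sm (P R e : ℝ) : Prop where
  pos : 0 < e
  X18 : 18 ≤ e⁻¹
  XR : R ≤ e⁻¹
  XP : 144 * P ≤ e⁻¹

namespace Sm

theorem X4 (h : Sm P R e) : e⁻¹ ≤ e⁻¹ ^ 4 := le_self_pow₀ (by linarith [h.X18]) (by norm_num)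

theorem X5 (h : Sm P R e) : 18 * e⁻¹ ^ 4 ≤ e⁻¹ ^ 5 := by
  rw [pow_succ' _ 4]; exact mul_le_mul_of_nonneg_right h.X18 (by positivity)

theorem one_le (h : Sm P R e) : 1 ≤ e⁻¹ ^ 5 := by linarith [h.X4, h.X5, h.X18]

theorem R0 (h : Sm P R e) (hG : Geo S P T0 R bp) : 2 * S.R0 ≤ 9 * e⁻¹ ^ 4 := by
  linarith [h.X4, h.XR, hG.R_ge, h.X18]

theorem far (h : Sm P R e) (hx : e⁻¹ ^ 5 ≤ ‖x‖) : 9 * e⁻¹ ^ 4 < ‖x‖ := by
  linarith [h.X4, h.X5, h.X18]

theorem farR (h : Sm P R e) (hx : e⁻¹ ^ 5 ≤ ‖x‖) : R ≤ ‖x‖ := by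
  linarith [h.X4, h.X5, h.X18, h.XR]

end Sm

/-- the cut-off -/
def ze (e : ℝ) (x : E n) : ℝ := 1 - eta (e⁻¹ ^ 5) x

/-- the correction of the flux -/
def VL (S : Setup n) (e : ℝ) (f z : E n → ℝ) (x : E n) : E n :=
  (2 * ze e x ^ 2) • grad (gB S e f z) z x

/-- the corrected flux density -/
def WW (S : Setup n) (e : ℝ) (f z : E n → ℝ) (x : E n) : E n :=
  volDensity (gB S e f z) x • (VE S e f z x - VL S e f z x)

theorem c_ze (e : ℝ) : ContDiff ℝ ∞ (ze e : E n → ℝ) := contDiff_const.sub (Bs.contDiff_eta _)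

theorem ze_sq_le (e : ℝ) (x : E n) : ze e x ^ 2 ≤ 1 :=
  pow_le_one₀ (sub_nonneg.2 (Bs.eta_le_one _ _)) (sub_le_self _ (Bs.eta_nonneg _ _))

theorem c_uu (h : Sl S e M z3 an f z) : ContDiff ℝ ∞ (uu z) :=
  (contDiff_const.mul h.z_smooth).exp

theorem c_grad (h : Sl S e M z3 an f z) (x : E n) : ContDiffAt ℝ ∞ (grad (gB S e f z) z) x :=
  contDiffAt_grad h.jd.riemb trivial h.z_smooth.contDiffAt (by simp) le_rfl

theorem c_VE (hG : Geo S P T0 R bp) (h : Sl S e M z3 an f z) (x : E n) :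
    ContDiffAt ℝ ∞ (VE S e f z) x :=
  ((h.jd.cφ trivial).mul (c_uu h).contDiffAt).smul
    (((h.jd.c_qv hG.symK trivial).const_smul (2 : ℝ)).add ((c_grad h x).const_smul (2 : ℝ)))

theorem c_VL (h : Sl S e M z3 an f z) (x : E n) : ContDiffAt ℝ ∞ (VL S e f z) x :=
  (contDiff_const.mul ((c_ze e).pow 2)).contDiffAt.smul (c_grad h x)

theorem c_WW (hG : Geo S P T0 R bp) (h : Sl S e M z3 an f z) : ContDiff ℝ 1 (WW S e f z) :=
  contDiff_iff_contDiffAt.2 fun x => ((Bs.contDiff_volDensity h.jd.riemb).contDiffAt.smul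
    ((c_VE hG h x).sub (c_VL h x))).of_le (by simp)

theorem div_WW (hG : Geo S P T0 R bp) (h : Sl S e M z3 an f z) (x : E n) :
    divE (fun y i => WW S e f z y i) x = volDensity (gB S e f z) x *
      (divg (gB S e f z) (VE S e f z) x - divg (gB S e f z) (VL S e f z) x) := by
  have d1 := (c_VE hG h x).differentiableAt (by simp)
  have d2 := (c_VL h x).differentiableAt (by simp)
  have h1 := divg_add h.jd.riemb (mem_univ x) (d1.sub d2) d2
  have h2 := (Bs.volDensity_pos h.jd.riemb x).ne'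
  simp only [Pi.sub_apply, sub_add_cancel] at h1
  rw [show divg (gB S e f z) (VE S e f z) x = _ from h1, add_sub_cancel_right, divg, ← mul_assoc,
    show volDensity (gB S e f z) x * (1 / √(gB S e f z x).det) = 1 from mul_one_div_cancel h2,
    one_mul]
  rfl

theorem uu_ge (hn : 3 ≤ n) (hS : S.OK) (hz : ZLo S z) (x : E n) : 1 / 3 ≤ uu z x := by
  have h1 := hz x
  have h2 := Setup.OK.θ_le hS
  have h3 := al_ge hn
  have h4 := al_le hn
  have : -1 ≤ al n * z x := by nlinarith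
  exact ((by norm_num : (1 / 3 : ℝ) ≤ 0.36787944116).trans Real.exp_neg_one_gt_d9.le).trans
    (Real.exp_le_exp.2 this)

theorem N_nonneg (hG : Geo S P T0 R bp) (h : Sl S e M z3 an f z) (x : E n) :
    0 ≤ normSqK (gB S e f z) (ZZ S.g (ph S e f z) f S.K) x :=
  Bd.normSqK_nonneg h.jd.riemb trivial ((h.jd.symT_ZZ hG.symK).symm x trivial)

/-- the two lower bounds of the energy density that are used -/
theorem ed_ge (hS : S.OK) (he : 0 < e) (h : Sl S e M z3 an f z) (x : E n) :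
    volDensity (gB S e f z) x * uu z x * (ph S e f z x *
      (normSqK (gB S e f z) (ZZ S.g (ph S e f z) f S.K) x + gam (gB S e f z) z z x)
      + e ^ 3 * pp' S e f z x) ≤ ed S e f z x := by
  have h1 := Bs.volDensity_pos h.jd.riemb x
  have h2 : 0 < uu z x := Real.exp_pos _
  have h3 := h.jd.φ_pos x trivial
  have h4 := bil_self_nonneg h.jd.riemb (mem_univ x) (qv S.g (ph S e f z) f S.K x)
  have h5 := Setup.OK.mw_pos hS x
  have h6 := h.jd.pp_nonneg (mem_univ x)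
  have h7 := h.jd.one_le_gm (mem_univ x)
  rw [ed, mul_assoc]
  refine mul_le_mul_of_nonneg_left (mul_le_mul_of_nonneg_left (add_le_add
    (mul_le_mul_of_nonneg_left (by linarith) h3.le) (mul_le_mul_of_nonneg_right ?_ h6)) h2.le) h1.le
  exact le_mul_of_one_le_right (by positivity) h7

theorem ed_nonneg (hS : S.OK) (hG : Geo S P T0 R bp) (he : 0 < e) (h : Sl S e M z3 an f z)
    (x : E n) : 0 ≤ ed S e f z x := by
  have h1 := Bs.volDensity_pos h.jd.riemb x
  have h2 : 0 < uu z x := Real.exp_pos _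
  have h3 := h.jd.φ_pos x trivial
  have h4 := N_nonneg hG h x
  have h5 := gam_self_nonneg h.jd.riemb (mem_univ x) z
  have h6 := h.jd.pp_nonneg (mem_univ x)
  exact le_trans (by positivity) (ed_ge hS he h x)

theorem continuous_ed (hG : Geo S P T0 R bp) (h : Sl S e M z3 an f z) :
    Continuous (ed S e f z) := by
  have hb := h.jd.riemb
  have hZ := h.jd.symT_ZZ hG.symK
  have cN : Continuous (normSqK (gB S e f z) (ZZ S.g (ph S e f z) f S.K)) := by
    have c1 := fun i j => (Bs.contDiff_inv hb i j).continuous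
    have c2 := fun i j => (contDiffOn_univ.1 (hZ.smooth i j)).continuous
    exact continuous_finsetSum _ fun i _ => continuous_finsetSum _ fun j _ =>
      continuous_finsetSum _ fun a _ => continuous_finsetSum _ fun b _ =>
        (((c1 i a).mul (c1 j b)).mul (c2 i j)).mul (c2 a b)
  have cm : Continuous S.mw := continuous_const.mul
    ((continuous_const.add (continuous_norm.pow 2)).rpow_const fun x =>
      .inl (add_pos_of_pos_of_nonneg one_pos (sq_nonneg ‖x‖)).ne')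
  refine continuous_iff_continuousAt.2 fun x => ?_
  have cq := h.jd.c_qv hG.symK (mem_univ x)
  exact (Bs.contDiff_volDensity hb).continuous.continuousAt.mul
    ((c_uu h).continuous.continuousAt.mul (((h.jd.cφ trivial).continuousAt.mul
      (((cN.continuousAt.add (contDiffAt_bil_apply (contDiffAt_entry hb trivial) cq
        cq).continuousAt).add (contDiffAt_gam hb trivial h.z_smooth.contDiffAt
          h.z_smooth.contDiffAt (m := ∞) (by simp) le_rfl).continuousAt).add cm.continuousAt)).add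
      ((continuousAt_const.mul (h.jd.c_gm trivial).continuousAt).mul
        (h.jd.c_pp trivial).continuousAt)))

theorem gm_far (hn : 3 ≤ n) (hs : Sm P R e) (h : Sl S e M z3 an f z) (hF : GFar S e f z)
    (hx : e⁻¹ ^ 5 ≤ ‖x‖) : gm' S e f z x ≤ 2 ∧
      gm' S e f z x ^ 2 * pp' S e f z x ≤ 6 * ((e⁻¹ ^ 5 / ‖x‖) ^ a0 n) ^ 2 := by
  have h1 := hF x (hs.far hx).le
  have h2 := h.jd.one_le_gm (mem_univ x)
  have h3 := h.jd.gm_sq_mul (mem_univ x)
  have hr : 0 < ‖x‖ := by linarith [hs.one_le]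
  have h4 : 0 < e⁻¹ ^ 4 := by linarith [hs.X4, hs.X18]
  have h5 : 9 * e⁻¹ ^ 4 / ‖x‖ ≤ 1 / 2 := by rw [div_le_iff₀ hr]; linarith [hs.X5]
  have h6 : (9 * e⁻¹ ^ 4 / ‖x‖) ^ (4 * n) ≤ 1 / 2 :=
    (pow_le_of_le_one (by positivity) (by linarith) (by omega)).trans h5
  have h7 : (9 * e⁻¹ ^ 4 / ‖x‖) ^ (4 * n) ≤ ((e⁻¹ ^ 5 / ‖x‖) ^ a0 n) ^ 2 := by
    have h8 : 0 < e⁻¹ ^ 5 / ‖x‖ := div_pos (by linarith [hs.one_le]) hr
    calc _ ≤ (e⁻¹ ^ 5 / ‖x‖) ^ (4 * n) := by gcongr; linarith [hs.X5]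
      _ = (e⁻¹ ^ 5 / ‖x‖) ^ ((4 * n : ℕ) : ℝ) := (Real.rpow_natCast _ _).symm
      _ ≤ (e⁻¹ ^ 5 / ‖x‖) ^ (a0 n * 2) :=
          Real.rpow_le_rpow_of_exponent_ge h8 ((div_le_one hr).2 hx) (by
            have := a0_le hn
            have := a0_ge hn
            push_cast; linarith)
      _ = _ := by rw [Real.rpow_mul h8.le, Real.rpow_two]
  have h9 : gm' S e f z x * (1 - (9 * e⁻¹ ^ 4 / ‖x‖) ^ (4 * n)) ≤ 1 :=
    (mul_le_mul_of_nonneg_left h1 (by linarith)).trans_eq (mul_inv_cancel₀ (by linarith))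
  have h10 : 0 ≤ (9 * e⁻¹ ^ 4 / ‖x‖) ^ (4 * n) := by positivity
  have h11 : gm' S e f z x ≤ 2 := by nlinarith
  refine ⟨h11, ?_⟩
  have h12 : gm' S e f z x - 1 ≤ 2 * (9 * e⁻¹ ^ 4 / ‖x‖) ^ (4 * n) := by nlinarith
  nlinarith

theorem vol_far (hn : 3 ≤ n) (hG : Geo S P T0 R bp) (hs : Sm P R e) (h : Sl S e M z3 an f z)
    (hF : GFar S e f z) (hx : e⁻¹ ^ 5 ≤ ‖x‖) : volDensity (gB S e f z) x ≤ 2 * P := by
  rw [h.jd.volDensity_gb trivial]
  exact mul_le_mul (gm_far hn hs h hF hx).1 (hG.vol_hi x) (Bs.volDensity_pos hG.riem x).le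
    two_pos.le

theorem uu_far (hn : 3 ≤ n) (hS : S.OK) (hs : Sm P R e) (h : Sl S e M z3 an f z)
    (hF : FF S e f z T0) : ∃ A : ℝ, 1 ≤ A ∧ ∀ x, e⁻¹ ^ 5 ≤ ‖x‖ →
      |uu z x - 1| ≤ A * (e⁻¹ ^ 5 / ‖x‖) ^ a0 n := by
  obtain ⟨B0, hB0, hB⟩ := h.exists_bound
  have hA : 1 ≤ 2 * Real.exp (2 * B0) := by linarith [Real.one_le_exp (by linarith : 0 ≤ 2 * B0)]
  refine ⟨_, hA, fun x hx => ?_⟩
  have h1 := hF.pfar _ hA (fun y hy => by
    have h2 := (gm_far hn hs h hF.gfar hy.ge).1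
    have h3 : Real.exp (2 * z y) ≤ Real.exp (2 * B0) :=
      Real.exp_le_exp.2 (by linarith [(abs_le.1 (hB y).2.1).2])
    have := mul_le_mul h2 h3 (Real.exp_pos _).le two_pos.le
    unfold psi; linarith) x hx
  have h2 := hF.zfar x (by linarith [hs.X4, hs.X18, hs.far hx])
  have hr : 0 < ‖x‖ := by linarith [hs.one_le]
  have h4 : 0 < e⁻¹ ^ 4 := by linarith [hs.X4, hs.X18]
  have h3 : (e⁻¹ ^ 4 / ‖x‖) ^ a0 n ≤ (e⁻¹ ^ 5 / ‖x‖) ^ a0 n := by
    have := a0_ge hn
    exact Real.rpow_le_rpow (by positivity)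
      (div_le_div_of_nonneg_right (by linarith [hs.X5]) hr.le) (by linarith)
  have h5 : 0 ≤ (e⁻¹ ^ 4 / ‖x‖) ^ a0 n := by positivity
  have h6 := Setup.OK.θ_le hS
  have h7 := al_ge hn
  have h8 := al_le hn
  have h9 := Real.add_one_le_exp (al n * z x)
  have h10 : Real.exp (2 * z x) ≤ psi S e f z x :=
    le_mul_of_one_le_left (Real.exp_pos _).le (h.jd.one_le_gm trivial)
  have h11 : -(e⁻¹ ^ 5 / ‖x‖) ^ a0 n ≤ z x := by nlinarith
  rw [abs_le, uu]
  rcases le_total (z x) 0 with hz | hz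
  · have := Real.exp_le_one_iff.2 (by nlinarith : al n * z x ≤ 0)
    constructor <;> nlinarith
  · have := Real.exp_le_exp.2 (by nlinarith : al n * z x ≤ 2 * z x)
    constructor <;> nlinarith

/-- the corrected flux is small at infinity -/
theorem WW_far (hn : 3 ≤ n) (hS : S.OK) (hG : Geo S P T0 R bp) (hs : Sm P R e)
    (h : Sl S e M z3 an f z) (hF : FF S e f z T0) : ∃ C : ℝ, 0 ≤ C ∧ ∀ x, 2 * e⁻¹ ^ 5 ≤ ‖x‖ →
      ‖WW S e f z x‖ ^ 2 ≤ ed S e f z x * (C * (1 + ‖x‖) ^ (-(2 * a0 n))) := by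
  obtain ⟨A, hA, hu⟩ := uu_far hn hS hs h hF
  have hP := hG.P_ge
  have hρ := hs.one_le
  refine ⟨16 * P ^ 2 * (6 * (1 + A) + 3 * A ^ 2) * (2 * e⁻¹ ^ 5) ^ (2 * a0 n), by positivity,
    fun x hx2 => ?_⟩
  have hx : e⁻¹ ^ 5 ≤ ‖x‖ := by linarith
  have hr : 0 < ‖x‖ := by linarith
  have hb := h.jd.riemb
  have ph1 : ph S e f z x = 1 := hF.zfar.ph_one hn hS hs.pos (hs.R0 hG) (hs.far hx).le
  have hed := ed_ge hS hs.pos h x
  have hv := vol_far hn hG hs h hF.gfar hx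
  have hv0 := Bs.volDensity_pos hb x
  have hγ := (gm_far hn hs h hF.gfar hx).2
  have hu1 := hu x hx
  have hu3 := uu_ge hn hS hF.zlo x
  have hN := N_nonneg hG h x
  have hΓ := gam_self_nonneg hb (mem_univ x) z
  have hp := h.jd.pp_nonneg (mem_univ x)
  have he := hs.pos
  have ha := a0_ge hn
  have hq : bil (gB S e f z x) (qv S.g (ph S e f z) f S.K x) (qv S.g (ph S e f z) f S.K x) ≤ _ :=
    shp_sq_le hb (mem_univ x) ((h.jd.symT_ZZ hG.symK).symm x trivial) _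
  rw [Bd.gb_wv_wv h.jd trivial] at hq
  obtain ⟨t, ht⟩ : ∃ t, t = (e⁻¹ ^ 5 / ‖x‖) ^ a0 n := ⟨_, rfl⟩
  have t0 : 0 ≤ t := by rw [ht]; positivity
  have t1 : t ≤ 1 := ht ▸ Real.rpow_le_one (by positivity) ((div_le_one hr).2 hx) (by linarith)
  have t2 : t ^ 2 ≤ (2 * e⁻¹ ^ 5) ^ (2 * a0 n) * (1 + ‖x‖) ^ (-(2 * a0 n)) := by
    rw [ht, ← Real.rpow_two, ← Real.rpow_mul (by positivity), mul_comm (a0 n),
      Real.rpow_neg (by positivity), ← div_eq_mul_inv,
      ← Real.div_rpow (by positivity) (by positivity)]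
    refine Real.rpow_le_rpow (by positivity) ?_ (by linarith)
    rw [div_le_div_iff₀ hr (by positivity)]
    nlinarith
  rw [← ht] at hγ hu1
  have hW : WW S e f z x = volDensity (gB S e f z) x • ((2 * uu z x) • qv S.g (ph S e f z) f S.K x
      + (2 * (uu z x - 1)) • grad (gB S e f z) z x) := by
    rw [WW, VE, VL, ph1, ze, Bs.eta_eq_zero (by linarith) hx2]
    congr 1
    module
  have h1 := (hG.g_lo x _).trans (mul_le_mul_of_nonneg_left (h.jd.bil_le_gb (mem_univ x)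
    ((2 * uu z x) • qv S.g (ph S e f z) f S.K x + (2 * (uu z x - 1)) • grad (gB S e f z) z x))
    (by linarith))
  have h2 := bil_self_nonneg hb (mem_univ x)
    ((2 * uu z x) • qv S.g (ph S e f z) f S.K x - (2 * (uu z x - 1)) • grad (gB S e f z) z x)
  rw [hW, norm_smul, mul_pow, Real.norm_of_nonneg hv0.le]
  rw [ph1] at hed
  simp only [map_add, map_sub, map_smul, add_apply, sub_apply, smul_apply, smul_eq_mul,
    ← gam_eq_bil hb (mem_univ x)] at h1 h2
  generalize ‖(2 * uu z x) • qv S.g (ph S e f z) f S.K x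
    + (2 * (uu z x - 1)) • grad (gB S e f z) z x‖ = y at *
  generalize volDensity (gB S e f z) x = v at *
  generalize normSqK (gB S e f z) (ZZ S.g (ph S e f z) f S.K) x = N at *
  generalize gam (gB S e f z) z z x = Γ at *
  generalize ed S e f z x = D at *
  generalize uu z x = u at *
  generalize (2 * e⁻¹ ^ 5) ^ (2 * a0 n) = k1 at *
  generalize (1 + ‖x‖) ^ (-(2 * a0 n)) = k2 at *
  have u1 : u ≤ 1 + A := by nlinarith [(abs_le.1 hu1).2]
  have u2 : (u - 1) ^ 2 ≤ (A * t) ^ 2 := sq_le_sq' (abs_le.1 hu1).1 (abs_le.1 hu1).2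
  have d0 : 0 ≤ v * u * (e ^ 3 * pp' S e f z x) := by positivity
  have d1 : v * u * N ≤ D := by nlinarith [(by positivity : 0 ≤ v * u * Γ)]
  have d2 : v * Γ ≤ 3 * D := by
    nlinarith [(by positivity : 0 ≤ v * u * N), mul_le_mul_of_nonneg_left hu3 (by positivity : 0 ≤ v * Γ)]
  have D0 : 0 ≤ D := le_trans (by positivity) d1
  have h3 : y ^ 2 ≤ 8 * P * (u ^ 2 * (N * (6 * t ^ 2)) + (A * t) ^ 2 * Γ) := by
    have a1 := mul_le_mul_of_nonneg_left (hq.trans (mul_le_mul_of_nonneg_left hγ hN)) (sq_nonneg u)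
    have a2 := mul_le_mul_of_nonneg_right u2 hΓ
    refine h1.trans ?_
    rw [mul_comm 8 P, mul_assoc P]
    exact mul_le_mul_of_nonneg_left (by nlinarith) (by linarith)
  calc v ^ 2 * y ^ 2 ≤ v ^ 2 * (8 * P * (u ^ 2 * (N * (6 * t ^ 2)) + (A * t) ^ 2 * Γ)) := by gcongr
    _ = 8 * P * v * (6 * u * (v * u * N) + A ^ 2 * (v * Γ)) * t ^ 2 := by ring
    _ ≤ 8 * P * (2 * P) * (6 * (1 + A) * D + A ^ 2 * (3 * D)) * (k1 * k2) := by gcongr
    _ = _ := by ring

theorem div_VL (hn : 3 ≤ n) (h : Sl S e M z3 an f z) (x : E n) :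
    divg (gB S e f z) (VL S e f z) x ≤
      ze e x ^ 2 * (scalarCurv (gB S e f z) x + rhs S e M z3 an f z x)
        + 8 * gam (gB S e f z) (ze e) (ze e) x := by
  have hb := h.jd.riemb
  have dz := Bs.smooth_diff (c_ze (n := n) e) x
  have h1 := divg_smul hb (mem_univ x) ((dz.pow 2).const_mul 2)
    ((c_grad h x).differentiableAt (by simp))
  have h2 : fderiv ℝ (fun y => 2 * (ze e ^ 2) y) x (grad (gB S e f z) z x)
      = 2 * ze e x * 2 * gam (gB S e f z) (ze e) z x := by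
    simp only [Pi.pow_apply]
    rw [((dz.hasFDerivAt.pow 2).const_mul 2).fderiv, gam_eq_fderiv_grad]
    simp; ring
  have h3 := gam_sq_le hb (mem_univ x) (ze e) z
  have h4 := gam_self_nonneg hb (mem_univ x) z
  have h5 := amgm (η := ze e x) (d := 2) (w := gam (gB S e f z) (ze e) z x)
    (D := 24 * gam (gB S e f z) z z x) (h := gam (gB S e f z) (ze e) (ze e) x / 24) (by positivity)
    (div_nonneg (gam_self_nonneg hb trivial _) (by norm_num)) (by linarith)
  have h6 := mul_le_mul_of_nonneg_right (al_ge hn) (mul_nonneg (sq_nonneg (ze e x)) h4)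
  rw [show divg (gB S e f z) (VL S e f z) x = _ from h1, h2, divg_grad, ← h.U x]
  simp only [Pi.pow_apply]
  nlinarith

theorem J2_le (hn : 3 ≤ n) (hG : Geo S P T0 R bp) (hs : Sm P R e) (h : Sl S e M z3 an f z)
    (hF : GFar S e f z) {c : ℝ} (hc : ∀ R : ℝ, 0 < R → ∀ x : E n, ‖fderiv ℝ (eta R) x‖ ≤ c / R)
    (x : E n) : volDensity (gB S e f z) x * (8 * gam (gB S e f z) (ze e) (ze e) x) ≤
      16 * P ^ 2 * c ^ 2 * 3 ^ (n + 1) * ((e⁻¹ ^ 5) ^ n / e⁻¹ ^ 5)
        * (1 + ‖x‖) ^ (-((n : ℝ) + 1)) := by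
  have hρ := hs.one_le
  have hP := hG.P_ge
  have h1 := (Bd.gam_gb_le h.jd (mem_univ x) (ze e)).trans
    (gam_le_norm hG.riem (mem_univ x) (by linarith) (hG.g_lo x) _)
  have h2 : fderiv ℝ (ze e) x = -fderiv ℝ (eta (e⁻¹ ^ 5)) x := fderiv_const_sub _
  have hv0 := Bs.volDensity_pos h.jd.riemb x
  rw [h2, norm_neg] at h1
  generalize hρ' : e⁻¹ ^ 5 = ρ at *
  by_cases hd : fderiv ℝ (eta ρ) x = 0
  · rw [hd, norm_zero] at h1
    exact le_trans (by nlinarith) (by positivity : (0 : ℝ) ≤ _)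
  have a1 : ρ ≤ ‖x‖ := le_of_not_ge fun h => hd (Bs.fderiv_eta_of_le (by linarith) h)
  have a2 : ‖x‖ ≤ 2 * ρ := le_of_not_ge fun h => hd (Bs.fderiv_eta_of_ge (by linarith) h)
  have hv := vol_far hn hG hs h hF (hρ' ▸ a1)
  have a3 := pow_le_pow_left₀ (norm_nonneg _) (hc ρ (by linarith) x) 2
  have a4 : ((3 * ρ) ^ (n + 1))⁻¹ ≤ (1 + ‖x‖) ^ (-((n : ℝ) + 1)) := by
    rw [Real.rpow_neg (by positivity), ← Nat.cast_succ, Real.rpow_natCast]
    gcongr; linarith
  calc _ ≤ 2 * P * (8 * (P * (c / ρ) ^ 2)) :=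
        mul_le_mul hv (by nlinarith) (mul_nonneg (by norm_num) (gam_self_nonneg h.jd.riemb trivial _))
          (by linarith)
    _ = 16 * P ^ 2 * c ^ 2 * 3 ^ (n + 1) * (ρ ^ n / ρ) * ((3 * ρ) ^ (n + 1))⁻¹ := by
        rw [mul_pow, pow_succ ρ]; field_simp; ring
    _ ≤ _ := by gcongr

theorem main_le (hn : 3 ≤ n) (hS : S.OK) (hG : Geo S P T0 R bp) (hs : Sm P R e)
    (h : Sl S e M z3 an f z) (hF : FF S e f z T0) (x : E n) :
    volDensity (gB S e f z) x * (ze e x ^ 2 * (scalarCurv (gB S e f z) x + rhs S e M z3 an f z x))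
      ≤ volDensity (gB S e f z) x * (ph S e f z x * uu z x *
        (an x * z x + (S.par e M z3).vt (z x))) + ed S e f z x / 24
        + 2 * P ^ 2 * 2 ^ ((n : ℝ) + S.e0) * (1 + ‖x‖) ^ (-((n : ℝ) + S.e0)) := by
  have hρ := hs.one_le
  have hP := hG.P_ge
  have he := hs.pos
  have hv0 := Bs.volDensity_pos h.jd.riemb x
  have hvt := h.vt_nonneg (x := x) (by linarith [hF.zlo x])
  have u0 : 0 < uu z x := Real.exp_pos _
  rcases le_total ‖x‖ (e⁻¹ ^ 5) with hx | hx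
  · have h1 := ed_nonneg hS hG he h x
    have h2 := h.jd.φ_pos x trivial
    rw [ze, Bs.eta_eq_one (by linarith) hx, h.an_zero x (by linarith)]
    simp only [sub_self, zero_mul, zero_add, mul_zero, ne_eq, OfNat.ofNat_ne_zero,
      not_false_eq_true, zero_pow]
    positivity
  have hr : 1 ≤ ‖x‖ := hρ.trans hx
  have hR0 : 2 * S.R0 ≤ ‖x‖ := (hs.R0 hG).trans (hs.far hx).le
  have ph1 : ph S e f z x = 1 := hF.zfar.ph_one hn hS he (hs.R0 hG) (hs.far hx).le
  have hed := ed_ge hS he h x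
  have hv := vol_far hn hG hs h hF.gfar hx
  have hu3 := uu_ge hn hS hF.zlo x
  have hN := N_nonneg hG h x
  have hΓ := gam_self_nonneg h.jd.riemb (mem_univ x) z
  have hp := h.jd.pp_nonneg (mem_univ x)
  have hz1 := ze_sq_le e x
  have hz0 := sq_nonneg (ze e x)
  have hal := al_ge hn
  have b1 := id_G_const h.jd (mem_univ x) (hF.zfar.ph_ev hn hS he (hs.R0 hG) (hs.far hx))
  have b2 := Bd.normSqK_nonneg h.jd.riemb (mem_univ x) (h.jd.symT_hh.symm x trivial)
  have b3 := (abs_le.1 (hG.R_far x (hs.farR hx))).2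
  have b4 := (abs_le.1 (hG.Ric_far x (wv S.g (ph S e f z) f x) (hs.farR hx))).1
  have b5 := Setup.OK.mw_pos hS x
  have b6 : 0 ≤ e ^ 3 * pp' S e f z x := by positivity
  rw [h.H0_far hS hR0] at b1
  rw [h.jd.bil_wv_wv trivial] at b4
  have c1 : scalarCurv (gB S e f z) x + rhs S e M z3 an f z x ≤
      (P * ‖x‖ ^ (-(n : ℝ) - S.e0) + 2 * (P * ‖x‖ ^ (-(n : ℝ)) * pp' S e f z x))
        + (an x * z x + (S.par e M z3).vt (z x)) := by
    rw [rhs_far hS hR0, hF.zfar.sz_zero hn hS he (hs.far hx).le]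
    linarith
  have c2 : ze e x ^ 2 * (an x * z x) ≤ uu z x * (an x * z x) := by
    rcases le_total ‖x‖ (2 * e⁻¹ ^ 5) with h2 | h2
    · simp [h.an_zero x h2]
    · have h3 := (h.an_mem x).1
      rw [ze, Bs.eta_eq_zero (by linarith) h2, uu]
      rcases le_total (z x) 0 with hz | hz
      · have := Real.exp_le_one_iff.2 (by nlinarith : al n * z x ≤ 0)
        nlinarith [mul_nonneg h3 (neg_nonneg.2 hz)]
      · have := Real.one_le_exp (by positivity : 0 ≤ al n * z x)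
        nlinarith [mul_nonneg h3 hz]
  have c3 : ze e x ^ 2 * (S.par e M z3).vt (z x) ≤ uu z x * (S.par e M z3).vt (z x) := by
    rcases le_total (z x) 0 with hz | hz
    · simp [le_antisymm (h.vt_nonpos hz) hvt]
    · exact mul_le_mul_of_nonneg_right
        (hz1.trans (Real.one_le_exp (by positivity : 0 ≤ al n * z x))) hvt
  have c4 : P * ‖x‖ ^ (-(n : ℝ)) ≤ e ^ 3 / 144 := by
    have hn3 : (3 : ℝ) ≤ n := by exact_mod_cast hn
    have d1 : ‖x‖ ^ (-(n : ℝ)) ≤ ‖x‖⁻¹ := by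
      rw [← Real.rpow_neg_one]; exact Real.rpow_le_rpow_of_exponent_le hr (by linarith)
    have d2 : ‖x‖⁻¹ ≤ e ^ 4 := by
      rw [← inv_inv (e ^ 4), ← inv_pow]
      exact inv_anti₀ (by positivity) (by linarith [hs.far hx, hs.X4, hs.X18])
    have d3 : 144 * P * e ≤ 1 :=
      (mul_le_mul_of_nonneg_right hs.XP he.le).trans_eq (inv_mul_cancel₀ he.ne')
    calc _ ≤ P * e ^ 4 := mul_le_mul_of_nonneg_left (d1.trans d2) (by linarith)
      _ = 144 * P * e * (e ^ 3 / 144) := by ring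
      _ ≤ _ := mul_le_of_le_one_left (by positivity) d3
  have c5 : ‖x‖ ^ (-(n : ℝ) - S.e0) ≤ 2 ^ ((n : ℝ) + S.e0) * (1 + ‖x‖) ^ (-((n : ℝ) + S.e0)) := by
    have := hS.good.e0_pos
    rw [← neg_add', Real.rpow_neg (by positivity), Real.rpow_neg (by positivity), ← div_eq_mul_inv,
      ← Real.div_rpow (by positivity) (by positivity), ← Real.inv_rpow (by positivity)]
    refine Real.rpow_le_rpow (by positivity) ?_ (by positivity)
    rw [inv_eq_one_div, div_le_div_iff₀ (by positivity) (by positivity)]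
    linarith
  have c6 : volDensity (gB S e f z) x * (P * ‖x‖ ^ (-(n : ℝ) - S.e0)) ≤
      2 * P * (P * (2 ^ ((n : ℝ) + S.e0) * (1 + ‖x‖) ^ (-((n : ℝ) + S.e0)))) := by gcongr
  have c7 : volDensity (gB S e f z) x * (P * ‖x‖ ^ (-(n : ℝ)) * pp' S e f z x)
      ≤ ed S e f z x / 48 := by
    rw [ph1] at hed
    have d1 := mul_le_mul_of_nonneg_left hu3 (mul_nonneg hv0.le b6)
    have d2 := mul_le_mul_of_nonneg_left (mul_le_mul_of_nonneg_right c4 hp) hv0.le
    nlinarith [mul_nonneg (mul_pos hv0 u0).le (add_nonneg hN hΓ)]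
  have c8 : ze e x ^ 2 * (scalarCurv (gB S e f z) x + rhs S e M z3 an f z x) ≤
      (P * ‖x‖ ^ (-(n : ℝ) - S.e0) + 2 * (P * ‖x‖ ^ (-(n : ℝ)) * pp' S e f z x))
        + uu z x * (an x * z x + (S.par e M z3).vt (z x)) := by
    have d1 := mul_le_mul_of_nonneg_left c1 hz0
    have d2 := mul_le_of_le_one_left (by positivity : 0 ≤ P * ‖x‖ ^ (-(n : ℝ) - S.e0)
      + 2 * (P * ‖x‖ ^ (-(n : ℝ)) * pp' S e f z x)) hz1
    nlinarith
  have c9 := mul_le_mul_of_nonneg_left c8 hv0.le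
  rw [ph1]
  nlinarith

end S7c

open S7c in
theorem s7c : S7cStmt := by
  intro P1 n hn S hS P T0 R bp hG
  obtain ⟨c, -, hc⟩ := Bs.exists_eta_grad n
  have hP := hG.P_ge
  have i1 := integrable_jap (n := n) (b := n + S.e0) (by linarith [hS.good.e0_pos])
  have i2 := integrable_jap (n := n) (b := n + 1) (by linarith)
  obtain ⟨B1, hB1⟩ : ∃ B, B = 2 * P ^ 2 * 2 ^ ((n : ℝ) + S.e0) *
    ∫ x : E n, (1 + ‖x‖) ^ (-((n : ℝ) + S.e0)) := ⟨_, rfl⟩
  obtain ⟨B2, hB2⟩ : ∃ B, B = 16 * P ^ 2 * c ^ 2 * 3 ^ (n + 1) *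
    ∫ x : E n, (1 + ‖x‖) ^ (-((n : ℝ) + 1)) := ⟨_, rfl⟩
  have b1 : 0 ≤ B1 := hB1 ▸ mul_nonneg (by positivity) (integral_nonneg fun x => by positivity)
  have b2 : 0 ≤ B2 := hB2 ▸ mul_nonneg (by positivity) (integral_nonneg fun x => by positivity)
  have hR : 0 ≤ R := by linarith [hG.R_ge, hS.good.R0_ge]
  refine ⟨(R + 144 * P + 48 * (1 + B1 + B2))⁻¹, by positivity,
    fun e he he1 M z3 an f z h hF hE hi hc1 => ?_⟩
  have hX : R + 144 * P + 48 * (1 + B1 + B2) ≤ e⁻¹ := (le_inv_comm₀ he (by positivity)).1 he1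
  have hs : Sm P R e := ⟨he, by linarith, by linarith, by linarith⟩
  obtain ⟨C, hC, hW⟩ := WW_far hn hS hG hs h hF
  have j1 := i1.const_mul (2 * P ^ 2 * 2 ^ ((n : ℝ) + S.e0))
  have j2 := i2.const_mul (16 * P ^ 2 * c ^ 2 * 3 ^ (n + 1) * ((e⁻¹ ^ 5) ^ n / e⁻¹ ^ 5))
  have key := energy_abs (continuous_ed hG h) (ed_nonneg hS hG he h) ((hi.add j1).add j2)
    (c_WW hG h) (fun x => by
      have a1 := hE x
      have a2 := mul_le_mul_of_nonneg_left (div_VL hn h x) (Bs.volDensity_pos h.jd.riemb x).le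
      have a3 := J2_le hn hG hs h hF.gfar hc x
      have a4 := main_le hn hS hG hs h hF x
      rw [div_WW hG h]
      simp only [Pi.add_apply]
      linarith) (by
      have : (3 : ℝ) ≤ n := by exact_mod_cast hn
      unfold a0; linarith) hC hW
  refine ⟨key.1, key.2.trans ?_⟩
  have hρ := hs.one_le
  have hk : 1 ≤ (e⁻¹ ^ 5) ^ n / e⁻¹ ^ 5 :=
    (one_le_div (by linarith)).2 (le_self_pow₀ hρ (by omega))
  have h5 : e⁻¹ ≤ e⁻¹ ^ 5 := by linarith [hs.X4, hs.X5, hs.X18]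
  rw [integral_add' (hi.add j1) j2, integral_add' hi j1, integral_const_mul, integral_const_mul,
    ← hB1, mul_right_comm, ← hB2, pow_mul, ← mul_div_cancel₀ ((e⁻¹ ^ 5) ^ n) (by linarith : e⁻¹ ^ 5 ≠ 0),
    mul_div_cancel_left₀ _ (by linarith : e⁻¹ ^ 5 ≠ 0)]
  nlinarith

end Crest.Agent.N346.Bd

end
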