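import Crest.Agent.N346.Br.Defs
import Crest.Agent.N346.An.Per
import Crest.Agent.N346.Basic
import Crest.Agent.R238.MaxPOY
import Crest.Agent.N346.Bd.Defs
import Crest.Agent.N346.Bd.Lin

-- ▼ part N346/Br/Sch
section

/-! Row 346, bridge, leaf B7 (helper8): `sch : SchStmt`. -/

set_option autoImplicit false

open Filter Topology Set
open scoped ContDiff
open Crest.GeometryTopology.CoordMetric Crest.MathPhysics.ExteriorData
open Crest.Agent.N346.An (Y0 Y1 st xi aD2)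

noncomputable section

namespace Crest.Agent.N346.Br

variable {n : ℕ}

theorem max_test {u : E n → ℝ} (hu : ContDiff ℝ ∞ u) {x0 : E n} (h : ∀ x, u x ≤ u x0) :
    (∀ i, pderiv i u x0 = 0) ∧ lap u x0 ≤ 0 := by
  have hm : IsLocalMax u x0 := Eventually.of_forall h
  refine ⟨fun i => by simp [pderiv, hm.fderiv_eq_zero], Finset.sum_nonpos fun i _ => ?_⟩
  rw [An.Lm.pd_pd_eq hu]
  exact R238.MaxP.second_deriv_nonpos_of_isLocalMax (hu.of_le (WithTop.coe_le_coe.2 le_top)) hm _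

/-- a periodic function whose sign at critical points is that of its Laplacian vanishes -/
theorem per_zero {L : ℝ} (hL : 0 < L) {u : E n → ℝ} (hu : ContDiff ℝ ∞ u) (hp : An.Per L u)
    (h : ∀ x, (∀ i, pderiv i u x = 0) → (lap u x ≤ 0 → u x ≤ 0) ∧ (0 ≤ lap u x → 0 ≤ u x)) :
    u = fun _ => 0 := by
  obtain ⟨x0, h0⟩ := hp.exists_max hL hu.continuous
  obtain ⟨x1, h1⟩ := (hp.comp fun t => -t).exists_max hL hu.continuous.neg
  obtain ⟨p0, q0⟩ := max_test hu h0
  obtain ⟨p1, q1⟩ := max_test hu.neg h1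
  have e : ∀ i, pderiv i (fun x => -u x) = fun x => -pderiv i u x := fun i =>
    funext fun x => Bs.pd_neg u i x
  simp only [lap, e, Bs.pd_neg, Finset.sum_neg_distrib, neg_eq_zero, neg_nonpos] at p1 q1
  have a0 := (h x0 p0).1 q0
  have a1 := (h x1 p1).2 q1
  funext x
  linarith [h0 x, h1 x]

/-- the flat background -/
def flat (Gs : Y0 n → ℝ) (τ : ℝ) : Bg n := ⟨fun _ => 1, fun _ => 0, fun _ => 1, Gs, τ⟩

theorem bgOf_zero (P : P1.Par) (c : P1.Coef n) :
    bgOf P c 0 = flat (fun y => y.2.2.1 + P.vt y.2.2.1) P.τ := by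
  have h1 : c.gt 0 = fun _ => 1 := by funext x; simp [P1.Coef.gt]
  have h2 : c.Kt 0 = fun _ => 0 := by funext x; simp [P1.Coef.Kt]
  have h3 : bgΦ P c 0 = fun _ => 1 := by funext q; simp [bgΦ, P1.Par.phiF]
  simp [bgOf, flat, h1, h2, h3]

theorem chr_one (x : E n) (k i j : Fin n) : christoffel (fun _ => 1) x k i j = 0 := by
  simp [christoffel, pderiv]

theorem ric_one (x : E n) (i j : Fin n) : ricci (fun _ => 1) x i j = 0 := by
  simp [ricci, chr_one, pderiv]

theorem dX_const (j : Fin n) (c : ℝ) : dX j (fun _ : Z n => c) = fun _ => 0 := by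
  funext q; simp [dX]

theorem dF_const (c : ℝ) : dF (fun _ : Z n => c) = fun _ => 0 := by funext q; simp [dF]

theorem dZ_const (c : ℝ) : dZ (fun _ : Z n => c) = fun _ => 0 := by funext q; simp [dZ]

theorem tot0_const (c : ℝ) (y : Y0 n) (j : Fin n) : tot0 (fun _ => c) y j = 0 := by
  simp [tot0, dX_const, dF_const]

theorem tot_const (c : ℝ) (Y : Y1 n) (j : Fin n) : tot (fun _ => c) Y j = 0 := by
  simp [tot, tot0_const, dZ_const]

section
variable {Gs : Y0 n → ℝ} {τ : ℝ} {y : Y0 n}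

theorem gbi_flat (h : ∀ i, y.2.2.2 i = 0) : gbi (fun _ => 1) (fun _ => 1) y = 1 := by
  have : gb0 (fun _ => 1) (fun _ => 1) y = 1 := by ext i j; simp [gb0, h]
  rw [gbi, this, inv_one]

theorem flat_a1 (h : ∀ i, y.2.2.2 i = 0) : (flat Gs τ).sys.a1 y = 1 := gbi_flat h

theorem flat_b1 (k : Fin n) : (flat Gs τ).sys.b1 y k = 0 := by
  simp [flat, Bg.sys, phz, dZ_const]

theorem flat_c1 (h : ∀ i, y.2.2.2 i = 0) : (flat Gs τ).sys.c1 y = τ * y.2.1 := by
  simp [flat, Bg.sys, Gp, h, gm0, sq0, ph]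

theorem flat_a2 (h : ∀ i, y.2.2.2 i = 0) (i j : Fin n) :
    (flat Gs τ).sys.a2 y i j = 2 * (1 : Matrix (Fin n) (Fin n) ℝ) i j := by
  simp [flat, Bg.sys, gbi_flat h, phz, dZ_const]

theorem flat_F2 {ξ : An.Xi n} (h1 : ∀ i, ξ.1 i = 0)
    (h2 : ∀ i j, ξ.2 i j = 0) : (flat Gs τ).sys.F2 (y, ξ) = Gs y := by
  simp [flat, Bg.sys, h1, h2, scalarCurv, ric_one, chr_one, rest, tot_const, H01, hh1, hx1, aa1,
    Gp, dX_const, dF_const, dZ_const]

end

theorem aD2_one {A : E n → Matrix (Fin n) (Fin n) ℝ} {u : E n → ℝ} {x : E n} {c : ℝ}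
    (h : ∀ i j, A x i j = c * (1 : Matrix (Fin n) (Fin n) ℝ) i j) : aD2 A u x = c * lap u x := by
  simp [aD2, lap, h, Matrix.one_apply, Finset.mul_sum]

theorem vt_nonneg {P : P1.Par} (hP : P.OK) (hM : 0 ≤ P.M) {z : ℝ} (hz : 0 ≤ z) : 0 ≤ P.vt z := by
  have h1 : P1.cut (-P.θ - 2) (-P.θ - 1) z = 1 := by
    refine Real.smoothTransition.one_of_one_le ?_
    rw [le_div_iff₀ (by linarith)]
    linarith [hP.θ_pos]
  rw [P1.Par.vt, h1, sub_self, mul_zero, zero_add]
  exact mul_nonneg hM (Real.smoothTransition.nonneg _)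

theorem vt_nonpos {P : P1.Par} (hM : 0 ≤ P.M) (h3 : 0 ≤ P.z3) {z : ℝ} (hz : z ≤ 0) :
    P.vt z ≤ 0 := by
  have h1 : P1.cut P.z3 (P.z3 + 1) z = 0 :=
    Real.smoothTransition.zero_of_nonpos (div_nonpos_of_nonpos_of_nonneg (by linarith)
      (by linarith))
  have h2 : P1.cut (-P.θ - 2) (-P.θ - 1) z ≤ 1 := Real.smoothTransition.le_one _
  rw [P1.Par.vt, h1, mul_zero, add_zero]
  exact mul_nonpos_of_nonpos_of_nonneg (neg_nonpos.2 hM) (sub_nonneg.2 h2)

theorem sch : SchStmt := by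
  intro n P hP he hM h3 c L hL
  refine ⟨0, fun s hs f z hsol hf hz x => ?_⟩
  rw [bgOf_zero] at hsol
  have hτ : 0 < P.τ := pow_pos he 3
  have hco : 0 < (1 - s) + s * P.τ := by
    rcases hs.1.eq_or_lt with h | h
    · rw [← h]; norm_num
    · exact add_pos_of_nonneg_of_pos (sub_nonneg.2 hs.2) (mul_pos h hτ)
  have hf0 : f = fun _ => 0 := by
    refine per_zero hL hsol.sf hf fun x hx => ?_
    have hx' : ∀ i, (st f z x).2.2.2 i = 0 := hx
    have e := hsol.e1 x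
    rw [aD2_one (c := 1) fun i j => by
      simp only [An.Sys.sch, flat_a1 hx', one_mul]] at e
    simp only [An.Sys.sch, flat_b1, flat_c1 hx', mul_zero, zero_mul, Finset.sum_const_zero,
      add_zero, one_mul] at e
    have e' : lap f x = ((1 - s) + s * P.τ) * f x := by rw [e]; simp only [st]; ring
    rw [e']
    exact ⟨fun h => nonpos_of_mul_nonpos_right h hco, fun h => nonneg_of_mul_nonneg_right h hco⟩
  subst hf0
  have e0 : ∀ i : Fin n, pderiv i (fun _ : E n => (0 : ℝ)) = fun _ => 0 := fun i => by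
    funext x; simp [pderiv]
  have hz0 : z = fun _ => 0 := by
    refine per_zero hL hsol.sz hz fun x hx => ?_
    have hx' : ∀ i, (st (fun _ => 0) z x).2.2.2 i = 0 := fun i => by simp [st, pderiv]
    have e := hsol.e2 x
    rw [aD2_one (c := 2) fun i j => by simp only [An.Sys.sch, flat_a2 hx']] at e
    simp only [An.Sys.sch] at e
    rw [flat_F2 hx fun i j => by simp [xi, e0]] at e
    simp only [st] at e
    constructor
    · intro h
      by_contra hc
      have h1 := mul_nonneg hs.1 (vt_nonneg hP hM (not_le.1 hc).le)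
      linarith [not_le.1 hc]
    · intro h
      by_contra hc
      have h1 := mul_nonpos_of_nonneg_of_nonpos hs.1 (vt_nonpos hM h3 (not_le.1 hc).le)
      linarith [not_le.1 hc]
  subst hz0
  simp [An.N1, st, xi, e0, Prod.norm_def, funext_iff]

end Crest.Agent.N346.Br

end
end

-- ▼ part N346/Bd/Geo
section

/-!
Row 346, Bd-Geo (helper16): every setup has a quantitative geometry.
-/

set_option autoImplicit false

open MeasureTheory Filter Set
open scoped ContDiff Topology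
open Crest.GeometryTopology.CoordMetric Crest.MathPhysics.ExteriorData
open Crest.Agent.R202.Tens Crest.Agent.R247.Bo84 Crest.Agent.N346.Id Crest.Agent.N346.P1

noncomputable section

namespace Crest.Agent.N346.Bd.Geox

variable {n : ℕ} {P P' R R' e0 : ℝ} {g K : MetricField n} {EE : VectorField n}
  {u a1 a2 : E n → ℝ}

theorem b2_mono (hg : IsRiemannianOn g univ) (h : B2 P g u) (hP : P ≤ P') : B2 P' g u :=
  ⟨h.smooth, fun x => (h.d_le x).trans hP, fun x Y => (h.h_le x Y).trans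
    (mul_le_mul_of_nonneg_right hP (bil_self_nonneg hg (mem_univ x) Y))⟩

theorem bg_mono (h : BG P g K EE a1 a2) (hP : P ≤ P') : BG P' g K EE a1 a2 := by
  have hn := fun x Y => bil_self_nonneg h.riem (mem_univ x) Y
  have h0 : 0 < P := by linarith [h.P_ge]
  exact ⟨h.P_ge.trans hP, h.riem, h.symK, h.a1_mem, h.a2_mem, b2_mono h.riem h.a1_b2 hP,
    b2_mono h.riem h.a12_b2 hP, fun x => (h.E_le x).trans hP,
    fun x Y => (h.g_lo x Y).trans (mul_le_mul_of_nonneg_right hP (hn x Y)),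
    fun x Y => (h.g_hi x Y).trans (mul_le_mul_of_nonneg_right hP (sq_nonneg _)),
    fun x => (inv_anti₀ h0 hP).trans (h.vol_lo x), fun x => (h.vol_hi x).trans hP,
    fun x => (h.R_le x).trans hP,
    fun x Y => (h.Ric_le x Y).trans (mul_le_mul_of_nonneg_right hP (hn x Y)),
    fun x Y Z => (h.K_le x Y Z).trans (mul_le_mul_of_nonneg_right (pow_le_pow_left₀ h0.le hP 2)
      (mul_nonneg (hn x Y) (hn x Z))),
    fun x => (h.trK_le x).trans hP, fun x W hW => (h.dtrK_le x W hW).trans hP,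
    fun x W hW => (h.cK_le x W hW).trans hP, fun x => (h.mu_le x).trans hP,
    fun x W hW => (h.J_le x W hW).trans hP⟩

theorem far_mono (hg : IsRiemannianOn g univ) (h : Far P R e0 g) (h0 : 0 < P) (hP : P ≤ P')
    (hR : R ≤ R') : Far P' R' e0 g := by
  have hn := fun x Y => bil_self_nonneg hg (mem_univ x) Y
  refine ⟨fun x hx => (h.R_far x (hR.trans hx)).trans (by gcongr),
    fun x Y hx => (h.Ric_far x Y (hR.trans hx)).trans ?_,
    fun x hx => (h.d_r x (hR.trans hx)).trans hP,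
    fun x Y hx => (h.h_r x Y (hR.trans hx)).trans ?_,
    fun x hx => (h.lap_r x (hR.trans hx)).trans (neg_le_neg ?_)⟩
  · exact mul_le_mul_of_nonneg_right (by gcongr) (hn x Y)
  · exact mul_le_mul_of_nonneg_right (by gcongr) (hn x Y)
  · exact mul_le_mul_of_nonneg_right (inv_anti₀ h0 hP) (by positivity)

/-- the proper function `log (1 + |x|²)`. -/
def lg (x : E n) : ℝ := Real.log (1 + ‖x‖ ^ 2)

theorem lg_smooth : ContDiff ℝ ∞ (lg (n := n)) :=
  (contDiff_const.add (contDiff_norm_sq ℝ)).log fun x => by positivity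

theorem lg_d1 {t : ℝ} (ht : 0 ≤ t) : HasDerivAt (fun t => Real.log (1 + t)) (1 + t)⁻¹ t := by
  simpa using ((hasDerivAt_id t).const_add 1).log (by simp only [id]; positivity)

theorem lg_d2 {t : ℝ} (ht : 0 ≤ t) :
    HasDerivAt (fun t : ℝ => (1 + t)⁻¹) (-((1 + t) ^ 2)⁻¹) t := by
  simpa [neg_div] using ((hasDerivAt_id t).const_add 1).fun_inv (by simp only [id]; positivity)

theorem lg_D1 (x : E n) : ‖fderiv ℝ lg x‖ ≤ 6 := by
  have := congrFun (R238.MaxP.fderiv_radial (E := E n) fun t ht => lg_d1 ht) x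
  refine (congrArg norm this).trans_le ?_
  rw [norm_smul, innerSL_apply_norm, Real.norm_eq_abs, abs_of_nonneg (by positivity), mul_assoc,
    ← div_eq_inv_mul, ← mul_div_assoc, div_le_iff₀ (by positivity)]
  nlinarith [sq_nonneg (‖x‖ - 1)]

theorem lg_D2 (x : E n) : ‖fderiv ℝ (fderiv ℝ lg) x‖ ≤ 6 := by
  refine ContinuousLinearMap.opNorm_le_bound₂ _ (by norm_num) fun a b => ?_
  have := R238.MaxP.fderiv_fderiv_radial (E := E n) (fun t ht => lg_d1 ht) (fun t ht => lg_d2 ht)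
    x a b
  refine (congrArg norm this).trans_le ?_
  have h1 := abs_real_inner_le_norm x a
  have h2 := abs_real_inner_le_norm x b
  have h3 := abs_real_inner_le_norm a b
  have h4 : ((1 + ‖x‖ ^ 2) ^ 2)⁻¹ * ‖x‖ ^ 2 ≤ 1 := by
    rw [← div_eq_inv_mul, div_le_one (by positivity)]
    nlinarith [sq_nonneg ‖x‖, sq_nonneg (‖x‖ ^ 2)]
  have h5 : (1 + ‖x‖ ^ 2)⁻¹ ≤ 1 := inv_le_one_of_one_le₀ (by nlinarith [sq_nonneg ‖x‖])
  rw [Real.norm_eq_abs]
  refine (abs_add_le _ _).trans ?_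
  simp only [abs_mul, abs_neg, abs_inv, abs_of_nonneg (show (0 : ℝ) ≤ (1 + ‖x‖ ^ 2) ^ 2 by positivity),
    abs_of_nonneg (show (0 : ℝ) ≤ 1 + ‖x‖ ^ 2 by positivity), abs_two,
    abs_of_nonneg (show (0 : ℝ) ≤ 4 by norm_num)]
  calc _ ≤ 4 * ((1 + ‖x‖ ^ 2) ^ 2)⁻¹ * (‖x‖ * ‖a‖) * (‖x‖ * ‖b‖) + 2 * 1 * (‖a‖ * ‖b‖) := by gcongr
    _ = (4 * (((1 + ‖x‖ ^ 2) ^ 2)⁻¹ * ‖x‖ ^ 2) + 2) * ‖a‖ * ‖b‖ := by ring
    _ ≤ _ := by gcongr; linarith

theorem lg_top : Tendsto (lg (n := n)) (cocompact (E n)) atTop :=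
  Real.tendsto_log_atTop.comp (tendsto_atTop_add_const_left _ _
    ((tendsto_pow_atTop two_ne_zero).comp (tendsto_norm_cocompact_atTop (E := E n))))

theorem w_hi {r a b : ℝ} (hr : 0 ≤ r) (ha : 0 ≤ a) (hab : a ≤ b) :
    (1 + r ^ 2) ^ (-b / 2) ≤ 2 ^ (a / 2) * (1 + r) ^ (-a) := by
  have h1 : (1 + r ^ 2) ^ (-b / 2) ≤ (1 + r ^ 2) ^ (-a / 2) :=
    Real.rpow_le_rpow_of_exponent_le (by nlinarith) (by linarith)
  have h2 : (1 + r ^ 2) ^ (-a / 2) ≤ ((1 + r) ^ 2 / 2) ^ (-a / 2) :=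
    Real.rpow_le_rpow_of_nonpos (by positivity) (by nlinarith [sq_nonneg (r - 1)]) (by linarith)
  refine h1.trans (h2.trans (le_of_eq ?_))
  rw [Real.div_rpow (by positivity) (by norm_num), ← Real.rpow_natCast,
    ← Real.rpow_mul (by positivity), neg_div, Real.rpow_neg (by norm_num : (0 : ℝ) ≤ 2),
    div_inv_eq_mul, mul_comm]
  congr 2
  push_cast
  ring

theorem w_lo {r a b : ℝ} (hr : 0 ≤ r) (hb : 0 ≤ b) (hab : b ≤ a) :
    (1 + r) ^ (-a) ≤ (1 + r ^ 2) ^ (-b / 2) := by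
  have h1 : (1 + r ^ 2) ^ (-a / 2) ≤ (1 + r ^ 2) ^ (-b / 2) :=
    Real.rpow_le_rpow_of_exponent_le (by nlinarith) (by linarith)
  have h2 : ((1 + r) ^ 2) ^ (-a / 2) ≤ (1 + r ^ 2) ^ (-a / 2) :=
    Real.rpow_le_rpow_of_nonpos (by positivity) (by nlinarith) (by linarith)
  refine le_trans (le_of_eq ?_) (h2.trans h1)
  rw [← Real.rpow_natCast, ← Real.rpow_mul (by positivity)]
  congr 1
  push_cast
  ring

end Crest.Agent.N346.Bd.Geox

namespace Crest.Agent.N346.Bd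
open Geox

theorem geo : GeoStmt := by
  intro hU hB hF n hn S hS
  obtain ⟨lam, B, hU⟩ := hU n hn S hS
  obtain ⟨P1, h1⟩ := hB n lam 6 B
  obtain ⟨h1, h2⟩ := h1 _ (hU 1 le_rfl) 1 ⟨zero_le_one, le_rfl⟩
  have eg : (S.coef fun x => 1 - eta 1 x).gt 1 = S.g := by
    funext x; simp [Coef.gt, Setup.coef]
  have eK : (S.coef fun x => 1 - eta 1 x).Kt 1 = S.K := by
    funext x; simp [Coef.Kt, Setup.coef]
  rw [eg, eK] at h1
  have h2 := h2 lg lg_smooth lg_D1 lg_D2
  rw [eg] at h2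
  obtain ⟨P2, R, hP2, h3⟩ := hF n hn _ _ _ _ _ _ _ _ _ _ _ _ _ _ hS.good
  have hC : 0 ≤ S.C0 := by
    have h := hS.C0_big 0 0 (by simp [quadForm])
    have h3 : (3 : ℝ) ≤ n := by exact_mod_cast hn
    have : 0 ≤ S.cw 0 := le_trans (by have : (0 : ℝ) ≤ n - 1 := by linarith
                                      positivity) h
    simpa [Setup.cw] using this
  have hc := hS.c1_pos
  have he := hS.good.e0_pos
  have he' := hS.good.e0_lt
  obtain ⟨P, p1, p2, p3, p4, p5, p6, p7⟩ := ((eventually_ge_atTop P1).and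
    ((eventually_ge_atTop P2).and ((eventually_ge_atTop S.θ⁻¹).and
    ((eventually_ge_atTop S.t0⁻¹).and ((eventually_ge_atTop (S.C0 * 2 ^ ((n : ℝ) / 2))).and
    ((eventually_ge_atTop S.c1⁻¹).and
    (eventually_ge_atTop (S.c1 * 2 ^ ((n : ℝ) / 2))))))))).exists
  have hn0 : (0 : ℝ) ≤ n := by positivity
  refine ⟨P, P1, max R (2 * S.R0), lg, bg_mono h1 p1,
    far_mono h1.riem h3 hP2 p2 (le_max_left _ _), le_max_right _ _, p1, h1.trK_le, p3, p4,
    b2_mono h1.riem h2 p1, fun x => Real.log_nonneg (by nlinarith [sq_nonneg ‖x‖]), lg_top,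
    fun x => mul_nonneg hC (by positivity), fun x => ?_, fun x => ?_, fun x => ?_⟩
  · refine (mul_le_mul_of_nonneg_left (w_hi (norm_nonneg x) hn0 le_rfl) hC).trans ?_
    rw [← mul_assoc]
    exact mul_le_mul_of_nonneg_right p5 (by positivity)
  · exact mul_le_mul (inv_le_of_inv_le₀ hc p6) (w_lo (norm_nonneg x) (by linarith) (by linarith))
      (by positivity) hc.le
  · refine (mul_le_mul_of_nonneg_left (w_hi (norm_nonneg x) hn0 (by linarith)) hc.le).trans ?_
    rw [← mul_assoc]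
    exact mul_le_mul_of_nonneg_right p7 (by positivity)

end Crest.Agent.N346.Bd

end
end

-- ▼ part N346/Bd/S7a
section

/-! Row 346, Part 1 (helper11): the pointwise energy inequality `s7a : S7aStmt`. -/

set_option autoImplicit false

open MeasureTheory Filter Set
open scoped ContDiff Topology
open Crest.GeometryTopology.CoordMetric Crest.MathPhysics.ExteriorData
open Crest.Agent.R202.Tens Crest.Agent.R247.Bo84 Crest.Agent.N346.Id Crest.Agent.N346.P1

noncomputable section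

namespace Crest.Agent.N346.Bd

namespace S7a

variable {n : ℕ}

/-! ### the step function -/

theorem cut_nonneg (a b t : ℝ) : 0 ≤ cut a b t := Real.smoothTransition.nonneg _

theorem cut_le_one (a b t : ℝ) : cut a b t ≤ 1 := Real.smoothTransition.le_one _

theorem cut_one {a b t : ℝ} (hab : a < b) (h : b ≤ t) : cut a b t = 1 :=
  Real.smoothTransition.one_of_one_le ((one_le_div (sub_pos.2 hab)).2 (by linarith))

theorem cut_zero {a b t : ℝ} (hab : a < b) (h : t ≤ a) : cut a b t = 0 :=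
  Real.smoothTransition.zero_of_nonpos
    (div_nonpos_of_nonpos_of_nonneg (sub_nonpos.2 h) (sub_pos.2 hab).le)

theorem contDiff_cut (a b : ℝ) : ContDiff ℝ 1 (cut a b) :=
  Real.smoothTransition.contDiff.comp ((contDiff_id.sub contDiff_const).div_const _)

theorem cut_has (a b t : ℝ) : HasDerivAt (cut a b) (deriv (cut a b) t) t :=
  ((contDiff_cut a b).differentiable one_ne_zero t).hasDerivAt

theorem cut_deriv_nonneg {a b : ℝ} (hab : a < b) (t : ℝ) : 0 ≤ deriv (cut a b) t :=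
  Monotone.deriv_nonneg fun _ _ h => Real.smoothTransition.monotone
    (div_le_div_of_nonneg_right (by linarith) (by linarith))

theorem exists_cut_bound {a b : ℝ} (hab : a < b) : ∃ C ≥ (0 : ℝ), ∀ t, deriv (cut a b) t ^ 2 ≤ C := by
  have hc : Continuous (deriv (cut a b)) := (contDiff_cut a b).continuous_deriv le_rfl
  obtain ⟨C, hC⟩ := (isCompact_Icc (a := a) (b := b)).exists_bound_of_continuousOn
    (hc.pow 2).continuousOn
  refine ⟨max 0 C, le_max_left _ _, fun s => ?_⟩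
  by_cases hs : s ∈ Icc a b
  · exact ((le_abs_self _).trans (hC s hs)).trans (le_max_right _ _)
  · have : deriv (cut a b) s = 0 := by
      rcases not_and_or.1 hs with h | h
      · exact IsLocalMin.deriv_eq_zero (.of_forall fun y =>
          (cut_zero hab (not_le.1 h).le).le.trans (cut_nonneg _ _ _))
      · exact IsLocalMax.deriv_eq_zero (.of_forall fun y =>
          (cut_le_one _ _ _).trans (cut_one hab (not_le.1 h).le).ge)
    rw [this]; simp

/-! ### real inequalities -/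

theorem amgm {D A B : ℝ} (h : D ^ 2 ≤ A * B) (hA : 0 ≤ A) (hB : 0 ≤ B) : -(A + B) ≤ 2 * D := by
  have h1 : |2 * D| ≤ A + B := abs_le_of_sq_le_sq (by nlinarith [sq_nonneg (A - B)]) (by linarith)
  exact (abs_le.1 h1).1

theorem quad {α Q N D : ℝ} (h1 : 1 / 2 ≤ α) (h2 : α ≤ 1) (hQ : 0 ≤ Q) (hN : 0 ≤ N)
    (h : D ^ 2 ≤ N * Q) : (Q + N) / 12 + N / 12 ≤ 2 * Q + 2 * α * D + α * N := by
  have h3 : α ^ 2 ≤ 23 / 12 * (α - 1 / 6) := by nlinarith
  have h4 : (α * D) ^ 2 ≤ (23 / 12 * Q) * ((α - 1 / 6) * N) :=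
    calc (α * D) ^ 2 = α ^ 2 * D ^ 2 := by ring
      _ ≤ (23 / 12 * (α - 1 / 6)) * (N * Q) := mul_le_mul h3 h (sq_nonneg _) (by linarith)
      _ = _ := by ring
  have := amgm h4 (by positivity) (mul_nonneg (by linarith) hN)
  linarith

/-- the region `s(z) = 0`: the penalty pays everything. -/
theorem pay0 {e φ A dd N G C1 C2 : ℝ} (he : 0 < e) (he1 : e ≤ 1) (hC1 : 0 ≤ C1) (hC2 : 0 ≤ C2)
    (hs : e * (C2 + 12 * C1) ≤ 1) (hφ : e ^ 2 ≤ φ) (hdd : 0 ≤ dd) (hN : 0 ≤ N)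
    (hA : 0 ≤ A ∨ (dd = 1 ∧ -C2 ≤ A))
    (hG : 0 ≤ G ∨ (dd = 1 ∧ -(φ * N / 12 + 12 * C1 / φ) ≤ 2 * G)) :
    0 ≤ φ * (A + (e ^ 6)⁻¹ * dd) + φ * N / 12 + 2 * G := by
  have hφ0 : 0 < φ := lt_of_lt_of_le (by positivity) hφ
  have hA' : -C2 ≤ A := by rcases hA with h | h; exacts [by linarith, h.2]
  have hk : C2 + 12 * C1 / e ^ 4 ≤ (e ^ 6)⁻¹ := by
    rw [inv_eq_one_div, le_div_iff₀ (by positivity)]
    have e1 : (C2 + 12 * C1 / e ^ 4) * e ^ 6 = e * (e ^ 5 * C2 + e * (12 * C1)) := by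
      field_simp
    have e5 : e ^ 5 ≤ 1 := pow_le_one₀ he.le he1
    rw [e1]
    exact le_trans (mul_le_mul_of_nonneg_left (add_le_add (mul_le_of_le_one_left hC2 e5)
      (mul_le_of_le_one_left (by positivity) he1)) he.le) hs
  have hk0 : 0 ≤ 12 * C1 / e ^ 4 := by positivity
  have hφN : 0 ≤ φ * N / 12 := by positivity
  rcases hG with hG | ⟨h1, hG⟩
  · have : 0 ≤ A + (e ^ 6)⁻¹ * dd := by
      rcases hA with h | h
      · positivity
      · rw [h.1]; linarith [h.2]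
    positivity
  · have h2 : 12 * C1 / φ ≤ φ * (12 * C1 / e ^ 4) := by
      rw [div_le_iff₀ hφ0]
      calc 12 * C1 = (e ^ 2) ^ 2 * (12 * C1 / e ^ 4) := by field_simp
        _ ≤ φ ^ 2 * (12 * C1 / e ^ 4) := by gcongr
        _ = _ := by ring
    have h3 : φ * (12 * C1 / e ^ 4) ≤ φ * (A + (e ^ 6)⁻¹ * dd) := by
      rw [h1]; gcongr; linarith
    linarith

/-- the region `s(z) ≠ 0`: the volume factor `γ` is absorbed by `τ γ² p`. -/
theorem pay1 {e γ p a : ℝ} (he : 0 < e) (hγ : 1 ≤ γ) (hp : γ ^ 2 * (1 - p) = 1) :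
    -(e ^ 2 * a + e * a ^ 2) ≤ γ * (-(e ^ 2 * a) + 11 / 12 * (e ^ 3 * γ * p)) := by
  have h1 : γ * (γ * p) = γ ^ 2 - 1 := by linarith
  have h2 : (γ - 1) ^ 2 ≤ γ ^ 2 - 1 := by nlinarith
  have h3 : e * (γ - 1) * a ≤ 11 / 12 * (e * (γ - 1)) ^ 2 + a ^ 2 := by
    nlinarith [sq_nonneg (e * (γ - 1) - a), sq_nonneg (e * (γ - 1)), sq_nonneg a]
  have h4 : (e * (γ - 1)) ^ 2 ≤ e ^ 2 * (γ ^ 2 - 1) := by rw [mul_pow]; gcongr
  have h5 : e * (e * (γ - 1) * a) ≤ e * (11 / 12 * (e ^ 2 * (γ ^ 2 - 1)) + a ^ 2) := by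
    gcongr; linarith
  have h6 : γ * (-(e ^ 2 * a) + 11 / 12 * (e ^ 3 * γ * p))
      = -(e ^ 2 * a) - e * (e * (γ - 1) * a) + 11 / 12 * (e ^ 3 * (γ * (γ * p))) := by ring
  rw [h6, h1]
  nlinarith

/-- the potential terms where `s(z) ≠ 0`. -/
theorem pay2 {e A sz cw dd w P C1 C2 Rn : ℝ} (he : 0 < e) (he1 : e ≤ 1) (hC1 : 0 ≤ C1)
    (hC2 : 0 ≤ C2) (hs : e * (C2 + 12 * C1) ≤ 1) (h0 : 0 ≤ sz) (h1 : sz ≤ 1) (hdd : 0 ≤ dd)
    (hw : 0 ≤ w) (hRn : 0 ≤ Rn) (hcw : cw ≤ P * w)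
    (hA : 0 ≤ A ∨ (1 ≤ Rn * w ∧ dd = 1 ∧ -C2 ≤ A)) :
    -(sz * (P + C2 * Rn) * w) ≤ A - sz * cw + (1 - sz) * ((e ^ 6)⁻¹ * dd) := by
  have c1 : sz * cw ≤ sz * (P * w) := mul_le_mul_of_nonneg_left hcw h0
  have c2 : 0 ≤ 1 - sz := sub_nonneg.2 h1
  have c3 : 0 ≤ sz * (C2 * (Rn * w)) := by positivity
  rcases hA with hA | ⟨a1, a2, a3⟩
  · have : 0 ≤ (1 - sz) * ((e ^ 6)⁻¹ * dd) := by positivity
    linarith
  · have c4 : C2 ≤ (e ^ 6)⁻¹ := by
      rw [inv_eq_one_div, le_div_iff₀ (by positivity)]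
      have c5 : e ^ 6 ≤ e := pow_le_of_le_one he.le he1 (by norm_num)
      have c6 := mul_le_mul_of_nonneg_left c5 hC2
      have c7 : 0 ≤ e * C1 := by positivity
      linarith
    have c6 : sz * C2 ≤ sz * (C2 * (Rn * w)) :=
      mul_le_mul_of_nonneg_left (le_mul_of_one_le_right hC2 a1) h0
    have c7 : (1 - sz) * C2 ≤ (1 - sz) * ((e ^ 6)⁻¹ * dd) := by
      rw [a2, mul_one]; exact mul_le_mul_of_nonneg_left c4 c2
    linarith

theorem pay3 {e γ p sz w C3 X Y vol u P : ℝ} (he : 0 < e) (hγ : 1 ≤ γ) (hp : γ ^ 2 * (1 - p) = 1)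
    (h0 : 0 ≤ sz) (h1 : sz ≤ 1) (hw : 0 ≤ w) (hC : 0 ≤ C3) (hX : -(sz * C3 * w) ≤ X) (hY : 0 ≤ Y)
    (hvol : 0 ≤ vol) (hu : 0 ≤ u) (hu1 : u ≤ 1) (hP : vol ≤ P) :
    -(P * (C3 + C3 ^ 2) * (e ^ 2 * sz * w + e * w ^ 2))
      ≤ γ * vol * (u * (e ^ 2 * X + Y + 11 / 12 * (e ^ 3 * γ * p))) := by
  have h5 := pay1 (a := sz * C3 * w) he hγ hp
  have h6 : γ * (-(e ^ 2 * (sz * C3 * w)) + 11 / 12 * (e ^ 3 * γ * p)) ≤ γ *
      (e ^ 2 * X + Y + 11 / 12 * (e ^ 3 * γ * p)) := by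
    have c1 := mul_le_mul_of_nonneg_left hX (sq_nonneg e)
    exact mul_le_mul_of_nonneg_left (by linarith) (by linarith)
  have h7 : e ^ 2 * (sz * C3 * w) + e * (sz * C3 * w) ^ 2
      ≤ (C3 + C3 ^ 2) * (e ^ 2 * sz * w + e * w ^ 2) := by
    have c1 : sz ^ 2 ≤ 1 := pow_le_one₀ h0 h1
    have c2 : e * (sz * C3 * w) ^ 2 ≤ C3 ^ 2 * (e * w ^ 2) :=
      calc _ = sz ^ 2 * (C3 ^ 2 * (e * w ^ 2)) := by ring
        _ ≤ _ := mul_le_of_le_one_left (by positivity) c1
    have c3 : 0 ≤ C3 * (e * w ^ 2) := by positivity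
    have c4 : 0 ≤ C3 ^ 2 * (e ^ 2 * sz * w) := by positivity
    linarith
  have h8 : vol * u ≤ P := (mul_le_of_le_one_right hvol hu1).trans hP
  have h9 : 0 ≤ (C3 + C3 ^ 2) * (e ^ 2 * sz * w + e * w ^ 2) := by positivity
  have h10 := mul_le_mul_of_nonneg_left ((neg_le_neg h7).trans (h5.trans h6)) (mul_nonneg hvol hu)
  have h11 := mul_le_mul_of_nonneg_right h8 h9
  linarith

theorem al_ge (hn : 3 ≤ n) : 1 / 2 ≤ al n := by
  have : (3 : ℝ) ≤ n := by exact_mod_cast hn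
  rw [al, le_div_iff₀ (by linarith)]; linarith

theorem al_le (hn : 3 ≤ n) : al n ≤ 1 := by
  have : (3 : ℝ) ≤ n := by exact_mod_cast hn
  rw [al, div_le_one (by linarith)]; linarith

theorem eSq_smul (G : MetricField n) (η : E n → ℝ) (EE : VectorField n) (x : E n) :
    eSq G (fun x i => η x * EE x i) x = η x ^ 2 * eSq G EE x := by
  simp only [eSq, vecNormSq, ← mul_div_assoc, Finset.mul_sum]
  congr 1
  exact Finset.sum_congr rfl fun i _ => Finset.sum_congr rfl fun j _ => by ring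

/-! ### the divergence identity -/

section
variable {S : Setup n} {e M z3 : ℝ} {an f z : E n → ℝ}

theorem z_smooth (h : Sl S e M z3 an f z) : ContDiff ℝ ∞ z := h.bdd.choose_spec.2.1

theorem f_smooth (h : Sl S e M z3 an f z) : ContDiff ℝ ∞ f := h.bdd.choose_spec.1.1

theorem div_VE (hK : SymT S.K univ) (h : Sl S e M z3 an f z) (x : E n) :
    divg (gB S e f z) (VE S e f z) x = uu z x * (ph S e f z x *
      (2 * (energyDensity S.g S.K x - Jw S.g S.K x (wv S.g (ph S e f z) f x))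
        + normSqK (gB S e f z) (ZZ S.g (ph S e f z) f S.K) x
        + 2 * bil (gB S e f z x) (qv S.g (ph S e f z) f S.K x) (qv S.g (ph S e f z) f S.K x)
        + (e ^ 3 * f x) ^ 2 + 2 * (e ^ 3 * f x) * traceK S.g S.K x + rhs S e M z3 an f z x
        + 2 * al n * fderiv ℝ z x (qv S.g (ph S e f z) f S.K x)
        + al n * gam (gB S e f z) z z x)
      + 2 * (e ^ 3 * gm' S e f z x * pp' S e f z x)
      + 2 * fderiv ℝ (ph S e f z) x (grad (gB S e f z) z x)) := by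
  have hd := h.jd
  have hx := mem_univ x
  have hz2 : ContDiffAt ℝ 2 z x := (z_smooth h).contDiffAt.of_le (by norm_cast)
  have dz : DifferentiableAt ℝ z x := hz2.differentiableAt (by norm_num)
  have df : DifferentiableAt ℝ f x := (hd.cf hx).differentiableAt (by simp)
  have dq : DifferentiableAt ℝ (qv S.g (ph S e f z) f S.K) x :=
    (hd.c_qv hK hx).differentiableAt (by simp)
  have dg := differentiableAt_grad hd.riemb hx hz2
  have dφ := hd.dφ hx
  have du : HasFDerivAt (uu z) (uu z x • (al n • fderiv ℝ z x)) x :=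
    (dz.hasFDerivAt.const_mul (al n)).exp
  have c2 : DifferentiableAt ℝ (fun _ : E n => (2 : ℝ)) x := differentiableAt_const _
  have h1 := divg_smul hd.riemb hx (dφ.fun_mul du.differentiableAt)
    ((c2.fun_smul dq).fun_add (c2.fun_smul dg))
  rw [divg_add hd.riemb hx (c2.fun_smul dq) (c2.fun_smul dg), divg_smul hd.riemb hx c2 dq,
    divg_smul hd.riemb hx c2 dg, divg_grad, fderiv_fun_mul dφ du.differentiableAt, du.fderiv] at h1
  have h2 := hd.id_E hK hx
  rw [divg_smul hd.riemb hx dφ dq, show Th S.g (ph S e f z) f S.K = fun y => e ^ 3 * f y from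
    funext h.J, fderiv_const_mul df] at h2
  have h3 := h.U x
  have h4 := hd.df_wv hx
  have h5 := gam_eq_fderiv_grad (gB S e f z) z z x
  have hφ := hd.φ_pos x hx
  change divg (gB S e f z) (VE S e f z) x = _ at h1
  simp only [fderiv_fun_const, Pi.zero_apply, zero_apply, add_zero,
    add_apply, smul_apply, smul_eq_mul, map_add,
    map_smul] at h1 h2
  rw [h1, ← h5]
  have h6 : ph S e f z x * ((ph S e f z x * divg (gB S e f z) (qv S.g (ph S e f z) f S.K) x
      + fderiv ℝ (ph S e f z) x (qv S.g (ph S e f z) f S.K x)) / ph S e f z x)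
      = ph S e f z x * divg (gB S e f z) (qv S.g (ph S e f z) f S.K) x
      + fderiv ℝ (ph S e f z) x (qv S.g (ph S e f z) f S.K x) := by field_simp
  linear_combination (uu z x * ph S e f z x) * h3 + (uu z x * ph S e f z x) * h2
    - 2 * uu z x * h6 + 2 * uu z x * e ^ 3 * h4


/-! ### the cut-off functions -/

/-- the penalty profile. -/
abbrev ddx (S : Setup n) (e : ℝ) (f : E n → ℝ) (x : E n) : ℝ :=
  (S.par e 0 0).dd ((S.coef 0).b1 x) ((S.coef 0).b2 x) (e ^ 3 * f x)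

/-- the inner cut-off. -/
def chx (S : Setup n) (e : ℝ) (f : E n → ℝ) (x : E n) : ℝ :=
  (S.coef 0).a1 x - (S.coef 0).a1 x * (S.coef 0).a2 x * (1 - cut (-S.t1) (-S.t1 / 2) (e ^ 3 * f x))

theorem ph_eq (S : Setup n) (e : ℝ) (f z : E n → ℝ) : ph S e f z =
    fun x => e ^ 2 + (1 - e ^ 2) * (chx S e f x * cut (-S.θ / 2) (-S.θ / 4) (z x)) := by
  funext x
  simp only [ph, phi, Par.phiF, Par.chi, Par.Ph, Par.δ, Par.τ, Setup.par, chx]
  ring

theorem chx_mem (S : Setup n) (e : ℝ) (f : E n → ℝ) (x : E n) : chx S e f x ∈ Icc (0 : ℝ) 1 := by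
  simp only [chx, Setup.coef]
  have a1 := cut_nonneg (1 / 4) (1 / 2) (S.s x)
  have a1' := cut_le_one (1 / 4) (1 / 2) (S.s x)
  have a2 := cut_nonneg S.ra S.rb (S.s x)
  have a3 := cut_le_one S.ra S.rb (S.s x)
  have a4 := cut_nonneg (-S.t1) (-S.t1 / 2) (e ^ 3 * f x)
  have a5 := cut_le_one (-S.t1) (-S.t1 / 2) (e ^ 3 * f x)
  have a6 : 0 ≤ (1 - cut S.ra S.rb (S.s x)) * (1 - cut (-S.t1) (-S.t1 / 2) (e ^ 3 * f x)) :=
    mul_nonneg (by linarith) (by linarith)
  have a7 : (1 - cut S.ra S.rb (S.s x)) * (1 - cut (-S.t1) (-S.t1 / 2) (e ^ 3 * f x)) ≤ 1 := by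
    nlinarith
  rw [mul_assoc]
  constructor <;> nlinarith

theorem ph_mem (he : 0 < e) (he1 : e ≤ 1) (x : E n) : ph S e f z x ∈ Icc (e ^ 2) 1 := by
  rw [ph_eq]
  have a1 := chx_mem S e f x
  have a2 := cut_nonneg (-S.θ / 2) (-S.θ / 4) (z x)
  have a3 := cut_le_one (-S.θ / 2) (-S.θ / 4) (z x)
  have a4 : 0 ≤ 1 - e ^ 2 := by nlinarith
  have a5 := mul_nonneg a1.1 a2
  have a6 := mul_le_one₀ a1.2 a2 a3
  constructor <;> nlinarith

theorem ddx_nonneg (x : E n) : 0 ≤ ddx S e f x := by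
  simp only [ddx, Par.dd, Setup.coef, Setup.par]
  have a1 := cut_nonneg 1 S.ra (S.s x)
  have a2 := cut_le_one 1 S.ra (S.s x)
  have a3 := mul_nonneg (cut_nonneg (S.t0 ^ 2) (4 * S.t0 ^ 2) ((e ^ 3 * f x) ^ 2))
    (Bs.eta_nonneg S.R0 x)
  nlinarith

theorem ddx_in (hS : S.OK) {x : E n} (h : S.s x ≤ 1) : ddx S e f x = 1 := by
  simp only [ddx, Par.dd, Setup.coef, cut_zero hS.ra_gt h]; ring

theorem ddx_big (hS : S.OK) {x : E n} (h : ‖x‖ ≤ S.R0) (h2 : 2 * S.t0 ≤ |e ^ 3 * f x|) :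
    ddx S e f x = 1 := by
  have h0 : 0 < S.t0 := hS.par_ok.t0_pos
  have h3 : 4 * S.t0 ^ 2 ≤ (e ^ 3 * f x) ^ 2 := by
    rw [← sq_abs (e ^ 3 * f x)]; nlinarith
  simp only [ddx, Par.dd, Setup.coef, Setup.par, Bs.eta_eq_one (one_pos.trans_le hS.good.R0_ge) h,
    cut_one (show S.t0 ^ 2 < 4 * S.t0 ^ 2 by nlinarith) h3]
  ring

theorem norm_le (hS : S.OK) {x : E n} (h : S.s x < 2) : ‖x‖ ≤ S.R0 := by
  by_contra h'
  exact absurd (hS.good.s_far x (not_le.1 h').le) (not_le.2 h)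

theorem dchx_zero (hS : S.OK) (hf : Continuous f) (x : E n) :
    fderiv ℝ (chx S e f) x = 0 ∨ ddx S e f x = 1 := by
  by_cases h1 : S.s x ≤ 1
  · exact .inr (ddx_in hS h1)
  have hs := hS.good.s_smooth.continuous
  have ht1 : 4 * S.t0 ≤ S.t1 := hS.par_ok.t01
  have ht0 : 0 < S.t0 := hS.par_ok.t0_pos
  have e1 : ∀ᶠ y in 𝓝 x, (S.coef 0).a1 y = 1 := by
    filter_upwards [hs.continuousAt.eventually (lt_mem_nhds (not_le.1 h1))] with y hy
    exact cut_one (by norm_num) (by linarith)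
  by_cases h2 : S.rb < S.s x
  · left
    have : chx S e f =ᶠ[𝓝 x] fun _ => 1 := by
      filter_upwards [e1, hs.continuousAt.eventually (lt_mem_nhds h2)] with y hy hy2
      rw [chx, hy]
      simp only [Setup.coef, cut_one hS.rab hy2.le]; ring
    rw [this.fderiv_eq]; simp
  by_cases h3 : -S.t1 / 2 < e ^ 3 * f x
  · left
    have : chx S e f =ᶠ[𝓝 x] fun _ => 1 := by
      filter_upwards [e1, (continuous_const.mul hf).continuousAt.eventually (lt_mem_nhds h3)]
        with y hy hy2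
      rw [chx, hy, cut_one (show -S.t1 < -S.t1 / 2 by linarith)
        (show -S.t1 / 2 ≤ e ^ 3 * f y from hy2.le)]; ring
    rw [this.fderiv_eq]; simp
  · right
    refine ddx_big hS (norm_le hS ((not_lt.1 h2).trans_lt hS.rb_lt)) ?_
    have := neg_abs_le (e ^ 3 * f x)
    linarith [not_lt.1 h3]

variable {P T0 R : ℝ} {bp : E n → ℝ}

theorem d_chx (hG : Geo S P T0 R bp) (hf : ContDiff ℝ ∞ f) (x : E n) :
    HasFDerivAt (chx S e f) (fderiv ℝ (S.coef 0).a1 x
      - (((S.coef 0).a1 x * (S.coef 0).a2 x) •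
          (-(deriv (cut (-S.t1) (-S.t1 / 2)) (e ^ 3 * f x) • (e ^ 3 • fderiv ℝ f x)))
        + (1 - cut (-S.t1) (-S.t1 / 2) (e ^ 3 * f x)) •
          fderiv ℝ (fun y => (S.coef 0).a1 y * (S.coef 0).a2 y) x)) x := by
  have d1 := (hG.a1_b2.smooth.differentiable (by simp) x).hasFDerivAt
  have d2 := (hG.a12_b2.smooth.differentiable (by simp) x).hasFDerivAt
  have d3 := (hf.differentiable (by simp) x).hasFDerivAt.const_mul (e ^ 3)
  have d4 := ((cut_has (-S.t1) (-S.t1 / 2) (e ^ 3 * f x)).comp_hasFDerivAt x d3).const_sub 1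
  exact d1.fun_sub (d2.fun_mul d4)

theorem dchx_sq (hG : Geo S P T0 R bp) (he : 0 < e) (he1 : e ≤ 1) (h : Sl S e M z3 an f z)
    {Cc : ℝ} (hC : ∀ t, deriv (cut (-S.t1) (-S.t1 / 2)) t ^ 2 ≤ Cc) (x Y : E n) :
    fderiv ℝ (chx S e f) x Y ^ 2 ≤ 3 * (2 * P + Cc) * bil (gB S e f z x) Y Y := by
  have hd := h.jd
  have hx := mem_univ x
  set N := bil (gB S e f z x) Y Y with hN
  have hN0 : 0 ≤ N := bil_self_nonneg hd.riemb hx Y
  have b1 : fderiv ℝ (S.coef 0).a1 x Y ^ 2 ≤ P * N :=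
    (fderiv_sq_le hd.riemb hx _ Y).trans
      (mul_le_mul_of_nonneg_right ((gam_gb_le hd hx _).trans (hG.a1_b2.d_le x)) hN0)
  have b2 : fderiv ℝ (fun y => (S.coef 0).a1 y * (S.coef 0).a2 y) x Y ^ 2 ≤ P * N :=
    (fderiv_sq_le hd.riemb hx _ Y).trans
      (mul_le_mul_of_nonneg_right ((gam_gb_le hd hx _).trans (hG.a12_b2.d_le x)) hN0)
  have hφ := (ph_mem (S := S) (f := f) (z := z) he he1 x).1
  have b3 : (e ^ 3 * fderiv ℝ f x Y) ^ 2 ≤ N := by
    have h1 := fderiv_sq_le hd.riemb hx f Y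
    have h2 := hd.gam_gb_f_f hx
    have h3 := hd.pp_lt_one hx
    have h4 : e ^ 3 ≤ ph S e f z x := le_trans (pow_le_pow_of_le_one he.le he1 (by norm_num)) hφ
    calc (e ^ 3 * fderiv ℝ f x Y) ^ 2 = (e ^ 3) ^ 2 * fderiv ℝ f x Y ^ 2 := by ring
      _ ≤ ph S e f z x ^ 2 * (gam (gB S e f z) f f x * N) := by gcongr
      _ = pp' S e f z x * N := by rw [← mul_assoc, h2]
      _ ≤ N := mul_le_of_le_one_left hN0 h3.le
  rw [(d_chx hG (f_smooth h) x).fderiv]
  simp only [sub_apply, add_apply, smul_apply, neg_apply, smul_eq_mul]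
  set a := (S.coef 0).a1 x * (S.coef 0).a2 x
  have ha : a ^ 2 ≤ 1 := pow_le_one₀ (mul_nonneg (hG.a1_mem x).1 (hG.a2_mem x).1)
    (mul_le_one₀ (hG.a1_mem x).2 (hG.a2_mem x).1 (hG.a2_mem x).2)
  set c := 1 - cut (-S.t1) (-S.t1 / 2) (e ^ 3 * f x)
  have hc : c ^ 2 ≤ 1 := pow_le_one₀ (sub_nonneg.2 (cut_le_one _ _ _))
    (sub_le_self _ (cut_nonneg _ _ _))
  have hCt := hC (e ^ 3 * f x)
  set c' := deriv (cut (-S.t1) (-S.t1 / 2)) (e ^ 3 * f x)
  set u1 := fderiv ℝ (S.coef 0).a1 x Y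
  set u2 := fderiv ℝ (fun y => (S.coef 0).a1 y * (S.coef 0).a2 y) x Y
  set u3 := e ^ 3 * fderiv ℝ f x Y
  have b4 : (c * u2) ^ 2 ≤ P * N := by
    rw [mul_pow]; exact (mul_le_of_le_one_left (sq_nonneg _) hc).trans b2
  have b5 : (a * -(c' * u3)) ^ 2 ≤ Cc * N := by
    rw [mul_pow, neg_sq, mul_pow c']
    exact (mul_le_of_le_one_left (by positivity) ha).trans
      (mul_le_mul hCt b3 (sq_nonneg _) ((sq_nonneg _).trans hCt))
  set v2 := c * u2
  set v3 := a * -(c' * u3)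
  nlinarith [sq_nonneg (u1 + v2), sq_nonneg (u1 + v3), sq_nonneg (v2 - v3)]

theorem sz_zero (hS : S.OK) {t : ℝ} (h : -3 * S.θ / 4 ≤ t) : (S.par e 0 0).sz t = 0 := by
  have h0 : 0 < S.θ := hS.par_ok.θ_pos
  simp only [Par.sz, Setup.par, cut_one (show -S.θ < -3 * S.θ / 4 by linarith) h, sub_self]

theorem sz_mem (t : ℝ) : (S.par e 0 0).sz t ∈ Icc (0 : ℝ) 1 :=
  ⟨sub_nonneg.2 (cut_le_one _ _ _), sub_le_self _ (cut_nonneg _ _ _)⟩

/-- the cut-off error. -/
theorem dphi (hS : S.OK) (hG : Geo S P T0 R bp) (he : 0 < e) (he1 : e ≤ 1) (h : Sl S e M z3 an f z)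
    {Cc : ℝ} (hC : ∀ t, deriv (cut (-S.t1) (-S.t1 / 2)) t ^ 2 ≤ Cc) (x : E n) :
    0 ≤ fderiv ℝ (ph S e f z) x (grad (gB S e f z) z x) ∨ (-S.θ / 2 < z x ∧ ddx S e f x = 1 ∧
      -(ph S e f z x * gam (gB S e f z) z z x / 12 + 12 * (3 * (2 * P + Cc)) / ph S e f z x)
        ≤ 2 * fderiv ℝ (ph S e f z) x (grad (gB S e f z) z x)) := by
  have hd := h.jd
  have hx := mem_univ x
  have h0 : 0 < S.θ := hS.par_ok.θ_pos
  have hab : -S.θ / 2 < -S.θ / 4 := by linarith
  have dz := ((z_smooth h).differentiable (by simp) x).hasFDerivAt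
  have dχ := (d_chx (e := e) hG (f_smooth h) x).differentiableAt.hasFDerivAt
  have d1 := ((dχ.fun_mul ((cut_has (-S.θ / 2) (-S.θ / 4) (z x)).comp_hasFDerivAt x dz)).const_mul
    (1 - e ^ 2)).const_add (e ^ 2)
  have d2 : fderiv ℝ (ph S e f z) x (grad (gB S e f z) z x) = (1 - e ^ 2) * (chx S e f x *
      (deriv (cut (-S.θ / 2) (-S.θ / 4)) (z x) * gam (gB S e f z) z z x)
      + cut (-S.θ / 2) (-S.θ / 4) (z x) * fderiv ℝ (chx S e f) x (grad (gB S e f z) z x)) := by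
    rw [gam_eq_fderiv_grad]
    generalize grad (gB S e f z) z x = Y
    rw [ph_eq]
    erw [d1.fderiv]
    simp only [add_apply, smul_apply, smul_eq_mul, Function.comp_apply]
  have hN := gam_self_nonneg hd.riemb hx z
  have hδ : 0 ≤ 1 - e ^ 2 := by nlinarith
  have p1 : 0 ≤ chx S e f x *
      (deriv (cut (-S.θ / 2) (-S.θ / 4)) (z x) * gam (gB S e f z) z z x) :=
    mul_nonneg (chx_mem S e f x).1 (mul_nonneg (cut_deriv_nonneg hab _) hN)
  by_cases hz : z x ≤ -S.θ / 2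
  · left
    rw [d2, cut_zero hab hz, zero_mul, add_zero]
    exact mul_nonneg hδ p1
  rcases dchx_zero (e := e) hS (f_smooth h).continuous x with h1 | h1
  · left
    rw [d2, h1, zero_apply, mul_zero, add_zero]
    exact mul_nonneg hδ p1
  right
  refine ⟨not_le.1 hz, h1, ?_⟩
  have hφ := hd.φ_pos x hx
  have h2 := dchx_sq hG he he1 h hC x (grad (gB S e f z) z x)
  rw [← gam_eq_bil hd.riemb hx] at h2
  have hC0 : 0 ≤ 3 * (2 * P + Cc) := by linarith [hG.P_ge, (sq_nonneg _).trans (hC 0)]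
  set k := (1 - e ^ 2) * cut (-S.θ / 2) (-S.θ / 4) (z x) with hk
  have hk2 : k ^ 2 ≤ 1 := pow_le_one₀ (mul_nonneg hδ (cut_nonneg _ _ _))
    (mul_le_one₀ (by nlinarith) (cut_nonneg _ _ _) (cut_le_one _ _ _))
  have h3 : (k * fderiv ℝ (chx S e f) x (grad (gB S e f z) z x)) ^ 2 ≤
      (ph S e f z x * gam (gB S e f z) z z x / 12) * (12 * (3 * (2 * P + Cc)) / ph S e f z x) := by
    rw [mul_pow]
    refine (mul_le_of_le_one_left (sq_nonneg _) hk2).trans (h2.trans_eq ?_)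
    field_simp
  have h4 := amgm h3 (by positivity) (by positivity)
  have h5 := mul_nonneg hδ p1
  rw [d2, hk] at *
  linarith

/-- the deficit in the dominant energy condition. -/
theorem deficit (hS : S.OK) (hG : Geo S P T0 R bp) (h : Sl S e M z3 an f z) (hf : FB e T0 f)
    (x : E n) {A : ℝ}
    (hA : A = 2 * (energyDensity S.g S.K x - Jw S.g S.K x (wv S.g (ph S e f z) f x))
      - 25 / 12 * S.mw x - 2 * eSq (gB S e f z) (S.coef 0).EE x
      + 2 * (e ^ 3 * f x) * traceK S.g S.K x) :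
    0 ≤ A ∨ (‖x‖ ≤ S.R0 ∧ ddx S e f x = 1 ∧ -(9 * P + 2 * P ^ 2) ≤ A) := by
  have hd := h.jd
  have hx := mem_univ x
  have hw : bil (S.g x) (wv S.g (ph S e f z) f x) (wv S.g (ph S e f z) f x) ≤ 1 := by
    rw [hd.bil_wv_wv hx]; exact (hd.pp_lt_one hx).le
  have hP := hG.P_ge
  have hmw : 0 ≤ S.mw x := mul_nonneg hS.c1_pos.le (Real.rpow_nonneg (by positivity) _)
  have bad : -(9 * P + 2 * P ^ 2) ≤ A := by
    have b1 := (abs_le.1 (hG.mu_le x)).1
    have b2 := (abs_le.1 (hG.J_le x _ hw)).2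
    have b3 : S.mw x ≤ P := (hG.mw_hi x).trans (mul_le_of_le_one_right (by linarith)
      (Real.rpow_le_one_of_one_le_of_nonpos (by linarith [norm_nonneg x]) (by simp)))
    have b4 := (eSq_gb_le hd hx (S.coef 0).EE).trans (hG.E_le x)
    have b5 : |(e ^ 3 * f x) * traceK S.g S.K x| ≤ P * P := by
      rw [abs_mul]
      exact mul_le_mul ((hf x).trans hG.T0_le) (hG.trK_le x) (abs_nonneg _) (by linarith)
    have b6 := (abs_le.1 b5).1
    rw [hA]; nlinarith
  by_cases h1 : S.s x ≤ 1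
  · exact .inr ⟨norm_le hS (by linarith), ddx_in hS h1, bad⟩
  have g1 := hS.good.dec x (not_le.1 h1).le (wv S.g (ph S e f z) f x) (by rwa [quadForm_eq])
  rw [quadForm_eq, hd.bil_wv_wv hx, ← eSq_gb hd hx] at g1
  have g2 := hS.margin x
  have g3 : eSq (gB S e f z) (S.coef 0).EE x ≤ eSq (gB S e f z) S.EE x := by
    rw [show (S.coef 0).EE = fun x i => eta S.R0 x * S.EE x i from rfl, eSq_smul]
    exact mul_le_of_le_one_left (eSq_nonneg hd.riemb hx _)
      (pow_le_one₀ (Bs.eta_nonneg _ _) (Bs.eta_le_one _ _))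
  have good : -S.mw x ≤ 2 * (e ^ 3 * f x) * traceK S.g S.K x → 0 ≤ A := fun g4 => by
    rw [hA, Jw]; linarith
  by_cases h2 : ‖x‖ ≤ S.R0
  · by_cases h3 : 2 * S.t0 ≤ |e ^ 3 * f x|
    · exact .inr ⟨h2, ddx_big hS h2 h3, bad⟩
    · refine .inl (good ?_)
      have g4 := hS.t0_small x
      have g5 : |e ^ 3 * f x| * |traceK S.g S.K x| ≤ 2 * S.t0 * |traceK S.g S.K x| := by
        gcongr; exact (not_le.1 h3).le
      have g6 := neg_abs_le ((e ^ 3 * f x) * traceK S.g S.K x)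
      rw [abs_mul] at g6
      linarith
  · refine .inl (good ?_)
    have : traceK S.g S.K x = 0 := by simp [traceK, hS.good.K_far x (not_le.1 h2).le]
    rw [this]; linarith

end

end S7a

open S7a in
theorem s7a : S7aStmt := by
  intro n hn S hS P T0 R bp hG
  have hP := hG.P_ge
  have ht0 : 0 < S.t0 := hS.par_ok.t0_pos
  have ht01 : 4 * S.t0 ≤ S.t1 := hS.par_ok.t01
  have hθ : 0 < S.θ := hS.par_ok.θ_pos
  obtain ⟨Cc, hCc, hC⟩ := exists_cut_bound (a := -S.t1) (b := -S.t1 / 2) (by linarith)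
  have hR0 := hS.good.R0_ge
  have p1 : 0 ≤ 3 * (2 * P + Cc) := by positivity
  have p2 : 0 < 9 * P + 2 * P ^ 2 := by positivity
  have p3 : 0 ≤ P + (9 * P + 2 * P ^ 2) * (1 + S.R0) ^ (n : ℝ) := by positivity
  generalize hC3 : P + (9 * P + 2 * P ^ 2) * (1 + S.R0) ^ (n : ℝ) = C3 at p3
  refine ⟨P * (C3 + C3 ^ 2), by positivity,
    min 1 (9 * P + 2 * P ^ 2 + 12 * (3 * (2 * P + Cc)))⁻¹, by positivity, ?_⟩
  intro e he hle M z3 an f z h hf x
  have he1 : e ≤ 1 := hle.trans (min_le_left _ _)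
  have hs : e * (9 * P + 2 * P ^ 2 + 12 * (3 * (2 * P + Cc))) ≤ 1 := by
    have := hle.trans (min_le_right _ _)
    rwa [inv_eq_one_div, le_div_iff₀ (by positivity)] at this
  have hd := h.jd
  have hx := mem_univ x
  have hφ := ph_mem (S := S) (f := f) (z := z) he he1 x
  have hφ0 := hd.φ_pos x hx
  have hA := deficit hS hG h hf x rfl
  have hD := dphi hS hG he he1 h hC x
  have hdd := ddx_nonneg (S := S) (e := e) (f := f) x
  have hZ := normSqK_nonneg hd.riemb hx ((hd.symT_ZZ hG.symK).symm x hx)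
  have hQ := bil_self_nonneg hd.riemb hx (qv S.g (ph S e f z) f S.K x)
  have hN := gam_self_nonneg hd.riemb hx z
  have hq := quad (al_ge hn) (al_le hn) hQ hN (fderiv_sq_le hd.riemb hx z _)
  have hγ := hd.one_le_gm hx
  have hp := hd.pp_nonneg hx
  have hγp := hd.gm_sq_mul hx
  have hu : 0 < uu z x := Real.exp_pos _
  have hvol : 0 < volDensity S.g x := Real.sqrt_pos.2 (det_pos hd.riem hx)
  have hsz := sz_mem (S := S) (e := e) (z x)
  have hw : 0 < (1 + ‖x‖) ^ (-(n : ℝ)) := by positivity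
  have hw2 : (1 + ‖x‖) ^ (-(2 * n : ℝ)) = ((1 + ‖x‖) ^ (-(n : ℝ))) ^ 2 := by
    rw [← Real.rpow_natCast, ← Real.rpow_mul (by positivity)]; congr 1; push_cast; ring
  rw [div_VE hG.symK h x, ed, cost, rhs, hd.volDensity_gb hx, hw2]
  generalize hAe : 2 * (energyDensity S.g S.K x - Jw S.g S.K x (wv S.g (ph S e f z) f x))
      - 25 / 12 * S.mw x - 2 * eSq (gB S e f z) (S.coef 0).EE x
      + 2 * (e ^ 3 * f x) * traceK S.g S.K x = A at hA
  -- the lower bound for the remainder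
  have key : -(P * (C3 + C3 ^ 2) * (e ^ 2 * (S.par e 0 0).sz (z x) * (1 + ‖x‖) ^ (-(n : ℝ))
      + e * ((1 + ‖x‖) ^ (-(n : ℝ))) ^ 2)) ≤ gm' S e f z x * volDensity S.g x * (uu z x *
      (ph S e f z x * (A - (S.par e 0 0).sz (z x) * S.cw x
        + (1 - (S.par e 0 0).sz (z x)) * ((e ^ 6)⁻¹ * ddx S e f x))
      + (ph S e f z x * gam (gB S e f z) z z x / 12
        + 2 * fderiv ℝ (ph S e f z) x (grad (gB S e f z) z x))
      + 11 / 12 * (e ^ 3 * gm' S e f z x * pp' S e f z x))) := by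
    by_cases hz : -3 * S.θ / 4 ≤ z x
    · have h1 := pay0 he he1 p1 p2.le hs hφ.1 hdd hN (hA.imp id fun h => h.2)
        (hD.imp id fun h => h.2)
      rw [sz_zero hS hz, zero_mul, sub_zero, sub_zero, one_mul, ← add_assoc]
      refine le_trans (neg_nonpos.2 (by positivity)) ?_
      have hτ : 0 ≤ 11 / 12 * (e ^ 3 * gm' S e f z x * pp' S e f z x) := by positivity
      have h2 := add_nonneg h1 hτ
      positivity
    · have hz' := not_le.1 hz
      have h1 : ph S e f z x = e ^ 2 := by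
        simp only [ph_eq, cut_zero (show -S.θ / 2 < -S.θ / 4 by linarith)
          (show z x ≤ -S.θ / 2 by linarith), mul_zero, add_zero]
      have h2 := hD.resolve_right fun h => by linarith [h.1]
      have h3 : uu z x ≤ 1 := Real.exp_le_one_iff.2
        (mul_nonpos_of_nonneg_of_nonpos (by linarith [al_ge hn]) (by linarith))
      have h4 := pay2 (Rn := (1 + S.R0) ^ (n : ℝ)) he he1 p1 p2.le hs hsz.1 hsz.2 hdd hw.le
        (by positivity) (hG.cw_hi x) (hA.imp id fun h => ⟨by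
          rw [Real.rpow_neg (by positivity), ← div_eq_mul_inv, one_le_div (by positivity)]
          have := h.1
          gcongr, h.2⟩)
      rw [hC3] at h4
      have h5 := pay3 (Y := ph S e f z x * gam (gB S e f z) z z x / 12
        + 2 * fderiv ℝ (ph S e f z) x (grad (gB S e f z) z x)) he hγ hγp hsz.1 hsz.2 hw.le p3 h4
        (by positivity) hvol.le hu.le h3 (hG.vol_hi x)
      exact h5.trans_eq (by rw [← h1])
  have hrest : 0 ≤ gm' S e f z x * volDensity S.g x * (uu z x * (ph S e f z x * (11 / 12 *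
      normSqK (gB S e f z) (ZZ S.g (ph S e f z) f S.K) x + (2 * bil (gB S e f z x)
        (qv S.g (ph S e f z) f S.K x) (qv S.g (ph S e f z) f S.K x)
      + 2 * al n * fderiv ℝ z x (qv S.g (ph S e f z) f S.K x) + al n * gam (gB S e f z) z z x
      - ((bil (gB S e f z x) (qv S.g (ph S e f z) f S.K x) (qv S.g (ph S e f z) f S.K x)
        + gam (gB S e f z) z z x) / 12 + gam (gB S e f z) z z x / 12)))
      + e ^ 3 * pp' S e f z x * (gm' S e f z x - ph S e f z x))) := by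
    have c1 := sub_nonneg.2 hq
    have c2 : 0 ≤ gm' S e f z x - ph S e f z x := by linarith [hφ.2]
    positivity
  rw [← hAe] at key
  linear_combination key + hrest

end Crest.Agent.N346.Bd

end
end

-- ▼ part N346/Bd/S7d
section

/-!
Row 346, Bd-S7d (helper16): without anchor the flux of `u = exp (α z / 2)` is at most the cost.
-/

set_option autoImplicit false

open MeasureTheory Filter Set
open scoped ContDiff Topology
open Crest.GeometryTopology.CoordMetric Crest.MathPhysics.ExteriorData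
open Crest.Agent.R202.Tens Crest.Agent.R247.Bo84 Crest.Agent.N346.Id Crest.Agent.N346.P1

noncomputable section

namespace Crest.Agent.N346.Bd.S7dx

variable {n : ℕ}

theorem integrable_of_far {F G : E n → ℝ} (hF : Continuous F) (hG : Integrable G) {R : ℝ}
    (h : ∀ x, R ≤ ‖x‖ → |F x| ≤ G x) : Integrable F := by
  rw [← integrableOn_univ, ← union_compl_self (Metric.closedBall (0 : E n) R)]
  refine (hF.continuousOn.integrableOn_compact (isCompact_closedBall _ _)).union ?_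
  refine Integrable.mono' hG.integrableOn hF.aestronglyMeasurable ?_
  refine (ae_restrict_iff' Metric.isClosed_closedBall.measurableSet.compl).2 (.of_forall ?_)
  intro x hx
  exact h x (le_of_lt (by simpa using hx))

theorem exp_sub_le {a b B : ℝ} (ha : a ≤ B) (hb : b ≤ B) :
    |Real.exp a - Real.exp b| ≤ Real.exp B * |a - b| := by
  wlog h : b ≤ a generalizing a b
  · rw [abs_sub_comm, abs_sub_comm a]; exact this hb ha (le_of_not_ge h)
  rw [abs_of_nonneg (sub_nonneg.2 (Real.exp_le_exp.2 h)), abs_of_nonneg (sub_nonneg.2 h)]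
  have h1 := Real.add_one_le_exp (b - a)
  have h2 : Real.exp b = Real.exp a * Real.exp (b - a) := by rw [← Real.exp_add]; congr 1; ring
  have h3 := Real.exp_pos a
  have h4 := mul_le_mul_of_nonneg_right (Real.exp_le_exp.2 ha) (sub_nonneg.2 h)
  nlinarith

theorem abs_le_of_sq {q A B : ℝ} (hA : 0 ≤ A) (hB : 0 ≤ B) (h : q ^ 2 ≤ A * B) : |q| ≤ A + B :=
  abs_le_of_sq_le_sq (by nlinarith [mul_nonneg hA hB]) (by positivity)

theorem flux_le {u c : E n → ℝ} {V : VectorField n} {a : ℝ} (ha0 : 0 ≤ a) (ha : a ≤ 1)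
    (hu : ContDiff ℝ ∞ u) (hV : ∀ i, ContDiff ℝ ∞ fun x => V x i) (hc : Integrable c)
    (hc0 : ∀ x, 0 ≤ c x) (hd : ∀ x, -c x ≤ divE V x)
    (hW : ∀ i, Integrable fun x => (pderiv i u x - a * V x i) / (1 + ‖x‖)) :
    FluxLE u (∫ x, c x) := by
  intro ε hε
  have cW : ∀ i, Continuous fun x => pderiv i u x - a * V x i := fun i =>
    (Bs.contDiff_pd hu i).continuous.sub (continuous_const.mul (hV i).continuous)
  have h1 := tendsto_finsetSum Finset.univ fun i _ =>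
    Bs.tendsto_integral_pd_eta (cW i).aestronglyMeasurable (hW i) i
  rw [Finset.sum_const_zero] at h1
  refine eventually_atTop.1 ?_
  filter_upwards [h1.eventually (gt_mem_nhds hε), eventually_gt_atTop 0] with R h2 hR
  have hs := Bs.hasCompactSupport_eta (n := n) hR
  have ce := Bs.contDiff_eta (n := n) R
  have it : ∀ i {F : E n → ℝ}, Continuous F → Integrable fun x => pderiv i (eta R) x * F x :=
    fun i F hF => ((Bs.contDiff_pd ce i).continuous.mul hF).integrable_of_hasCompactSupport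
      (Bs.hasCompactSupport_pd hs i).mul_right
  have e1 : flux u R = (∑ i, ∫ x, pderiv i (eta R) x * (pderiv i u x - a * V x i))
      + a * ∫ x, ∑ i, pderiv i (eta R) x * V x i := by
    rw [← integral_finsetSum _ fun i _ => it i (cW i), ← integral_const_mul, ← integral_add
      (integrable_finsetSum _ fun i _ => it i (cW i))
      ((integrable_finsetSum _ fun i _ => it i (hV i).continuous).const_mul a), flux]
    refine integral_congr_ae (.of_forall fun x => ?_)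
    simp only [Finset.mul_sum, ← Finset.sum_add_distrib]
    exact Finset.sum_congr rfl fun i _ => by ring
  have e2 := Bs.integral_eta_divE hR fun i => Bs.smooth_one (hV i)
  have h3 : ∫ x, -c x ≤ ∫ x, eta R x * divE V x := by
    refine integral_mono hc.neg ((ce.continuous.mul
      (Bs.contDiff_divE hV).continuous).integrable_of_hasCompactSupport hs.mul_right) fun x => ?_
    have := Bs.eta_nonneg R x
    have := Bs.eta_le_one R x
    have := hc0 x
    have := hd x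
    show -c x ≤ eta R x * divE V x
    nlinarith
  rw [integral_neg] at h3
  have h4 : 0 ≤ ∫ x, c x := integral_nonneg hc0
  rw [e1]
  nlinarith

theorem point {g K : MetricField n} {φ f z : E n → ℝ} {x : E n} {P C ψ α t : ℝ}
    (hn : 3 ≤ n) (hd : Jd g φ f univ) (hK : SymT K univ) (hP : 0 ≤ P)
    (lo : ∀ Y, ‖Y‖ ^ 2 ≤ P * bil (g x) Y Y) (hi : ∀ Y, bil (g x) Y Y ≤ P * ‖Y‖ ^ 2)
    (hg : g x = Real.exp (2 * ψ) • (1 : Matrix (Fin n) (Fin n) ℝ)) (α0 : 0 ≤ α) (α1 : α ≤ 1)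
    (hC : 0 ≤ C) (t1 : t ≤ 1) (h1 : |z x| ≤ C * t) (h2 : Real.log (gm g φ f x) ≤ C * t)
    (h3 : |ψ| ≤ C * t) {B Γ : ℝ} (hB : B = (n + 2) * C) (hΓ : Γ = Real.exp B) (i : Fin n) :
    pderiv i z x ^ 2 ≤ P * Γ ^ 2 * gam (gb g φ f) z z x ∧
    |Real.exp (α * z x / 2) * pderiv i z x - volDensity (gb g φ f) x * (Real.exp (α * z x) *
      (qv g φ f K x i + grad (gb g φ f) z x i))| / (1 + ‖x‖) ≤
      (Γ * B * t / (1 + ‖x‖)) ^ 2 + (P * Γ ^ 2 + Γ ^ 3) * gam (gb g φ f) z z x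
        + P * Γ ^ 3 * normSqK (gb g φ f) (ZZ g φ f K) x + Γ * (1 + P) * pp g φ f x := by
  have hx := mem_univ x
  have hn3 : (3 : ℝ) ≤ n := by exact_mod_cast hn
  have hγ := hd.gm_pos hx
  have hγ1 := hd.one_le_gm hx
  have hl := Real.log_nonneg hγ1
  have hCt : C * t ≤ C := mul_le_of_le_one_right hC t1
  have hCt0 : 0 ≤ C * t := hl.trans h2
  have hz := abs_le.1 h1
  have hψ := abs_le.1 h3
  have hαz : |α * z x| ≤ C * t := by
    rw [abs_mul, abs_of_nonneg α0]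
    exact (mul_le_of_le_one_left (abs_nonneg _) α1).trans h1
  have hαz' := abs_le.1 hαz
  have n1 : (n - 2) * ψ ≤ (n - 2) * (C * t) := mul_le_mul_of_nonneg_left hψ.2 (by linarith)
  have n2 : (n - 2) * -(C * t) ≤ (n - 2) * ψ := mul_le_mul_of_nonneg_left hψ.1 (by linarith)
  have n3 : (n - 2) * (C * t) ≤ (n - 2) * C := mul_le_mul_of_nonneg_left hCt (by linarith)
  have n4 : 0 ≤ (n - 2) * (C * t) := mul_nonneg (by linarith) hCt0
  have n5 : B * t = (n + 2) * (C * t) := by rw [hB]; ring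
  have hγΓ : gm g φ f x ≤ Γ := by
    rw [hΓ, ← Real.exp_log hγ]
    exact Real.exp_le_exp.2 (by linarith)
  have hΓ0 : 0 < Γ := hγ.trans_le hγΓ
  have hG := gam_self_nonneg hd.riemb hx z
  have hN := normSqK_nonneg hd.riemb hx ((hd.symT_ZZ hK).symm x hx)
  have hp := hd.pp_nonneg hx
  have hp1 := (hd.pp_lt_one hx).le
  have hgz : gam g z z x ≤ Γ ^ 2 * gam (gb g φ f) z z x := (gam_le_gb hd hx z).trans (by gcongr)
  have k1 : pderiv i z x ^ 2 ≤ P * Γ ^ 2 * gam (gb g φ f) z z x := by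
    rw [← sq_abs, mul_assoc]
    exact (pow_le_pow_left₀ (abs_nonneg _) (Bs.abs_pd_le i z x) 2).trans
      ((norm_sq_le_gam hd.riem hx hP hi z).trans (by gcongr))
  refine ⟨k1, ?_⟩
  have hvol : volDensity g x = Real.exp (n * ψ) := by
    rw [volDensity, hg, Matrix.det_smul, Matrix.det_one, mul_one, Fintype.card_fin,
      ← Real.exp_nat_mul, Real.sqrt_eq_iff_mul_self_eq (Real.exp_pos _).le (Real.exp_pos _).le,
      ← Real.exp_add]
    congr 1; ring
  have hgr : grad g z x i = Real.exp (-(2 * ψ)) * pderiv i z x := by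
    have : (g x)⁻¹ = Real.exp (-(2 * ψ)) • (1 : Matrix (Fin n) (Fin n) ℝ) := by
      refine Matrix.inv_eq_left_inv ?_
      rw [hg, Matrix.smul_mul, Matrix.one_mul, smul_smul, ← Real.exp_add]
      simp
    simp [grad_apply, inverseField, this, Matrix.one_apply]
  obtain ⟨V, hV⟩ : ∃ V, V = volDensity (gb g φ f) x * Real.exp (α * z x) := ⟨_, rfl⟩
  have eV : V = Real.exp (Real.log (gm g φ f x) + n * ψ + α * z x) := by
    rw [hV, hd.volDensity_gb hx, hvol, Real.exp_add, Real.exp_add, Real.exp_log hγ]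
  have hV0 : 0 < V := eV ▸ Real.exp_pos _
  have hVΓ : V ≤ Γ := by
    rw [eV, hΓ]
    exact Real.exp_le_exp.2 (by linarith)
  obtain ⟨δ, hδ⟩ : ∃ δ, δ = Real.exp (α * z x / 2) - V * Real.exp (-(2 * ψ)) := ⟨_, rfl⟩
  have kδ : |δ| ≤ Γ * B * t := by
    rw [hδ, eV, ← Real.exp_add]
    refine (exp_sub_le (B := B) (by linarith) (by linarith)).trans ?_
    rw [← hΓ, mul_assoc]
    exact mul_le_mul_of_nonneg_left (abs_le.2 ⟨by linarith, by linarith⟩) hΓ0.le
  have comp : ∀ Y : E n, Y i ^ 2 ≤ P * bil (g x) Y Y := fun Y => by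
    rw [← sq_abs]
    exact (pow_le_pow_left₀ (abs_nonneg _) (PiLp.norm_apply_le Y i) 2).trans (lo Y)
  have kq : |qv g φ f K x i| ≤ P * Γ ^ 2 * normSqK (gb g φ f) (ZZ g φ f K) x + pp g φ f x := by
    refine abs_le_of_sq (by positivity) hp ((comp _).trans ?_)
    have q0 := bil_self_nonneg hd.riemb hx (qv g φ f K x)
    have q1 := bil_sq_le_normSq hd.riemb hx ((hd.symT_ZZ hK).symm x hx) (wv g φ f x) (qv g φ f K x)
    rw [← hd.gb_qv hK hx, gb_wv_wv hd hx] at q1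
    have q2 : bil (gb g φ f x) (qv g φ f K x) (qv g φ f K x)
        ≤ normSqK (gb g φ f) (ZZ g φ f K) x * (gm g φ f x ^ 2 * pp g φ f x) := by
      rcases q0.eq_or_lt with q0 | q0
      · rw [← q0]; positivity
      · exact le_of_mul_le_mul_right (by linarith) q0
    calc _ ≤ P * (normSqK (gb g φ f) (ZZ g φ f K) x * (Γ ^ 2 * pp g φ f x)) :=
          mul_le_mul_of_nonneg_left ((hd.bil_le_gb hx _).trans (q2.trans (by gcongr))) hP
      _ = _ := by ring
  have kw : |fderiv ℝ z x (wv g φ f x) * wv g φ f x i|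
      ≤ Γ ^ 2 * gam (gb g φ f) z z x + P * pp g φ f x := by
    refine abs_le_of_sq (by positivity) (by positivity) ?_
    have w1 := comp (wv g φ f x)
    rw [hd.bil_wv_wv hx] at w1
    rw [mul_pow]
    exact mul_le_mul ((fderiv_wv_sq_le hd hx z).trans ((mul_le_of_le_one_left
      (gam_self_nonneg hd.riem hx z) hp1).trans hgz)) w1 (sq_nonneg _) (by positivity)
  have hr : 0 < 1 + ‖x‖ := by positivity
  have kd : |δ * pderiv i z x| / (1 + ‖x‖)
      ≤ (Γ * B * t / (1 + ‖x‖)) ^ 2 + P * Γ ^ 2 * gam (gb g φ f) z z x := by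
    rw [← abs_of_pos hr, ← abs_div, abs_of_pos hr]
    refine abs_le_of_sq (sq_nonneg _) (by positivity) ?_
    rw [mul_div_right_comm, mul_pow]
    refine mul_le_mul ?_ k1 (sq_nonneg _) (sq_nonneg _)
    rw [div_pow, div_pow, ← sq_abs δ]
    gcongr
  have e : Real.exp (α * z x / 2) * pderiv i z x - volDensity (gb g φ f) x * (Real.exp (α * z x) *
      (qv g φ f K x i + grad (gb g φ f) z x i)) = δ * pderiv i z x
        + V * (fderiv ℝ z x (wv g φ f x) * wv g φ f x i - qv g φ f K x i) := by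
    rw [hd.grad_gb hx, PiLp.sub_apply, PiLp.smul_apply, hgr, hδ, hV, smul_eq_mul]
    ring
  have k2 : |V * (fderiv ℝ z x (wv g φ f x) * wv g φ f x i - qv g φ f K x i)| / (1 + ‖x‖)
      ≤ Γ * (Γ ^ 2 * gam (gb g φ f) z z x + P * pp g φ f x
        + (P * Γ ^ 2 * normSqK (gb g φ f) (ZZ g φ f K) x + pp g φ f x)) := by
    refine (div_le_self (abs_nonneg _) (by linarith [norm_nonneg x])).trans ?_
    rw [abs_mul, abs_of_pos hV0]
    exact mul_le_mul hVΓ ((abs_sub _ _).trans (add_le_add kw kq)) (abs_nonneg _) hΓ0.le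
  rw [e]
  refine (div_le_div_of_nonneg_right (abs_add_le _ _) hr.le).trans ?_
  rw [add_div]
  refine (add_le_add kd k2).trans (le_of_eq ?_)
  ring

theorem cut_one {a b t : ℝ} (hab : a < b) (h : b ≤ t) : cut a b t = 1 :=
  Real.smoothTransition.one_of_one_le ((one_le_div (by linarith)).2 (by linarith))

theorem div_rpow_le {ρ r a : ℝ} (hρ : 0 ≤ ρ) (hr : 1 ≤ r) (ha : 0 ≤ a) :
    (ρ / r) ^ a ≤ (2 * ρ) ^ a * (1 + r) ^ (-a) := by
  rw [Real.rpow_neg (by positivity), ← div_eq_mul_inv, ← Real.div_rpow (by positivity)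
    (by positivity)]
  refine Real.rpow_le_rpow (by positivity) ?_ ha
  rw [div_le_div_iff₀ (by positivity) (by positivity)]
  nlinarith

theorem decay (hn : 3 ≤ n) {S : Setup n} (hS : S.OK) {e M z3 T0 : ℝ} {an f z : E n → ℝ}
    (he : 0 < e) (hs : Sl S e M z3 an f z) (h0 : ∀ x, an x = 0) (hF : FF S e f z T0) :
    ∃ C R : ℝ, 0 ≤ C ∧ S.R0 ≤ R ∧ ∀ x, R ≤ ‖x‖ → ph S e f z x = 1 ∧
      |z x| ≤ C * (1 + ‖x‖) ^ (-a0 n) ∧ Real.log (gm' S e f z x) ≤ C * (1 + ‖x‖) ^ (-a0 n) ∧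
      |S.ψ x| ≤ C * (1 + ‖x‖) ^ (-a0 n) := by
  have hn3 : (3 : ℝ) ≤ n := by exact_mod_cast hn
  have ha : 0 ≤ a0 n := by unfold a0; linarith
  have hθ : 0 < S.θ := hS.par_ok.θ_pos
  obtain ⟨B, -, hz, -⟩ := hs.bdd
  obtain ⟨R', hR'⟩ := hs.anch (S.θ / 4) (by positivity)
  have cψ : Continuous (psi S e f z) :=
    (continuous_iff_continuousAt.2 fun x => (hs.jd.c_gm (mem_univ x)).continuousAt).mul
      (Real.continuous_exp.comp (continuous_const.mul hz.continuous))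
  obtain ⟨M', hM'⟩ := (isCompact_sphere (0 : E n) (e⁻¹ ^ 5)).exists_bound_of_continuousOn
    cψ.continuousOn
  have hp := hF.pfar (max M' 1) (le_max_right _ _) fun x hx => by
    have := (le_abs_self _).trans (hM' x (by simpa using hx))
    linarith [le_max_left M' 1]
  obtain ⟨C1, hC1⟩ : ∃ C1, C1 = max M' 1 * (2 * e⁻¹ ^ 5) ^ a0 n := ⟨_, rfl⟩
  obtain ⟨C2, hC2⟩ : ∃ C2, C2 = S.θ * (2 * e⁻¹ ^ 4) ^ a0 n := ⟨_, rfl⟩
  have p1 : 0 ≤ C1 := by rw [hC1]; positivity
  have p2 : 0 ≤ C2 := by rw [hC2]; positivity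
  have p3 : 0 ≤ S.C := zero_le_one.trans hS.good.C_ge
  refine ⟨C1 + 2 * C2 + S.C, max (max S.R0 R') (max (e⁻¹ ^ 4) (e⁻¹ ^ 5)), by positivity,
    (le_max_left _ _).trans (le_max_left _ _), fun x hx => ?_⟩
  simp only [max_le_iff] at hx
  obtain ⟨⟨x1, x2⟩, x3, x4⟩ := hx
  have hr := hS.good.R0_ge.trans x1
  have ht : 0 ≤ (1 + ‖x‖) ^ (-a0 n) := by positivity
  have z1 : -(C2 * (1 + ‖x‖) ^ (-a0 n)) ≤ z x := by
    refine le_trans (neg_le_neg ?_) (hF.zfar x x3)
    rw [hC2, mul_assoc]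
    exact mul_le_mul_of_nonneg_left (div_rpow_le (by positivity) hr ha) hθ.le
  have hγ := hs.jd.gm_pos (mem_univ x)
  have hl := Real.log_nonneg (hs.jd.one_le_gm (mem_univ x))
  have z2 : Real.log (gm' S e f z x) + 2 * z x ≤ C1 * (1 + ‖x‖) ^ (-a0 n) := by
    rw [← Real.exp_le_exp, Real.exp_add, Real.exp_log hγ]
    refine (hp x x4).trans (le_trans ?_ (Real.add_one_le_exp _))
    rw [hC1, mul_assoc, add_comm]
    gcongr
    exact div_rpow_le (by positivity) hr ha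
  have q1 := mul_nonneg p1 ht
  have q2 := mul_nonneg p2 ht
  have q3 := mul_nonneg p3 ht
  refine ⟨?_, abs_le.2 ⟨by linarith, by linarith⟩, by linarith, ?_⟩
  · have s2 := hS.good.s_far x x1
    have hz4 : |z x| < S.θ / 4 := lt_of_not_ge fun h => zero_ne_one ((h0 x).symm.trans (hR' x x2 h))
    have c1 : cut (1 / 4) (1 / 2) (S.s x) = 1 := cut_one (by norm_num) (by linarith)
    have c2 : cut S.ra S.rb (S.s x) = 1 := cut_one hS.rab (by linarith [hS.rb_lt])
    have c3 : cut (-S.θ / 2) (-S.θ / 4) (z x) = 1 :=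
      cut_one (by linarith) (by linarith [(abs_lt.1 hz4).1])
    simp only [ph, phi, Par.phiF, Par.chi, Par.Ph, Setup.par, Setup.coef, c1, c2, c3]
    ring
  · have h := hS.good.ψ_decay 0 (by norm_num) x
    rw [norm_iteratedFDeriv_zero, Real.norm_eq_abs] at h
    have h2 : (1 + ‖x‖) ^ (2 - (n : ℝ) - ((0 : ℕ) : ℝ)) ≤ (1 + ‖x‖) ^ (-a0 n) :=
      Real.rpow_le_rpow_of_exponent_le (by linarith) (by unfold a0; push_cast; linarith)
    have := mul_le_mul_of_nonneg_left h2 p3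
    linarith

end Crest.Agent.N346.Bd.S7dx

namespace Crest.Agent.N346.Bd
open S7dx

theorem s7d : S7dStmt := by
  intro P1 n hn S hS P T0 R bp hG
  refine ⟨1, one_pos, fun e he _ M z3 an f z hs h0 hF hE hc hc0 hed => ?_⟩
  have hn3 : (3 : ℝ) ≤ n := by exact_mod_cast hn
  have ha : 0 ≤ a0 n := by unfold a0; linarith
  have α0 : 0 ≤ al n := div_nonneg (by linarith) (by linarith)
  have α1 : al n ≤ 1 := (div_le_one (by linarith)).2 (by linarith)
  have hP : 0 < P := by linarith [hG.P_ge]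
  obtain ⟨C, R1, hC, hR1, hdec⟩ := decay hn hS he hs h0 hF
  obtain ⟨B, -, hz, -⟩ := hs.bdd
  have hd := hs.jd
  have hK := hG.symK
  have hvb := Bs.volDensity_pos hd.riemb
  have hN := fun x => normSqK_nonneg hd.riemb (mem_univ x) ((hd.symT_ZZ hK).symm x trivial)
  have hq := fun x => bil_self_nonneg hd.riemb (mem_univ x) (qv S.g (ph S e f z) f S.K x)
  have hg := fun x => gam_self_nonneg hd.riemb (mem_univ x) z
  have hp := fun x => hd.pp_nonneg (mem_univ x)
  have hγ := fun x => hd.one_le_gm (mem_univ x)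
  have hm : ∀ x, 0 ≤ S.mw x := fun x => le_trans (by positivity) (hG.mw_lo x)
  have hu : ∀ x, 0 < uu z x := fun x => Real.exp_pos _
  have hφ := fun x => hd.φ_pos x trivial
  have hed0 : ∀ x, 0 ≤ ed S e f z x := fun x => by
    have := hvb x; have := hN x; have := hq x; have := hg x; have := hp x; have := hγ x
    have := hm x; have := hu x; have := hφ x
    unfold ed
    positivity
  obtain ⟨D, hD0, hD⟩ : ∃ D, 0 ≤ D ∧ ∀ x, R1 ≤ ‖x‖ →
      gam (gB S e f z) z z x ≤ D * ed S e f z x ∧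
      normSqK (gB S e f z) (ZZ S.g (ph S e f z) f S.K) x ≤ D * ed S e f z x ∧
      pp' S e f z x ≤ D * ed S e f z x := by
    refine ⟨P * Real.exp 1 * (1 + (e ^ 3)⁻¹), by positivity, fun x hx => ?_⟩
    have v1 : P⁻¹ ≤ volDensity (gB S e f z) x := by
      rw [hd.volDensity_gb trivial]
      exact (hG.vol_lo x).trans (le_mul_of_one_le_left (Bs.volDensity_pos hd.riem x).le (hγ x))
    have v2 : (Real.exp 1)⁻¹ ≤ uu z x := by
      rw [← Real.exp_neg]
      have h1 := hF.zlo x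
      have h2 : S.θ ≤ 1 := hS.par_ok.θ_le
      exact Real.exp_le_exp.2 (by nlinarith)
    have v3 : P⁻¹ * ((Real.exp 1)⁻¹ * (normSqK (gB S e f z) (ZZ S.g (ph S e f z) f S.K) x
        + gam (gB S e f z) z z x + e ^ 3 * pp' S e f z x)) ≤ ed S e f z x := by
      have := hN x; have := hg x; have := hp x
      refine mul_le_mul v1 (mul_le_mul v2 ?_ (by positivity) (hu x).le) (by positivity) (hvb x).le
      rw [(hdec x hx).1, one_mul]
      have : e ^ 3 * pp' S e f z x ≤ e ^ 3 * gm' S e f z x * pp' S e f z x := by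
        rw [mul_assoc]
        exact mul_le_mul_of_nonneg_left (le_mul_of_one_le_left (hp x) (hγ x)) (by positivity)
      linarith [hq x, hm x]
    rw [← mul_assoc, ← mul_inv, inv_mul_le_iff₀ (by positivity)] at v3
    have v4 : 0 ≤ e ^ 3 * pp' S e f z x := mul_nonneg (by positivity) (hp x)
    have v5 : 0 ≤ P * Real.exp 1 * ed S e f z x := mul_nonneg (by positivity) (hed0 x)
    have v6 : 0 ≤ (e ^ 3)⁻¹ * (P * Real.exp 1 * ed S e f z x) := by positivity
    have v7 : pp' S e f z x ≤ (e ^ 3)⁻¹ * (P * Real.exp 1 * ed S e f z x) := by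
      rw [le_inv_mul_iff₀ (by positivity)]
      linarith [hN x, hg x]
    exact ⟨by linarith [hN x], by linarith [hg x], by linarith⟩
  obtain ⟨B', hB⟩ : ∃ B', B' = (n + 2) * C := ⟨_, rfl⟩
  obtain ⟨Γ, hΓ⟩ : ∃ Γ, Γ = Real.exp B' := ⟨_, rfl⟩
  have hΓ0 : 0 < Γ := hΓ ▸ Real.exp_pos _
  have key := fun x (hx : R1 ≤ ‖x‖) => point (K := S.K) (z := z) hn hd hK hP.le (hG.g_lo x)
    (hG.g_hi x) (hS.good.g_far x (hR1.trans hx)) α0 α1 hC
    (Real.rpow_le_one_of_one_le_of_nonpos (by linarith [norm_nonneg x]) (neg_nonpos.2 ha))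
    (hdec x hx).2.1 (hdec x hx).2.2.1 (hdec x hx).2.2.2 hB hΓ
  refine ⟨integrable_finsetSum _ fun i _ => integrable_of_far ((Bs.contDiff_pd hz i).continuous.pow 2)
    (hed.const_mul (P * Γ ^ 2 * D)) (R := R1) fun x hx => ?_, ?_⟩
  · rw [abs_of_nonneg (sq_nonneg _), mul_assoc]
    exact (key x hx i).1.trans (mul_le_mul_of_nonneg_left (hD x hx).1 (by positivity))
  have cu : ContDiff ℝ ∞ fun x => Real.exp (al n * z x / 2) :=
    ((contDiff_const.mul hz).div_const 2).exp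
  have cV : ∀ i, ContDiff ℝ ∞ fun x => volDensity (gB S e f z) x * VE S e f z x i := fun i => by
    refine (Bs.contDiff_volDensity hd.riemb).mul ((EuclideanSpace.proj (𝕜 := ℝ) i).contDiff.comp
      (f := VE S e f z) (contDiff_iff_contDiffAt.2 fun x => ?_))
    exact ((hd.cφ trivial).mul (contDiff_const.mul hz).exp.contDiffAt).smul
      (((hd.c_qv hK trivial).const_smul 2).add
        ((contDiffAt_grad hd.riemb trivial hz.contDiffAt (by simp) le_rfl).const_smul 2))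
  refine flux_le (V := fun x i => volDensity (gB S e f z) x * VE S e f z x i) (a := al n / 4)
    (by positivity) (by linarith) cu cV hc hc0 (fun x => ?_) fun i => ?_
  · have h1 := hE x
    have h2 : volDensity (gB S e f z) x * divg (gB S e f z) (VE S e f z) x
        = divE (fun x i => volDensity (gB S e f z) x * VE S e f z x i) x := by
      rw [divg, ← mul_assoc]
      exact (congrArg (· * _) (mul_one_div_cancel (hvb x).ne')).trans (one_mul _)
    have h3 : 0 ≤ (S.par e M z3).vt (z x) := by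
      have c1 : cut (-S.θ - 2) (-S.θ - 1) (z x) = 1 :=
        cut_one (by linarith) (by linarith [hF.zlo x])
      simp only [Par.vt, Setup.par, c1, sub_self, mul_zero, zero_add]
      exact mul_nonneg hs.M_nonneg (Real.smoothTransition.nonneg _)
    rw [h2, h0, zero_mul, zero_add] at h1
    have := mul_nonneg (hvb x).le (mul_nonneg (mul_pos (hφ x) (hu x)).le h3)
    linarith [hed0 x]
  · have i1 : Integrable fun x : E n => (1 + ‖x‖) ^ (-(2 * a0 n + 2)) :=
      integrable_one_add_norm (by rw [finrank_euclideanSpace_fin]; unfold a0; linarith)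
    refine integrable_of_far (((Bs.contDiff_pd cu i).continuous.sub
      (continuous_const.mul (cV i).continuous)).div (by fun_prop) fun x => by positivity)
      ((i1.const_mul ((Γ * B') ^ 2)).add
        (hed.const_mul ((P * Γ ^ 2 + Γ ^ 3 + P * Γ ^ 3 + Γ * (1 + P)) * D))) (R := R1)
      fun x hx => ?_
    have hr : 0 < 1 + ‖x‖ := by positivity
    have e1 : pderiv i (fun x => Real.exp (al n * z x / 2)) x
        = Real.exp (al n * z x / 2) * (al n / 2) * pderiv i z x := by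
      rw [Bs.pd_comp (θ := fun s => Real.exp (al n * s / 2))
        (θ' := Real.exp (al n * z x / 2) * (al n / 2)) _ (Bs.smooth_diff hz x)]
      simpa using (((hasDerivAt_id (z x)).const_mul (al n)).div_const 2).exp
    have e2 : pderiv i (fun x => Real.exp (al n * z x / 2)) x
        - al n / 4 * (volDensity (gB S e f z) x * VE S e f z x i) = al n / 2 *
        (Real.exp (al n * z x / 2) * pderiv i z x - volDensity (gB S e f z) x *
          (Real.exp (al n * z x) * (qv S.g (ph S e f z) f S.K x i + grad (gB S e f z) z x i))) := by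
      simp only [e1, VE, uu, (hdec x hx).1, PiLp.smul_apply, PiLp.add_apply, smul_eq_mul]
      ring
    have e3 : (Γ * B' * (1 + ‖x‖) ^ (-a0 n) / (1 + ‖x‖)) ^ 2
        = (Γ * B') ^ 2 * (1 + ‖x‖) ^ (-(2 * a0 n + 2)) := by
      rw [mul_div_assoc, mul_pow, ← Real.rpow_sub_one hr.ne', ← Real.rpow_natCast (_ ^ _),
        ← Real.rpow_mul hr.le]
      congr 2
      push_cast
      ring
    have k := (key x hx i).2
    obtain ⟨d1, d2, d3⟩ := hD x hx
    rw [e3] at k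
    rw [abs_div, abs_of_pos hr, e2, abs_mul, mul_div_assoc]
    refine (mul_le_of_le_one_left (by positivity)
      (abs_le.2 ⟨by linarith, by linarith⟩)).trans (k.trans ?_)
    have m1 := mul_le_mul_of_nonneg_left d1 (show 0 ≤ P * Γ ^ 2 + Γ ^ 3 by positivity)
    have m2 := mul_le_mul_of_nonneg_left d2 (show 0 ≤ P * Γ ^ 3 by positivity)
    have m3 := mul_le_mul_of_nonneg_left d3 (show 0 ≤ Γ * (1 + P) by positivity)
    simp only [Pi.add_apply]
    linarith

end Crest.Agent.N346.Bd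

end
end

-- ▼ part N346/Bd/Top

/-! Row 346, Part 1 (helper11): assembly of `EstStmt` and `EnStmt` from the barrier leaves. -/

set_option autoImplicit false

open MeasureTheory Filter Set
open scoped ContDiff Topology
open Crest.GeometryTopology.CoordMetric Crest.MathPhysics.ExteriorData
open Crest.Agent.R202.Tens Crest.Agent.R247.Bo84 Crest.Agent.N346.Id Crest.Agent.N346.P1

noncomputable section

namespace Crest.Agent.N346.Bd

namespace TopA

variable {n : ℕ}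

theorem cut_nonneg (a b t : ℝ) : 0 ≤ cut a b t := Real.smoothTransition.nonneg _

theorem cut_le_one (a b t : ℝ) : cut a b t ≤ 1 := Real.smoothTransition.le_one _

theorem contDiff_cut (a b : ℝ) {u : E n → ℝ} (hu : ContDiff ℝ ∞ u) :
    ContDiff ℝ ∞ fun x => cut a b (u x) :=
  Real.smoothTransition.contDiff.comp ((hu.sub contDiff_const).div_const _)

theorem sl_of_sol {S : Setup n} (hS : S.OK) {e M z3 : ℝ} {an f z : E n → ℝ} (he : 0 < e)
    (he1 : e ≤ 1) (hM : 0 ≤ M) (hz3 : 0 ≤ z3) (h1 : ∀ x, an x ∈ Icc (0 : ℝ) 1)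
    (h2 : ∀ x, ‖x‖ ≤ 2 * e⁻¹ ^ 5 → an x = 0)
    (h3 : ∀ m > 0, ∃ R' : ℝ, ∀ x, R' ≤ ‖x‖ → m ≤ |z x| → an x = 1) {B : ℕ → ℝ} (hf : Bdd B f)
    (hz : Bdd B z) (h : S.Sol e M z3 an f z) : Sl S e M z3 an f z := by
  have e1 : (S.coef an).gt 1 = S.g := by funext x; simp [Coef.gt, Setup.coef]
  have e2 : (S.coef an).Kt 1 = S.K := by funext x; simp [Coef.Kt, Setup.coef]
  have e3 : phi (S.par e M z3) (S.coef an) 1 f z = ph S e f z := rfl
  refine ⟨hM, hz3, h1, h2, h3, ⟨B, hf, hz⟩, ⟨hS.good.riem, ?_, hf.1.contDiffOn, fun x _ => ?_⟩,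
    fun x => ?_, fun x => ?_⟩
  · have hs := hS.good.s_smooth
    refine ContDiff.contDiffOn ?_
    exact contDiff_const.add (contDiff_const.mul ((contDiff_const.add ((contDiff_const.mul
      ((contDiff_cut _ _ hs).mul (contDiff_const.sub ((contDiff_const.sub (contDiff_cut _ _ hs)).mul
        (contDiff_const.sub (contDiff_cut _ _ (contDiff_const.mul hf.1))))))).mul
      (contDiff_cut _ _ hz.1))).sub contDiff_const))
  · simp only [ph, phi, Par.phiF, Par.chi, Par.Ph, Par.δ, Setup.par, Setup.coef]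
    have a1 := cut_nonneg (1 / 4) (1 / 2) (S.s x)
    have a2 := cut_nonneg S.ra S.rb (S.s x)
    have a3 := cut_le_one S.ra S.rb (S.s x)
    have a4 := cut_nonneg (-S.t1) (-S.t1 / 2) (Par.τ ⟨S.θ, S.t0, S.t1, e, 0, 0⟩ * f x)
    have a5 := cut_le_one (-S.t1) (-S.t1 / 2) (Par.τ ⟨S.θ, S.t0, S.t1, e, 0, 0⟩ * f x)
    have a6 := cut_nonneg (-S.θ / 2) (-S.θ / 4) (z x)
    have a7 : 0 ≤ 1 - e ^ 2 := by nlinarith
    have a8 : 0 ≤ 1 - (1 - cut S.ra S.rb (S.s x)) *
        (1 - cut (-S.t1) (-S.t1 / 2) (Par.τ ⟨S.θ, S.t0, S.t1, e, 0, 0⟩ * f x)) := by nlinarith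
    have a9 := mul_nonneg (mul_nonneg a7 (mul_nonneg a1 a8)) a6
    have a10 : 0 < e ^ 2 := by positivity
    linarith
  · have := h.jang x
    rwa [e1, e2, e3] at this
  · have := h.conf x
    simp only [gbar, GG, TT, e1, e3] at this
    rw [this]
    simp only [rhs, Par.τ, Par.sz, Par.dd, Setup.par, Setup.coef]
    ring

theorem a0_ge (hn : 3 ≤ n) : 3 / 4 ≤ a0 n := by
  have : (3 : ℝ) ≤ n := by exact_mod_cast hn
  unfold a0; linarith

theorem a0_le (n : ℕ) : a0 n ≤ n := by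
  have : (0 : ℝ) ≤ n := Nat.cast_nonneg n
  unfold a0; linarith

theorem pow_div_rpow (hn : 3 ≤ n) {X r : ℝ} (hX : 1 ≤ X) (hr : 0 < r) (k : ℕ) :
    (X ^ k / r) ^ a0 n ≤ X ^ (k * n) * r ^ (-a0 n) := by
  rw [Real.div_rpow (by positivity) hr.le, Real.rpow_neg hr.le, div_eq_mul_inv, pow_mul,
    ← Real.rpow_natCast (X ^ k) n]
  have := a0_ge hn
  gcongr
  · exact one_le_pow₀ hX
  · exact a0_le n

/-- everything that the leaves give for a bounded solution -/
theorem all_est (s1 : S1Stmt) (s2 : S2Stmt) (s3 : S3Stmt) (s4 : S4Stmt) (s5 : S5Stmt)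
    (s6 : S6Stmt) (s7a : S7aStmt) (s7b : S7bStmt) (s7c : S7cStmt) (hn : 3 ≤ n) {S : Setup n}
    (hS : S.OK) {P T0 R : ℝ} {bp : E n → ℝ} (hG : Geo S P T0 R bp) :
    ∃ P1 ≥ (0 : ℝ), ∃ e1 > (0 : ℝ), ∀ e, 0 < e → e ≤ e1 → ∀ (M z3 : ℝ) (an f z : E n → ℝ),
      Sl S e M z3 an f z → FF S e f z T0 ∧ (∀ x, S.s x ≤ S.ra → e ^ 3 * f x ≤ -S.t1) ∧
      EI S e f z M z3 an P1 ∧ Integrable (cost S e z P1) ∧ ∫ x, cost S e z P1 x ≤ √e ∧
      Integrable (ed S e f z) ∧ ∫ x, ed S e f z x ≤ e⁻¹ ^ (5 * n) := by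
  obtain ⟨P1, hP1, ea, hea, ha⟩ := s7a n hn S hS P T0 R bp hG
  obtain ⟨e1, he1, h1⟩ := s1 n hn S hS P T0 R bp hG
  obtain ⟨e2, he2, h2⟩ := s2 n hn S hS P T0 R bp hG
  obtain ⟨e3, he3, h3⟩ := s3 n hn S hS P T0 R bp hG
  obtain ⟨e4, he4, h4⟩ := s4 n hn S hS P T0 R bp hG
  obtain ⟨e5, he5, h5⟩ := s5 n hn S hS P T0 R bp hG
  obtain ⟨e6, he6, h6⟩ := s6 n hn S hS P T0 R bp hG
  obtain ⟨eb, heb, hb⟩ := s7b P1 hP1 n hn S hS P T0 R bp hG
  obtain ⟨ec, hec, hc⟩ := s7c P1 n hn S hS P T0 R bp hG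
  refine ⟨P1, hP1, min (min (min e1 e2) (min e3 e4)) (min (min e5 e6) (min (min ea eb) (min ec 1))),
    by positivity, fun e he hle M z3 an f z h => ?_⟩
  simp only [le_min_iff] at hle
  obtain ⟨⟨⟨l1, l2⟩, l3, l4⟩, ⟨l5, l6⟩, ⟨la, lb⟩, lc, l0⟩ := hle
  have zlo := h1 e he l1 M z3 an f z h
  have zfar := h3 e he l3 M z3 an f z h zlo
  obtain ⟨fb, ffar⟩ := h4 e he l4 M z3 an f z h zfar
  have gfar := h5 e he l5 M z3 an f z h zfar fb
  have ff : FF S e f z T0 := ⟨zlo, zfar, fb, ffar, gfar, h6 e he l6 M z3 an f z h zfar ffar gfar⟩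
  have ei := ha e he la M z3 an f z h fb
  obtain ⟨ci, cl⟩ := hb e he lb M z3 an f z h zfar
  exact ⟨ff, h2 e he l2 M z3 an f z h, ei, ci, cl,
    hc e he lc M z3 an f z h ff ei ci (cl.trans (Real.sqrt_le_one.2 l0))⟩

end TopA

open TopA in
theorem top : TopStmt := by
  intro hgeo s1 s2 s3 s4 s5 s6 s7a s7b s7c s7d dg s8
  constructor
  · intro n hn S hS
    obtain ⟨P, T0, R, bp, hG⟩ := hgeo n hn S hS
    obtain ⟨P1, -, e1, he1, h1⟩ := all_est s1 s2 s3 s4 s5 s6 s7a s7b s7c hn hS hG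
    obtain ⟨N, e2, he2, h2⟩ := s8 dg n hn S hS P T0 R bp hG
    have hP := hG.P_ge
    refine ⟨N + 5 * n + 8, min (min e1 e2) P⁻¹, by positivity,
      fun e he hle M hM z3 hz3 L hL B f z hsol hf hz => ?_⟩
    simp only [le_min_iff] at hle
    obtain ⟨⟨l1, l2⟩, l3⟩ := hle
    rw [← inv_pow] at hL ⊢
    have hXP : P ≤ e⁻¹ := (le_inv_comm₀ he (by linarith)).1 l3
    have hX2 : 2 ≤ e⁻¹ := hP.trans hXP
    have he1' : e ≤ 1 := by
      have := (le_inv_comm₀ two_pos he).1 hX2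
      linarith
    have hX1 : 1 ≤ e⁻¹ := by linarith
    have hpow : ∀ k ≤ N + 5 * n + 8, e⁻¹ ^ k ≤ e⁻¹ ^ (N + 5 * n + 8) := fun k hk =>
      pow_le_pow_right₀ hX1 hk
    have hmul : ∀ (j k : ℕ), 2 ^ j * e⁻¹ ^ k ≤ e⁻¹ ^ (j + k) := fun j k => by
      rw [pow_add]; gcongr
    have h5 : 2 * e⁻¹ ^ 5 ≤ e⁻¹ ^ (N + 5 * n + 8) := by
      simpa using (hmul 1 5).trans (hpow _ (by omega))
    have h4 : 16 * e⁻¹ ^ 4 ≤ e⁻¹ ^ (N + 5 * n + 8) := by
      have := (hmul 4 4).trans (hpow _ (by omega))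
      norm_num at this ⊢
      exact this
    have h40 : 0 < e⁻¹ ^ 4 := by positivity
    have h50 : 0 < e⁻¹ ^ 5 := by positivity
    have hL0 : 0 < L := lt_of_lt_of_le (by positivity) hL
    have hsl : Sl S e M z3 (fun x => 1 - eta L x) f z := sl_of_sol hS he he1' hM hz3
      (fun x => ⟨by linarith [Bs.eta_le_one L x], by linarith [Bs.eta_nonneg L x]⟩)
      (fun x hx => by rw [Bs.eta_eq_one hL0 (by linarith), sub_self])
      (fun m _ => ⟨2 * L, fun x hx _ => by rw [Bs.eta_eq_zero hL0 hx, sub_zero]⟩) hf hz hsol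
    obtain ⟨ff, inner, -, -, -, ei, el⟩ := h1 e he l1 M z3 _ f z hsl
    have hψ := h2 e he l2 M z3 _ f z hsl ff ei el
    have hγ : ∀ x, 1 ≤ gm' S e f z x := fun x => hsl.jd.one_le_gm (mem_univ x)
    have hexp : ∀ x, Real.exp (2 * z x) ≤ psi S e f z x := fun x =>
      le_mul_of_one_le_left (Real.exp_pos _).le (hγ x)
    have hθ0 := hS.par_ok.θ_pos
    have hθ1 := hS.par_ok.θ_le
    simp only [Setup.par] at hθ0 hθ1
    refine ⟨ff.zlo, fun x => ?_, fun x => ?_, inner, fun x hx => ?_, fun x hx => ?_, fun x hx => ?_⟩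
    · rcases le_total (z x) 0 with h0 | h0
      · exact (Real.exp_le_one_iff.2 h0).trans (one_le_pow₀ hX1)
      · exact (Real.exp_le_exp.2 (by linarith)).trans
          ((hexp x).trans ((hψ x).trans (hpow _ (by omega))))
    · have i1 : gm' S e f z x = psi S e f z x * Real.exp (-(2 * z x)) := by
        rw [psi, mul_assoc, ← Real.exp_add]; simp
      have i2 : Real.exp (-(2 * z x)) ≤ 2 ^ 4 := by
        have := ff.zlo x
        calc _ ≤ Real.exp (1 + 1) := Real.exp_le_exp.2 (by linarith)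
          _ ≤ 3 * 3 := by
            rw [Real.exp_add]
            have := Real.exp_one_lt_d9
            gcongr <;> linarith
          _ ≤ _ := by norm_num
      change gm' S e f z x ≤ _
      rw [i1]
      calc _ ≤ e⁻¹ ^ N * 2 ^ 4 := mul_le_mul (hψ x) i2 (Real.exp_pos _).le (by positivity)
        _ ≤ _ := by rw [mul_comm]; exact (hmul 4 N).trans (hpow _ (by omega))
    · have i1 := ff.zfar x (by linarith)
      have hx0 : 0 < ‖x‖ := by linarith
      have i2 : (e⁻¹ ^ 4 / ‖x‖) ^ a0 n ≤ 1 / 4 := by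
        have j1 : e⁻¹ ^ 4 / ‖x‖ ≤ (1 / 4) ^ 2 := by rw [div_le_iff₀ hx0]; linarith
        calc _ ≤ (((1 : ℝ) / 4) ^ 2) ^ a0 n := by have := a0_ge hn; gcongr
          _ ≤ (((1 : ℝ) / 4) ^ 2) ^ ((2 : ℕ) : ℝ)⁻¹ :=
            Real.rpow_le_rpow_of_exponent_ge (by norm_num) (by norm_num)
              (by have := a0_ge hn; norm_num; linarith)
          _ = _ := Real.pow_rpow_inv_natCast (by norm_num) two_ne_zero
      nlinarith
    · have i1 := ff.ffar x (by linarith)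
      have hT : 0 ≤ T0 := (abs_nonneg _).trans (hG.trK_T x)
      rw [abs_mul, abs_of_pos (by positivity : 0 < e ^ 3), ← le_inv_mul_iff₀ (by positivity),
        ← inv_pow, ← mul_assoc] at i1
      refine i1.trans (mul_le_mul ?_ (Real.exp_le_exp.2 ?_) (Real.exp_pos _).le (by positivity))
      · calc _ ≤ e⁻¹ ^ 3 * e⁻¹ := by gcongr; exact hG.T0_le.trans hXP
          _ ≤ _ := by rw [← pow_succ]; exact hpow _ (by omega)
      · have : 0 < e ^ 2 := by positivity
        nlinarith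
    · have hx0 : 0 < ‖x‖ := by linarith
      have i0 : 0 ≤ ‖x‖ ^ (-a0 n) := by positivity
      change |z x| ≤ _ * ‖x‖ ^ (-a0 n)
      rw [abs_le]
      constructor
      · have i1 := ff.zfar x (by linarith)
        have i2 := pow_div_rpow hn hX1 hx0 4
        have i3 := mul_le_mul_of_nonneg_right (hpow (4 * n) (by omega)) i0
        have i4 : 0 ≤ (e⁻¹ ^ 4 / ‖x‖) ^ a0 n := by positivity
        nlinarith
      · have i1 := ff.pfar (e⁻¹ ^ N) (one_le_pow₀ hX1) (fun y _ => by linarith [hψ y]) x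
          (by linarith)
        have i2 := mul_le_mul_of_nonneg_left (pow_div_rpow hn hX1 hx0 5)
          (show 0 ≤ e⁻¹ ^ N by positivity)
        rw [← mul_assoc, ← pow_add] at i2
        have i3 := mul_le_mul_of_nonneg_right (hpow (N + 5 * n) (by omega)) i0
        have i4 := Real.add_one_le_exp (2 * z x)
        have i5 := hexp x
        have i6 : 0 ≤ e⁻¹ ^ (N + 5 * n + 8) * ‖x‖ ^ (-a0 n) := by positivity
        linarith
  · intro n hn S hS ε hε N
    obtain ⟨P, T0, R, bp, hG⟩ := hgeo n hn S hS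
    obtain ⟨P1, hP1, e1, he1, h1⟩ := all_est s1 s2 s3 s4 s5 s6 s7a s7b s7c hn hS hG
    obtain ⟨e2, he2, h2⟩ := s7d P1 n hn S hS P T0 R bp hG
    refine ⟨min (min e1 e2) (min 1 (ε ^ 2)), by positivity,
      fun e he hle M hM z3 hz3 B f z hsol hf hz hest => ?_⟩
    simp only [le_min_iff] at hle
    obtain ⟨⟨l1, l2⟩, l3, l4⟩ := hle
    have hsl : Sl S e M z3 (fun _ => 0) f z := by
      refine sl_of_sol hS he l3 hM hz3 (fun _ => ⟨le_rfl, zero_le_one⟩) (fun _ _ => rfl)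
        (fun m hm => ?_) hf hz hsol
      have ht := (tendsto_rpow_neg_atTop (show 0 < a0 n by linarith [a0_ge hn])).const_mul (e ^ N)⁻¹
      rw [mul_zero] at ht
      obtain ⟨R', hR'⟩ := eventually_atTop.1 (ht.eventually (gt_mem_nhds hm))
      exact ⟨max R' (e ^ N)⁻¹, fun x hx hmz => absurd (hmz.trans
        (hest.far_z x ((le_max_right _ _).trans hx))) (hR' _ ((le_max_left _ _).trans hx)).not_ge⟩
    obtain ⟨ff, -, ei, ci, cl, di, -⟩ := h1 e he l1 M z3 _ f z hsl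
    obtain ⟨r1, r2⟩ := h2 e he l2 M z3 _ f z hsl (fun _ => rfl) ff ei ci (fun x => by
      have : 0 ≤ (S.par e 0 0).sz (z x) := sub_nonneg.2 (cut_le_one _ _ _)
      unfold cost
      positivity) di
    exact ⟨r1, r2.mono (cl.trans (Real.sqrt_le_iff.2 ⟨hε.le, l4⟩))⟩

end Crest.Agent.N346.Bd

end
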