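import Crest.Agent.N346.Bd.WDefs

-- ▼ part N346/Bd/W1
section

/-!
Row 346, Part 1 (helper71): the `W`-inequality, part 1: norms, algebra, the integrals `II`.
-/

set_option autoImplicit false

open MeasureTheory Filter Set
open scoped ContDiff Topology
open Crest.GeometryTopology.CoordMetric Crest.MathPhysics.ExteriorData
open Crest.Agent.R202.Tens Crest.Agent.R247.Bo84 Crest.Agent.N346.Id Crest.Agent.N346.P1

noncomputable section

namespace Crest.Agent.N346.Bd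

variable {n : ℕ}

/-- a symmetric nonnegative bilinear form -/
structure IP (b : E n →L[ℝ] E n →L[ℝ] ℝ) : Prop where
  symm : ∀ Y Z, b Y Z = b Z Y
  nonneg : ∀ Y, 0 ≤ b Y Y
  cs : ∀ Y Z, b Y Z ^ 2 ≤ b Y Y * b Z Z

theorem ip_bil {G : MetricField n} {U : Set (E n)} {x : E n} (hG : IsRiemannianOn G U)
    (hx : x ∈ U) : IP (bil (G x)) :=
  ⟨bil_symm hG hx, bil_self_nonneg hG hx, bil_sq_le hG hx⟩

/-- the seminorm of a form -/
def nb (b : E n →L[ℝ] E n →L[ℝ] ℝ) (Y : E n) : ℝ := √(b Y Y)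

namespace IP
variable {b : E n →L[ℝ] E n →L[ℝ] ℝ} (h : IP b) {Y Z w : E n} {c p : ℝ}
include h

omit h in
theorem nb_nonneg (b : E n →L[ℝ] E n →L[ℝ] ℝ) (Y : E n) : 0 ≤ nb b Y := Real.sqrt_nonneg _

theorem nb_sq (Y : E n) : nb b Y ^ 2 = b Y Y := Real.sq_sqrt (h.nonneg Y)

theorem abs_b (Y Z : E n) : |b Y Z| ≤ nb b Y * nb b Z := by
  rw [nb, nb, ← Real.sqrt_mul (h.nonneg Y)]
  exact Real.abs_le_sqrt (h.cs Y Z)

omit h in
theorem nb_le (hc : 0 ≤ c) (hY : b Y Y ≤ c ^ 2) : nb b Y ≤ c := Real.sqrt_le_iff.2 ⟨hc, hY⟩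

theorem nb_add (Y Z : E n) : nb b (Y + Z) ≤ nb b Y + nb b Z := by
  refine nb_le (add_nonneg (nb_nonneg _ _) (nb_nonneg _ _)) ?_
  have h1 := (abs_le.1 (h.abs_b Y Z)).2
  simp only [map_add, add_apply]
  rw [h.symm Z Y]
  nlinarith [h.nb_sq Y, h.nb_sq Z]

omit h in
theorem nb_smul (c : ℝ) (Y : E n) : nb b (c • Y) = |c| * nb b Y := by
  simp only [nb, map_smul, smul_apply, smul_eq_mul]
  rw [← mul_assoc, Real.sqrt_mul (mul_self_nonneg c), Real.sqrt_mul_self_eq_abs]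

theorem nb_sub (Y Z : E n) : nb b (Y - Z) ≤ nb b Y + nb b Z := by
  have := h.nb_add Y ((-1 : ℝ) • Z)
  rwa [nb_smul, neg_one_smul, ← sub_eq_add_neg, abs_neg, abs_one, one_mul] at this

omit h in
theorem nb_smul_le {B : ℝ} (h0 : 0 ≤ c) (hB : c ≤ B) (Y : E n) : nb b (c • Y) ≤ B * nb b Y := by
  rw [nb_smul, abs_of_nonneg h0]
  have := nb_nonneg b Y
  gcongr

theorem key (h1 : p ≤ 1) (hw : (1 - p) * b w w = p) (Y : E n) :
    (1 - p) * b Y w ^ 2 ≤ p * b Y Y := by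
  have := h.cs Y w
  calc _ ≤ (1 - p) * (b Y Y * b w w) := by gcongr
    _ = b Y Y * ((1 - p) * b w w) := by ring
    _ = _ := by rw [hw, mul_comm]

/-- `|Π Y| ≤ |Y|` -/
theorem nb_Pi (h0 : 0 ≤ p) (h1 : p ≤ 1) (hw : (1 - p) * b w w = p) (Y : E n) :
    nb b (p • Y - ((1 - p) * b Y w) • w) ≤ nb b Y := by
  refine nb_le (nb_nonneg _ _) ?_
  rw [h.nb_sq]
  simp only [map_sub, map_smul, sub_apply, smul_apply, smul_eq_mul]
  rw [h.symm w Y]
  have h2 := h.nonneg Y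
  have h3 : (1 - p) * b Y w * ((1 - p) * b Y w * b w w) = p * ((1 - p) * b Y w ^ 2) := by
    rw [show (1 - p) * b Y w * ((1 - p) * b Y w * b w w)
      = (1 - p) * b Y w ^ 2 * ((1 - p) * b w w) by ring, hw]; ring
  have h4 : 0 ≤ p * ((1 - p) * b Y w ^ 2) :=
    mul_nonneg h0 (mul_nonneg (by linarith) (sq_nonneg _))
  have h5 : p * p * b Y Y ≤ b Y Y := by
    have : p * p ≤ 1 := mul_le_one₀ h1 h0 h1
    nlinarith
  nlinarith

/-- `|(1-p) ⟨Y, w⟩ w| ≤ |Y|` -/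
theorem nb_aw (h0 : 0 ≤ p) (h1 : p ≤ 1) (hw : (1 - p) * b w w = p) (Y : E n) :
    nb b (((1 - p) * b Y w) • w) ≤ nb b Y := by
  refine nb_le (nb_nonneg _ _) ?_
  rw [h.nb_sq]
  simp only [map_smul, smul_apply, smul_eq_mul]
  have h2 := h.nonneg Y
  have h3 : (1 - p) * b Y w * ((1 - p) * b Y w * b w w) = p * ((1 - p) * b Y w ^ 2) := by
    rw [show (1 - p) * b Y w * ((1 - p) * b Y w * b w w)
      = (1 - p) * b Y w ^ 2 * ((1 - p) * b w w) by ring, hw]; ring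
  have h4 := h.key h1 hw Y
  have h5 : p * (p * b Y Y) ≤ b Y Y := by
    have : p * p ≤ 1 := mul_le_one₀ h1 h0 h1
    nlinarith
  rw [h3]
  exact (mul_le_mul_of_nonneg_left h4 h0).trans h5

/-- `|(1-p) ⟨Y, w⟩| ≤ |Y|` -/
theorem abs_a (h0 : 0 ≤ p) (h1 : p ≤ 1) (hw : (1 - p) * b w w = p) (Y : E n) :
    |(1 - p) * b Y w| ≤ nb b Y := by
  refine Real.abs_le_sqrt ?_
  have h4 := h.key h1 hw Y
  have h2 := h.nonneg Y
  calc _ = (1 - p) * ((1 - p) * b Y w ^ 2) := by ring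
    _ ≤ (1 - p) * (p * b Y Y) := by gcongr
    _ = ((1 - p) * p) * b Y Y := by ring
    _ ≤ 1 * b Y Y := by gcongr; nlinarith
    _ = _ := one_mul _

/-- the quadratic form of the `W`-inequality -/
theorem quad {v : ℝ} (h0 : 0 ≤ p) (h1 : p ≤ 1) (hw : (1 - p) * b w w = p) (hv : 0 ≤ v) (Z : E n) :
    4 * b Z Z ≤ b ((2 : ℝ) • Z + v • (p • Z - ((1 - p) * b Z w) • w))
      ((2 : ℝ) • Z + v • (p • Z - ((1 - p) * b Z w) • w) + (p * v) • Z) := by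
  set N := p • Z - ((1 - p) * b Z w) • w with hN
  have h2 : 0 ≤ b Z N := by
    have := h.key h1 hw Z
    simp only [hN, map_sub, map_smul, smul_eq_mul]
    nlinarith
  have h3 := h.nonneg N
  have h4 := h.nonneg Z
  simp only [map_add, map_smul, add_apply, smul_apply, smul_eq_mul]
  rw [h.symm N Z]
  have h5 := mul_nonneg hv h2
  have h6 := mul_nonneg (mul_nonneg hv hv) h3
  have h7 := mul_nonneg (mul_nonneg h0 hv) h4
  have h8 := mul_nonneg (mul_nonneg h0 hv) h5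
  nlinarith

omit h in
theorem core_real {B y ζ e1 e2 a1 a2 : ℝ} (hB : 1 ≤ B) (hy : 0 ≤ y) (hζ : 0 ≤ ζ)
    (p1 : 0 ≤ e1) (p2 : 0 ≤ e2) (p3 : 0 ≤ a1) (p4 : 0 ≤ a2) (n1 : e1 ≤ y + 2 * B ^ 2)
    (n2 : e2 ≤ y + 3 * B ^ 2) (n3 : a1 ≤ 3 * B * ζ) (n4 : a2 ≤ 4 * B * ζ) :
    e1 + a1 ≤ 4 * B ^ 2 * (1 + y + ζ) ∧ e1 * e2 ≤ 9 * B ^ 4 * (1 + y) ^ 2 ∧
      e1 * a2 ≤ 12 * B ^ 3 * (1 + y) * ζ ∧ a1 * e2 ≤ 12 * B ^ 3 * (1 + y) * ζ := by
  have hB0 : 0 ≤ B := by linarith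
  have hBB : B ≤ B ^ 2 := by nlinarith
  have hB2 : 1 ≤ B ^ 2 := by nlinarith
  have a4 : B * ζ ≤ B ^ 2 * ζ := by gcongr
  have a5 : y ≤ B ^ 2 * y := by nlinarith
  have a6 := mul_nonneg hB0 hζ
  have m2 : e2 ≤ 3 * B ^ 2 * (1 + y) := by nlinarith
  have m1 : e1 ≤ 3 * B ^ 2 * (1 + y) := by nlinarith
  have m3 : a1 ≤ 4 * B * ζ := by linarith
  refine ⟨by nlinarith, ?_, ?_, ?_⟩
  · calc _ ≤ (3 * B ^ 2 * (1 + y)) * (3 * B ^ 2 * (1 + y)) := by gcongr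
      _ = _ := by ring
  · calc _ ≤ (3 * B ^ 2 * (1 + y)) * (4 * B * ζ) := by gcongr
      _ = _ := by ring
  · calc _ ≤ (4 * B * ζ) * (3 * B ^ 2 * (1 + y)) := by gcongr
      _ = _ := by ring

/-- The algebraic core: lower bound of `⟨Q, Q - pV⟩` and upper bounds for `|V|, |Q|`. -/
theorem core {B vz vc κ : ℝ} {Q V X : E n} (hB : 1 ≤ B) (h0 : 0 ≤ p) (h1 : p ≤ 1)
    (hw : (1 - p) * b w w = p) (vz0 : 0 ≤ vz) (vz1 : vz ≤ B) (vc0 : 0 ≤ vc) (vc1 : vc ≤ B)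
    (κ0 : 0 ≤ κ) (κ1 : κ ≤ B) (hX : nb b X ≤ B) (hV : V = vz • Z + vc • X)
    (hY : Y = (2 : ℝ) • Z + (p • V + (Q - ((1 - p) * b V w) • w)) + κ • X) :
    nb b V ≤ B ^ 2 * (1 + nb b Y + nb b Z) ∧ nb b Q ≤ 4 * B ^ 2 * (1 + nb b Y + nb b Z) ∧
    4 * nb b Z ^ 2 - 9 * B ^ 4 * (1 + nb b Y) ^ 2 - 24 * B ^ 3 * (1 + nb b Y) * nb b Z
      ≤ b Q Q - p * b Q V := by
  have hy := nb_nonneg b Y
  have hζ := nb_nonneg b Z
  have hB0 : 0 ≤ B := by linarith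
  have hBX : B * nb b X ≤ B ^ 2 := by rw [pow_two]; gcongr
  have q := h.quad h0 h1 hw vz0 Z
  have n1 := h.nb_Pi h0 h1 hw Z
  have n2 := h.nb_Pi h0 h1 hw X
  obtain ⟨NZ, hNZ⟩ : ∃ N, N = p • Z - ((1 - p) * b Z w) • w := ⟨_, rfl⟩
  obtain ⟨NX, hNX⟩ : ∃ N, N = p • X - ((1 - p) * b X w) • w := ⟨_, rfl⟩
  rw [← hNZ] at q n1
  rw [← hNX] at n2
  obtain ⟨A, hA⟩ : ∃ A, A = (2 : ℝ) • Z + vz • NZ := ⟨_, rfl⟩
  obtain ⟨E1, hE1⟩ : ∃ A, A = Y - vc • NX - κ • X := ⟨_, rfl⟩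
  rw [← hA] at q
  obtain ⟨A', hA'⟩ : ∃ A', A' = A + (p * vz) • Z := ⟨_, rfl⟩
  obtain ⟨E2, hE2⟩ : ∃ A', A' = E1 - (p * vc) • X := ⟨_, rfl⟩
  rw [← hA'] at q
  have hQ : Q = E1 - A := by
    rw [hE1, hA, hY, hNZ, hNX, hV]
    simp only [map_add, map_smul, add_apply, smul_apply, smul_eq_mul]
    module
  have hQV : Q - p • V = E2 - A' := by
    rw [hQ, hV, hE2, hA']; module
  have pz : p * vz ≤ B := (mul_le_of_le_one_left vz0 h1).trans vz1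
  have pc : p * vc ≤ B := (mul_le_of_le_one_left vc0 h1).trans vc1
  have hBζ : nb b Z ≤ B * nb b Z := le_mul_of_one_le_left hζ hB
  have nA : nb b A ≤ 3 * B * nb b Z := by
    have a1 := h.nb_add ((2 : ℝ) • Z) (vz • NZ)
    have a2 := nb_smul_le (b := b) (c := 2) (B := 2) (by norm_num) le_rfl Z
    have a3 := nb_smul_le (b := b) vz0 vz1 NZ
    have a4 : B * nb b NZ ≤ B * nb b Z := by gcongr
    rw [hA]; linarith
  have nA' : nb b A' ≤ 4 * B * nb b Z := by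
    have a1 := h.nb_add A ((p * vz) • Z)
    have a2 := nb_smul_le (b := b) (mul_nonneg h0 vz0) pz Z
    rw [hA']; linarith
  have nE : nb b E1 ≤ nb b Y + 2 * B ^ 2 := by
    have a1 := h.nb_sub (Y - vc • NX) (κ • X)
    have a2 := h.nb_sub Y (vc • NX)
    have a3 := nb_smul_le (b := b) vc0 vc1 NX
    have a4 := nb_smul_le (b := b) κ0 κ1 X
    have a5 : B * nb b NX ≤ B * nb b X := by gcongr
    rw [hE1]; linarith
  have nE' : nb b E2 ≤ nb b Y + 3 * B ^ 2 := by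
    have a1 := h.nb_sub E1 ((p * vc) • X)
    have a2 := nb_smul_le (b := b) (mul_nonneg h0 vc0) pc X
    rw [hE2]; linarith
  obtain ⟨c1, c2, c3, c4⟩ := core_real hB hy hζ (nb_nonneg b E1) (nb_nonneg b E2) (nb_nonneg b A)
    (nb_nonneg b A') nE nE' nA nA'
  refine ⟨?_, ?_, ?_⟩
  · have a1 := h.nb_add (vz • Z) (vc • X)
    have a2 := nb_smul_le (b := b) vz0 vz1 Z
    have a3 := nb_smul_le (b := b) vc0 vc1 X
    have a4 : B * nb b Z ≤ B ^ 2 * nb b Z := by rw [pow_two, mul_assoc]; gcongr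
    have a5 : 0 ≤ B ^ 2 * nb b Y := by positivity
    rw [hV]; linarith
  · have a1 := h.nb_sub E1 A
    rw [hQ]; linarith
  · have e1 : b Q Q - p * b Q V = b Q (Q - p • V) := by simp
    have e2 : b (E1 - A) (E2 - A') = b E1 E2 - b E1 A' - b A E2 + b A A' := by
      simp only [map_sub, sub_apply]; ring
    have b1 := (abs_le.1 (h.abs_b E1 E2)).1
    have b2 := (abs_le.1 (h.abs_b E1 A')).2
    have b3 := (abs_le.1 (h.abs_b A E2)).2
    rw [e1, hQV, hQ, e2, h.nb_sq]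
    linarith

end IP

/-- the last elementary step -/
theorem final_alg {B y ζ a : ℝ} (hB : 1 ≤ B) (hy : 0 ≤ y) (hζ : 0 ≤ ζ) (ha : a ≤ 1) :
    -(800 * B ^ 8 * (1 + y ^ 2)) ≤ 4 * ζ ^ 2 - 9 * B ^ 4 * (1 + y) ^ 2 - 24 * B ^ 3 * (1 + y) * ζ
      - a * ζ ^ 2 - 40 * B ^ 4 * (1 + y + ζ) := by
  have h34 : B ^ 3 ≤ B ^ 4 := pow_le_pow_right₀ hB (by norm_num)
  have h48 : B ^ 4 ≤ B ^ 8 := pow_le_pow_right₀ hB (by norm_num)
  have h4 : 0 ≤ B ^ 4 := by positivity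
  set u := 1 + y with hu
  have hu1 : 1 ≤ u := by linarith
  have h1 : 24 * B ^ 3 * u * ζ ≤ 24 * B ^ 4 * u * ζ := by gcongr
  have h2 : 40 * B ^ 4 * ζ ≤ 40 * B ^ 4 * u * ζ := by
    rw [mul_assoc (40 * B ^ 4)]; gcongr; nlinarith
  have h3 : 40 * B ^ 4 * u ≤ 40 * B ^ 4 * u ^ 2 := by gcongr; nlinarith
  have h5 : 64 * B ^ 4 * u * ζ ≤ 3 * ζ ^ 2 + 342 * B ^ 8 * u ^ 2 := by
    nlinarith [sq_nonneg (3 * ζ - 32 * B ^ 4 * u), sq_nonneg (B ^ 4 * u)]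
  have h6 : 49 * B ^ 4 * u ^ 2 ≤ 49 * B ^ 8 * u ^ 2 := by gcongr
  have h7 : u ^ 2 ≤ 2 * (1 + y ^ 2) := by rw [hu]; nlinarith [sq_nonneg (y - 1)]
  have h8 : 391 * B ^ 8 * u ^ 2 ≤ 391 * B ^ 8 * (2 * (1 + y ^ 2)) := by gcongr
  have h9 : a * ζ ^ 2 ≤ 1 * ζ ^ 2 := by gcongr
  have h10 : 0 ≤ B ^ 8 * (1 + y ^ 2) := by positivity
  nlinarith

/-! ### the integrals `II` -/

theorem hasDerivAt_II (P : Par) (k : ℕ) (z : ℝ) :
    HasDerivAt (II P k) (4 * P.Ph z ^ k * Real.exp (4 * z)) z := by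
  have hc : Continuous fun ζ => 4 * P.Ph ζ ^ k * Real.exp (4 * ζ) := by
    have := (contDiff_Ph P).continuous
    fun_prop
  exact (hc.integral_hasStrictDerivAt _ _).hasDerivAt

theorem contDiff_II (P : Par) (k : ℕ) : ContDiff ℝ ∞ (II P k) := by
  rw [contDiff_infty_iff_deriv]
  refine ⟨fun z => (hasDerivAt_II P k z).differentiableAt, ?_⟩
  rw [show deriv (II P k) = _ from funext fun z => (hasDerivAt_II P k z).deriv]
  exact (contDiff_const.mul ((contDiff_Ph P).pow k)).mul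
    (Real.contDiff_exp.comp (contDiff_const.mul contDiff_id))

theorem II_mem {P : Par} (hθ : 0 < P.θ) {k : ℕ} (hk : k ≠ 0) (z : ℝ) :
    II P k z ∈ Icc 0 (Real.exp (4 * z)) := by
  have hc : Continuous fun ζ => 4 * P.Ph ζ ^ k * Real.exp (4 * ζ) := by
    have := (contDiff_Ph P).continuous
    fun_prop
  rcases le_total z (-P.θ / 2) with hz | hz
  · have : II P k z = 0 := by
      rw [II, intervalIntegral.integral_congr (g := fun _ => 0), intervalIntegral.integral_zero]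
      intro ζ hζ
      rw [uIcc_of_ge hz] at hζ
      simp [Ph_zero hθ hζ.2, hk]
    rw [this]; exact ⟨le_rfl, (Real.exp_pos _).le⟩
  · constructor
    · refine intervalIntegral.integral_nonneg hz fun ζ _ => ?_
      have := (Ph_mem P ζ).1
      positivity
    · have h1 : ∫ ζ in (-P.θ / 2)..z, 4 * Real.exp (4 * ζ)
          = Real.exp (4 * z) - Real.exp (4 * (-P.θ / 2)) := by
        refine intervalIntegral.integral_eq_sub_of_hasDerivAt (f := fun ζ => Real.exp (4 * ζ))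
          (fun ζ _ => ?_) (Continuous.intervalIntegrable (by fun_prop) _ _)
        simpa [mul_comm] using ((hasDerivAt_id ζ).const_mul 4).exp
      have h2 : II P k z ≤ ∫ ζ in (-P.θ / 2)..z, 4 * Real.exp (4 * ζ) := by
        refine intervalIntegral.integral_mono_on hz (hc.intervalIntegrable _ _)
          (Continuous.intervalIntegrable (by fun_prop) _ _) fun ζ _ => ?_
        have h3 : P.Ph ζ ^ k ≤ 1 := pow_le_one₀ (Ph_mem P ζ).1 (Ph_mem P ζ).2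
        have := Real.exp_pos (4 * ζ)
        nlinarith
      have := Real.exp_pos (4 * (-P.θ / 2))
      linarith

end Crest.Agent.N346.Bd

end
end

-- ▼ part N346/Bd/W2
section

/-!
Row 346, Part 1 (helper71): the `W`-inequality, part 2: the first integral and its divergence.
-/

set_option autoImplicit false

open MeasureTheory Filter Set
open scoped ContDiff Topology
open Crest.GeometryTopology.CoordMetric Crest.MathPhysics.ExteriorData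
open Crest.Agent.R202.Tens Crest.Agent.R247.Bo84 Crest.Agent.N346.Id Crest.Agent.N346.P1

noncomputable section

namespace Crest.Agent.N346.Bd

variable {n : ℕ}

/-- `1 - cut` in the variable `t = τ f` -/
def c3 (P : Par) (t : ℝ) : ℝ := 1 - cut (-P.t1) (-P.t1 / 2) t

theorem contDiff_c3 (P : Par) : ContDiff ℝ ∞ (c3 P) := contDiff_const.sub (contDiff_cut _ _)

theorem c3_mem (P : Par) (t : ℝ) : c3 P t ∈ Icc (0 : ℝ) 1 := one_sub_mem (cut_mem _ _ _)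

theorem exists_c3_bound {t1 : ℝ} (h : 0 < t1) : ∃ C : ℝ, 1 ≤ C ∧ ∀ P : Par, P.t1 = t1 → ∀ t,
    |deriv (c3 P) t| ≤ C ∧ |deriv (deriv (c3 P)) t| ≤ C := by
  obtain ⟨C, h1, h2⟩ := exists_cut_bound (a := -t1) (b := -t1 / 2) (by linarith)
  refine ⟨C, h1, fun P hP t => ?_⟩
  subst hP
  have e : deriv (c3 P) = fun t => -deriv (cut (-P.t1) (-P.t1 / 2)) t :=
    funext fun t => deriv_const_sub _
  rw [e]
  refine ⟨by rw [abs_neg, abs_of_nonneg (h2 t).1]; exact (h2 t).2.1, ?_⟩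
  rw [deriv.fun_neg, abs_neg]
  exact (h2 t).2.2

/-- `κ = σ ∂_χ 𝒲` -/
def kp (P : Par) (d : ℝ) (g : MetricField n) (a1 a2 f z : E n → ℝ) (x : E n) : ℝ :=
  sg P d g a1 a2 f z x * (2 * d * (1 - d) * II P 1 (z x)
    + 2 * (1 - d) ^ 2 * chd P a1 a2 f x * II P 2 (z x))

/-- standing hypotheses -/
structure WH (P0 : ℝ) (P : Par) (d : ℝ) (g K : MetricField n) (EE : VectorField n)
    (a1 a2 f z : E n → ℝ) : Prop where
  bg : BG P0 g K EE a1 a2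
  θ_pos : 0 < P.θ
  e_pos : 0 < P.e
  e_le : P.e ≤ 1
  d_lo : P.e ^ 2 ≤ d
  d_le : d ≤ 1
  cf : ContDiff ℝ ∞ f
  cz : ContDiff ℝ ∞ z
  J : ∀ x, Th g (phd P d a1 a2 f z) f K x = P.τ * f x
  fb : ∀ x, |P.τ * f x| ≤ P0

namespace WH

variable {P0 : ℝ} {P : Par} {d : ℝ} {g K : MetricField n} {EE : VectorField n}
  {a1 a2 f z : E n → ℝ} (h : WH P0 P d g K EE a1 a2 f z)

local notation "φ" => phd P d a1 a2 f z
local notation "χ" => chd P a1 a2 f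
local notation "ḡ" => gb g (phd P d a1 a2 f z) f
local notation "γ" => gm g (phd P d a1 a2 f z) f
local notation "𝓅" => pp g (phd P d a1 a2 f z) f
local notation "𝓌" => wv g (phd P d a1 a2 f z) f
local notation "ℓ" => ell g (phd P d a1 a2 f z) f
local notation "𝒱" => Vv g (phd P d a1 a2 f z) f
local notation "𝒬" => Qv g (phd P d a1 a2 f z) f
local notation "ℋ" => H0 g (phd P d a1 a2 f z) f
local notation "𝒶" => aa g (phd P d a1 a2 f z) f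
local notation "𝒲" => WW P d g a1 a2 f z
local notation "σ" => sg P d g a1 a2 f z
local notation "κ" => kp P d g a1 a2 f z

theorem chd_eq (P : Par) (a1 a2 f : E n → ℝ) :
    chd P a1 a2 f = fun x => a1 x - a1 x * a2 x * c3 P (P.τ * f x) := by
  funext x; simp only [chd, Par.chi, c3]; ring

include h

theorem d_pos : 0 < d := lt_of_lt_of_le (pow_pos h.e_pos 2) h.d_lo

theorem c_u3 : ContDiff ℝ ∞ fun x => c3 P (P.τ * f x) :=
  (contDiff_c3 P).comp (contDiff_const.mul h.cf)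

theorem c_chi : ContDiff ℝ ∞ χ := by
  rw [chd_eq]; exact h.bg.a1_b2.smooth.sub (h.bg.a12_b2.smooth.mul h.c_u3)

theorem chi_mem (x : E n) : χ x ∈ Icc (0 : ℝ) 1 := Bd.chi_mem P (h.bg.a1_mem x) (h.bg.a2_mem x) _

theorem c_phi : ContDiff ℝ ∞ φ :=
  contDiff_const.add ((contDiff_const.mul h.c_chi).mul ((contDiff_Ph P).comp h.cz))

theorem phi_mem (x : E n) : φ x ∈ Icc d 1 := by
  have h1 := h.chi_mem x
  have h2 := Ph_mem P (z x)
  have h3 := mul_nonneg h1.1 h2.1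
  have h4 := mul_le_one₀ h1.2 h2.1 h2.2
  have h5 := h.d_le
  rw [phd, mul_assoc]
  constructor <;> nlinarith

theorem phi_pos (x : E n) : 0 < φ x := h.d_pos.trans_le (h.phi_mem x).1

theorem jd : Jd g φ f univ :=
  ⟨h.bg.riem, h.c_phi.contDiffOn, h.cf.contDiffOn, fun x _ => h.phi_pos x⟩

theorem c_gm : ContDiff ℝ ∞ γ := contDiff_iff_contDiffAt.2 fun x => h.jd.c_gm (mem_univ x)

theorem WW_eq : 𝒲 = fun x => Real.exp (4 * z x) * (φ x ^ 2 * (γ x ^ 2 - 1) + d ^ 2)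
    + 2 * d * (1 - d) * χ x * II P 1 (z x) + (1 - d) ^ 2 * χ x ^ 2 * II P 2 (z x) := by
  funext x; rw [WW, h.jd.gm_sq (mem_univ x)]; ring

theorem sg_eq : σ = fun x => 1 / 2 * Real.exp (-(4 * z x) - 2 * ℓ x - 2 * lv φ x) := by
  funext x
  have h1 := h.jd.gm_pos (mem_univ x)
  have h2 := h.phi_pos x
  have e : ∀ a : ℝ, 0 < a → Real.exp (2 * Real.log a) = a ^ 2 := fun a ha => by
    rw [two_mul, Real.exp_add, Real.exp_log ha, pow_two]
  rw [sg, Real.exp_sub, Real.exp_sub, ell, lv, e _ h1, e _ h2]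
  field_simp

theorem c_WW : ContDiff ℝ ∞ 𝒲 := by
  rw [h.WW_eq]
  exact (((Real.contDiff_exp.comp (contDiff_const.mul h.cz)).mul (((h.c_phi.pow 2).mul
    ((h.c_gm.pow 2).sub contDiff_const)).add contDiff_const)).add
    ((contDiff_const.mul h.c_chi).mul ((contDiff_II P 1).comp h.cz))).add
    ((contDiff_const.mul (h.c_chi.pow 2)).mul ((contDiff_II P 2).comp h.cz))

theorem c_ell : ContDiff ℝ ∞ ℓ := contDiff_iff_contDiffAt.2 fun x => h.jd.c_ell (mem_univ x)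

theorem c_lv : ContDiff ℝ ∞ (lv φ) := contDiff_iff_contDiffAt.2 fun x => h.jd.c_lv (mem_univ x)

theorem c_sg : ContDiff ℝ ∞ σ := by
  rw [h.sg_eq]
  exact contDiff_const.mul (Real.contDiff_exp.comp (((contDiff_const.mul h.cz).neg.sub
    (contDiff_const.mul h.c_ell)).sub (contDiff_const.mul h.c_lv)))

theorem c_kp : ContDiff ℝ ∞ κ :=
  h.c_sg.mul ((contDiff_const.mul ((contDiff_II P 1).comp h.cz)).add
    ((contDiff_const.mul h.c_chi).mul ((contDiff_II P 2).comp h.cz)))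

theorem WW_bounds (x : E n) : P.e ^ 4 * (γ x * Real.exp (2 * z x)) ^ 2 ≤ 𝒲 x ∧
    𝒲 x ≤ (γ x * Real.exp (2 * z x)) ^ 2 := by
  have hE : Real.exp (2 * z x) ^ 2 = Real.exp (4 * z x) := by
    rw [← Real.exp_nat_mul]; congr 1; push_cast; ring
  have h1 := II_mem h.θ_pos one_ne_zero (z x)
  have h2 := II_mem h.θ_pos two_ne_zero (z x)
  have h3 := h.chi_mem x
  have h4 := h.phi_mem x
  have hd0 := h.d_pos
  have hd1 : 0 ≤ 1 - d := sub_nonneg.2 h.d_le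
  have hs : 0 ≤ γ x ^ 2 - 1 := by have := h.jd.one_le_gm (mem_univ x); nlinarith
  have hX := Real.exp_pos (4 * z x)
  have h5 : 0 ≤ χ x := h3.1
  have h6 : 0 ≤ II P 1 (z x) := h1.1
  have h7 : 0 ≤ II P 2 (z x) := h2.1
  rw [h.WW_eq, mul_pow, hE]
  constructor
  · have a1 : P.e ^ 4 ≤ d ^ 2 := by
      rw [show P.e ^ 4 = (P.e ^ 2) ^ 2 by ring]; have := h.d_lo; gcongr
    have a2 : d ^ 2 ≤ φ x ^ 2 := by have := h4.1; gcongr
    have a3 : P.e ^ 4 * γ x ^ 2 ≤ φ x ^ 2 * (γ x ^ 2 - 1) + d ^ 2 := by nlinarith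
    have a4 : 0 ≤ 2 * d * (1 - d) * χ x * II P 1 (z x) := by positivity
    have a5 : 0 ≤ (1 - d) ^ 2 * χ x ^ 2 * II P 2 (z x) := by positivity
    nlinarith
  · have a2 : φ x ^ 2 ≤ 1 := pow_le_one₀ (h.phi_pos x).le h4.2
    have a3 : φ x ^ 2 * (γ x ^ 2 - 1) ≤ γ x ^ 2 - 1 := by nlinarith
    have a4 : 2 * d * (1 - d) * χ x * II P 1 (z x) ≤ 2 * d * (1 - d) * 1 * Real.exp (4 * z x) := by
      have := h3.2; have := h1.2; gcongr
    have a5 : (1 - d) ^ 2 * χ x ^ 2 * II P 2 (z x) ≤ (1 - d) ^ 2 * 1 ^ 2 * Real.exp (4 * z x) := by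
      have := h3.2; have := h2.2; gcongr
    nlinarith

theorem sg_mul_exp (x : E n) : σ x * Real.exp (4 * z x) = 1 / (2 * γ x ^ 2 * φ x ^ 2) := by
  rw [sg, Real.exp_neg]
  have := Real.exp_pos (4 * z x)
  field_simp

theorem sg_pos (x : E n) : 0 < σ x := by rw [h.sg_eq]; positivity

theorem inv_phi_le (x : E n) : (φ x)⁻¹ ≤ P.e⁻¹ ^ 2 := by
  rw [inv_pow]
  exact inv_anti₀ (pow_pos h.e_pos 2) (h.d_lo.trans (h.phi_mem x).1)

theorem sg_exp_le (x : E n) : σ x * Real.exp (4 * z x) ≤ P.e⁻¹ ^ 4 / 2 := by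
  have h1 := h.jd.one_le_gm (mem_univ x)
  have h2 := h.phi_pos x
  have h3 := h.inv_phi_le x
  rw [h.sg_mul_exp]
  calc _ ≤ 1 / (2 * 1 ^ 2 * φ x ^ 2) := by gcongr
    _ = (φ x)⁻¹ ^ 2 / 2 := by field_simp
    _ ≤ (P.e⁻¹ ^ 2) ^ 2 / 2 := by gcongr
    _ = _ := by ring

theorem kp_mem (x : E n) : κ x ∈ Icc 0 (P.e⁻¹ ^ 4) := by
  have h1 := II_mem h.θ_pos one_ne_zero (z x)
  have h2 := II_mem h.θ_pos two_ne_zero (z x)
  have h3 := h.chi_mem x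
  have hd0 := h.d_pos
  have hd1 : 0 ≤ 1 - d := sub_nonneg.2 h.d_le
  have h5 : 0 ≤ χ x := h3.1
  have h6 : 0 ≤ II P 1 (z x) := h1.1
  have h7 : 0 ≤ II P 2 (z x) := h2.1
  have h8 := h.sg_pos x
  refine ⟨by rw [kp]; positivity, ?_⟩
  have a4 : 2 * d * (1 - d) * II P 1 (z x) ≤ 2 * d * (1 - d) * Real.exp (4 * z x) := by
    have := h1.2; gcongr
  have a5 : 2 * (1 - d) ^ 2 * χ x * II P 2 (z x) ≤ 2 * (1 - d) ^ 2 * 1 * Real.exp (4 * z x) := by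
    have := h3.2; have := h2.2; gcongr
  have hX := Real.exp_pos (4 * z x)
  have a6 : 2 * d * (1 - d) * II P 1 (z x) + 2 * (1 - d) ^ 2 * χ x * II P 2 (z x)
      ≤ 2 * Real.exp (4 * z x) := by nlinarith
  have := h.sg_exp_le x
  calc κ x ≤ σ x * (2 * Real.exp (4 * z x)) := by rw [kp]; gcongr
    _ ≤ _ := by linarith

theorem hII (k : ℕ) (x : E n) : HasFDerivAt (fun y => II P k (z y))
    ((4 * P.Ph (z x) ^ k * Real.exp (4 * z x)) • fderiv ℝ z x) x :=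
  (hasDerivAt_II P k (z x)).comp_hasFDerivAt x (Bs.smooth_diff h.cz x).hasFDerivAt

/-- the first integral: `σ d𝒲 = 2 dz + p dv + dℓ + κ dχ` -/
theorem first_integral (x Y : E n) : σ x * fderiv ℝ 𝒲 x Y = 2 * fderiv ℝ z x Y
    + (𝓅 x * fderiv ℝ (lv φ) x Y + fderiv ℝ ℓ x Y) + κ x * fderiv ℝ χ x Y := by
  have hz := (Bs.smooth_diff h.cz x).hasFDerivAt
  have hφ := (Bs.smooth_diff h.c_phi x).hasFDerivAt
  have hγ := (Bs.smooth_diff h.c_gm x).hasFDerivAt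
  have hχ := (Bs.smooth_diff h.c_chi x).hasFDerivAt
  have hW := (((hz.const_mul 4).exp.mul (((hφ.pow 2).mul ((hγ.pow 2).sub_const 1)).add_const
    (d ^ 2))).add ((hχ.const_mul (2 * d * (1 - d))).mul (h.hII 1 x))).add
    (((hχ.pow 2).const_mul ((1 - d) ^ 2)).mul (h.hII 2 x))
  have e1 := (congrArg (fun F => fderiv ℝ F x) h.WW_eq).trans hW.fderiv
  have h1 := h.jd.gm_pos (mem_univ x)
  have h2 := h.phi_pos x
  have h3 := h.sg_mul_exp x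
  have h4 : 𝓅 x = 1 - (γ x ^ 2)⁻¹ := by rw [← h.jd.one_sub_pp (mem_univ x)]; ring
  have h5 : d ^ 2 + 2 * d * (1 - d) * χ x * P.Ph (z x) + (1 - d) ^ 2 * χ x ^ 2 * P.Ph (z x) ^ 2
      = φ x ^ 2 := by rw [phd]; ring
  have e2 : fderiv ℝ 𝒲 x Y = Real.exp (4 * z x) * (4 * (φ x ^ 2 * (γ x ^ 2 - 1)
      + (d ^ 2 + 2 * d * (1 - d) * χ x * P.Ph (z x) + (1 - d) ^ 2 * χ x ^ 2 * P.Ph (z x) ^ 2))
        * fderiv ℝ z x Y
      + 2 * φ x * (γ x ^ 2 - 1) * fderiv ℝ φ x Y + 2 * φ x ^ 2 * γ x * fderiv ℝ γ x Y)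
      + (2 * d * (1 - d) * II P 1 (z x) + 2 * (1 - d) ^ 2 * χ x * II P 2 (z x))
        * fderiv ℝ χ x Y := by
    rw [e1]
    simp only [add_apply, smul_apply, smul_eq_mul, Pi.mul_apply, nsmul_eq_mul,
      Nat.cast_ofNat, Nat.add_one_sub_one, pow_one]
    ring
  rw [e2, h5, mul_add, ← mul_assoc, h3, h.jd.fderiv_phi (mem_univ x), h.jd.fderiv_gm (mem_univ x),
    h4, kp]
  field_simp
  ring

theorem vec_id (x : E n) : σ x • grad ḡ 𝒲 x
    = (2 : ℝ) • grad ḡ z x + (𝓅 x • 𝒱 x + grad ḡ ℓ x) + κ x • grad ḡ χ x := by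
  refine bil_injective h.jd.riemb (mem_univ x) fun Y => ?_
  simp only [map_add, map_smul, add_apply, smul_apply, smul_eq_mul,
    bil_grad h.jd.riemb (mem_univ x), h.jd.gb_Vv (mem_univ x)]
  exact h.first_integral x Y

theorem dgrad {u : E n → ℝ} (hu : ContDiff ℝ ∞ u) (x : E n) : DifferentiableAt ℝ (grad ḡ u) x :=
  differentiableAt_grad h.jd.riemb (mem_univ x) (hu.contDiffAt.of_le (by norm_cast))

theorem div_eq (x : E n) : divg ḡ (fun y => σ y • grad ḡ 𝒲 y) x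
    = 2 * laplaceBeltrami ḡ z x + divg ḡ (fun y => 𝓅 y • 𝒱 y + grad ḡ ℓ y) x
      + (κ x * laplaceBeltrami ḡ χ x + fderiv ℝ κ x (grad ḡ χ x)) := by
  have hb := h.jd.riemb
  have hx := mem_univ x
  have d1 : DifferentiableAt ℝ (fun y => (2 : ℝ) • grad ḡ z y) x :=
    (differentiableAt_const (2 : ℝ)).smul (h.dgrad h.cz x)
  have d2 : DifferentiableAt ℝ (fun y => 𝓅 y • 𝒱 y + grad ḡ ℓ y) x :=
    (((h.jd.c_pp hx).differentiableAt (by simp)).smul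
      ((h.jd.c_Vv hx).differentiableAt (by simp))).add (h.dgrad h.c_ell x)
  have d3 : DifferentiableAt ℝ (fun y => κ y • grad ḡ χ y) x :=
    (Bs.smooth_diff h.c_kp x).smul (h.dgrad h.c_chi x)
  rw [funext h.vec_id, divg_add hb hx (d1.fun_add d2) d3, divg_add hb hx d1 d2,
    divg_smul hb hx (Bs.smooth_diff h.c_kp x) (h.dgrad h.c_chi x),
    divg_smul (h := fun _ => (2 : ℝ)) hb hx (differentiableAt_const _) (h.dgrad h.cz x),
    divg_grad, divg_grad]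
  simp

theorem V_eq (x : E n) : 𝒱 x = ((1 - d) * χ x * deriv P.Ph (z x) / φ x) • grad ḡ z x
    + ((1 - d) * P.Ph (z x) / φ x) • grad ḡ χ x := by
  refine bil_injective h.jd.riemb (mem_univ x) fun Y => ?_
  have hz := (Bs.smooth_diff h.cz x).hasFDerivAt
  have hχ := (Bs.smooth_diff h.c_chi x).hasFDerivAt
  have hP : HasFDerivAt (fun y => P.Ph (z y)) (deriv P.Ph (z x) • fderiv ℝ z x) x :=
    ((contDiff_Ph P).differentiable (by simp) (z x)).hasDerivAt.comp_hasFDerivAt x hz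
  have e1 : fderiv ℝ φ x = _ := (((hχ.const_mul (1 - d)).mul hP).const_add d).fderiv
  simp only [map_add, map_smul, add_apply, smul_apply, smul_eq_mul,
    bil_grad h.jd.riemb (mem_univ x), h.jd.gb_Vv (mem_univ x), h.jd.fderiv_lv (mem_univ x), e1]
  ring

theorem dkp (x Y : E n) : fderiv ℝ κ x Y
    = κ x * (-(4 * fderiv ℝ z x Y) - 2 * fderiv ℝ ℓ x Y - 2 * fderiv ℝ (lv φ) x Y)
      + σ x * Real.exp (4 * z x) * (8 * (1 - d) * P.Ph (z x) * φ x) * fderiv ℝ z x Y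
      + σ x * (2 * (1 - d) ^ 2 * II P 2 (z x)) * fderiv ℝ χ x Y := by
  have hz := (Bs.smooth_diff h.cz x).hasFDerivAt
  have hχ := (Bs.smooth_diff h.c_chi x).hasFDerivAt
  have hl := (Bs.smooth_diff h.c_ell x).hasFDerivAt
  have hv := (Bs.smooth_diff h.c_lv x).hasFDerivAt
  have hs := ((((hz.const_mul 4).neg.sub (hl.const_mul 2)).sub (hv.const_mul 2)).exp.const_mul
    (1 / 2))
  have hs' : HasFDerivAt σ (σ x • (-((4 : ℝ) • fderiv ℝ z x) - (2 : ℝ) • fderiv ℝ ℓ x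
      - (2 : ℝ) • fderiv ℝ (lv φ) x)) x := by
    rw [h.sg_eq]
    refine hs.congr_fderiv ?_
    ext Y
    simp only [smul_apply, smul_eq_mul, Pi.sub_apply, Pi.neg_apply]
    ring
  have e1 : fderiv ℝ κ x = _ := (hs'.mul (((h.hII 1 x).const_mul (2 * d * (1 - d))).add
    ((hχ.const_mul (2 * (1 - d) ^ 2)).mul (h.hII 2 x)))).fderiv
  rw [e1, kp, phd]
  simp only [add_apply, sub_apply, neg_apply, smul_apply, smul_eq_mul, Pi.add_apply, Pi.mul_apply]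
  ring

end WH

end Crest.Agent.N346.Bd

end
end

-- ▼ part N346/Bd/W3

/-!
Row 346, Part 1 (helper71): the `W`-inequality, part 3: the error terms and `wineq : WStmt`.
-/

set_option autoImplicit false

open MeasureTheory Filter Set
open scoped ContDiff Topology
open Crest.GeometryTopology.CoordMetric Crest.MathPhysics.ExteriorData
open Crest.Agent.R202.Tens Crest.Agent.R247.Bo84 Crest.Agent.N346.Id Crest.Agent.N346.P1

noncomputable section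

namespace Crest.Agent.N346.Bd

variable {n : ℕ}

theorem fderiv_Kww {g K : MetricField n} {w : E n → E n} {x : E n} (hK : SymT K univ)
    (hw : DifferentiableAt ℝ w x) : fderiv ℝ (fun y => bil (K y) (w y) (w y)) x (w x)
      = cK g K x (w x) + 2 * bil (K x) (cov g w x (w x)) (w x) := by
  have hb : DifferentiableAt ℝ (fun y => bil (K y)) x :=
    (contDiffAt_bil (hK.contDiffAt isOpen_univ (mem_univ x))).differentiableAt (by simp)
  have h1 := ((hb.hasFDerivAt.clm_apply hw.hasFDerivAt).clm_apply hw.hasFDerivAt).fderiv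
  have h2 := ((hb.hasFDerivAt.clm_apply (hasFDerivAt_const (w x) x)).clm_apply
    (hasFDerivAt_const (w x) x)).fderiv
  rw [cK, h1, h2, cov_apply]
  simp only [add_apply, ContinuousLinearMap.comp_apply, ContinuousLinearMap.flip_apply, map_add,
    zero_apply, map_zero]
  rw [hK.bil_symm (mem_univ x) (w x) (fderiv ℝ w x (w x))]
  ring

theorem abs_mul_le' {a b A B : ℝ} (ha : |a| ≤ A) (hb : |b| ≤ B) : |a * b| ≤ A * B := by
  rw [abs_mul]; exact mul_le_mul ha hb (abs_nonneg _) ((abs_nonneg _).trans ha)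

theorem abs_le_of_mem {a A : ℝ} (h : a ∈ Icc 0 A) : |a| ≤ A := by
  rw [abs_of_nonneg h.1]; exact h.2

namespace WH

variable {P0 : ℝ} {P : Par} {d : ℝ} {g K : MetricField n} {EE : VectorField n}
  {a1 a2 f z : E n → ℝ} (h : WH P0 P d g K EE a1 a2 f z)

local notation "φ" => phd P d a1 a2 f z
local notation "χ" => chd P a1 a2 f
local notation "ḡ" => gb g (phd P d a1 a2 f z) f
local notation "γ" => gm g (phd P d a1 a2 f z) f
local notation "𝓅" => pp g (phd P d a1 a2 f z) f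
local notation "𝓌" => wv g (phd P d a1 a2 f z) f
local notation "ℓ" => ell g (phd P d a1 a2 f z) f
local notation "𝒱" => Vv g (phd P d a1 a2 f z) f
local notation "𝒬" => Qv g (phd P d a1 a2 f z) f
local notation "ℋ" => H0 g (phd P d a1 a2 f z) f
local notation "𝒶" => aa g (phd P d a1 a2 f z) f
local notation "𝒲" => WW P d g a1 a2 f z
local notation "σ" => sg P d g a1 a2 f z
local notation "κ" => kp P d g a1 a2 f z

include h

theorem ip (x : E n) : IP (bil (ḡ x)) := ip_bil h.jd.riemb (mem_univ x)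

theorem p_mem (x : E n) : 𝓅 x ∈ Icc (0 : ℝ) 1 :=
  ⟨h.jd.pp_nonneg (mem_univ x), (h.jd.pp_lt_one (mem_univ x)).le⟩

theorem hw (x : E n) : (1 - 𝓅 x) * bil (ḡ x) (𝓌 x) (𝓌 x) = 𝓅 x := by
  rw [gb_wv_wv h.jd (mem_univ x)]
  linear_combination 𝓅 x * h.jd.gm_sq_mul (mem_univ x)

theorem a_eq (x : E n) : 𝒶 x = bil (ḡ x) (𝒱 x) (𝓌 x) := (h.jd.gb_Vv (mem_univ x) _).symm

theorem ww_le (x : E n) : bil (g x) (𝓌 x) (𝓌 x) ≤ 1 := by
  rw [h.jd.bil_wv_wv (mem_univ x)]; exact (h.p_mem x).2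

theorem abs_H0 (x : E n) : |ℋ x| ≤ 3 * P0 := by
  rw [H0_eq_Th h.jd (mem_univ x) K, h.J]
  have h1 := abs_le.1 (h.fb x)
  have h2 := abs_le.1 (h.bg.trK_le x)
  have h3 := abs_le.1 (h.bg.abs_Kww_le (h.ww_le x))
  rw [abs_le]; constructor <;> linarith

theorem P_le_sq : P0 ≤ P0 ^ 2 := by have := h.bg.P_ge; nlinarith

theorem nb_B2 {u : E n → ℝ} (hu : B2 P0 g u) (x : E n) : nb (bil (ḡ x)) (grad ḡ u x) ≤ P0 := by
  refine IP.nb_le (by linarith [h.bg.P_ge]) ?_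
  rw [← gam_eq_bil h.jd.riemb (mem_univ x)]
  exact (gam_gb_le h.jd (mem_univ x) u).trans ((hu.d_le x).trans h.P_le_sq)

theorem tau_pos : 0 < P.τ := pow_pos h.e_pos 3

theorem tau_le (x : E n) : P.τ ≤ φ x :=
  (pow_le_pow_of_le_one h.e_pos.le h.e_le (by norm_num)).trans (h.d_lo.trans (h.phi_mem x).1)

theorem c_F : ContDiff ℝ ∞ fun y => P.τ * f y := contDiff_const.mul h.cf

theorem gam_F (x : E n) : gam ḡ (fun y => P.τ * f y) (fun y => P.τ * f y) x ≤ 1 := by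
  rw [gam_const_mul_left _ (Bs.smooth_diff h.cf x), gam_const_mul_right _ (Bs.smooth_diff h.cf x)]
  have h1 := h.jd.gam_gb_f_f (mem_univ x)
  have h2 := gam_self_nonneg h.jd.riemb (mem_univ x) f
  have h3 : P.τ ^ 2 ≤ φ x ^ 2 := by have := h.tau_pos; have := h.tau_le x; gcongr
  have h4 := (h.p_mem x).2
  nlinarith

theorem nb_F (x : E n) : nb (bil (ḡ x)) (grad ḡ (fun y => P.τ * f y) x) ≤ 1 := by
  refine IP.nb_le zero_le_one ?_
  rw [← gam_eq_bil h.jd.riemb (mem_univ x), one_pow]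
  exact h.gam_F x

theorem lap_B2 {u : E n → ℝ} (hu : B2 P0 g u) (x : E n) : |laplaceBeltrami ḡ u x|
    ≤ (n * P0 + 3 * P0 ^ 2) * (1 + nb (bil (ḡ x)) (𝒱 x)) := by
  have hP := h.bg.P_ge
  have hv := IP.nb_nonneg (bil (ḡ x)) (𝒱 x)
  have h1 := abs_le.1 (abs_traceK_hessM_le h.jd (mem_univ x) (by linarith) (hu.h_le x))
  have h2 : |gam ḡ u (lv φ) x| ≤ P0 * nb (bil (ḡ x)) (𝒱 x) := by
    rw [gam_eq_bil h.jd.riemb (mem_univ x)]
    refine ((h.ip x).abs_b _ _).trans ?_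
    have := h.nb_B2 hu x
    change _ * nb _ (𝒱 x) ≤ _
    gcongr
  have h3 := abs_le.1 (abs_mul_le' (abs_le_of_mem (h.p_mem x)) h2)
  have h4 := abs_le.1 (abs_mul_le' (h.abs_H0 x) (abs_fderiv_wv_le h.jd (mem_univ x) (u := u)
    (by linarith) ((hu.d_le x).trans h.P_le_sq)))
  have h5 : P0 * nb (bil (ḡ x)) (𝒱 x) ≤ (n * P0 + 3 * P0 ^ 2) * nb (bil (ḡ x)) (𝒱 x) := by
    have : 0 ≤ n * P0 := by positivity
    have := h.P_le_sq
    gcongr; nlinarith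
  rw [h.jd.lap_gb (mem_univ x) (hu.smooth.contDiffAt.of_le (by norm_cast)), abs_le]
  constructor <;> nlinarith

theorem lap_F (x : E n) : |laplaceBeltrami ḡ (fun y => P.τ * f y) x|
    ≤ 3 * P0 + 2 * nb (bil (ḡ x)) (𝒱 x) := by
  have hP := h.bg.P_ge
  have hv := IP.nb_nonneg (bil (ḡ x)) (𝒱 x)
  have hγ := h.jd.one_le_gm (mem_univ x)
  have hφ := h.phi_pos x
  have hp := h.p_mem x
  have h1 : nb (bil (ḡ x)) (𝓌 x) ≤ γ x := by
    refine IP.nb_le (by linarith) ?_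
    rw [gb_wv_wv h.jd (mem_univ x)]
    exact mul_le_of_le_one_right (sq_nonneg _) hp.2
  have h2 : |𝒶 x| ≤ nb (bil (ḡ x)) (𝒱 x) * γ x := by
    rw [h.a_eq]; exact ((h.ip x).abs_b _ _).trans (by gcongr)
  have h3 := abs_mul_le' (a := 2 - 𝓅 x) (A := 2) (abs_le_of_mem ⟨by linarith [hp.2],
    by linarith [hp.1]⟩) h2
  have h4 : |ℋ x - (2 - 𝓅 x) * 𝒶 x| ≤ (3 * P0 + 2 * nb (bil (ḡ x)) (𝒱 x)) * γ x := by
    refine (abs_sub _ _).trans ?_
    have := h.abs_H0 x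
    nlinarith
  rw [lap_const_mul h.jd.riemb (mem_univ x) _ (h.jd.cf2 (mem_univ x)),
    h.jd.lap_gb_f (mem_univ x), abs_mul, abs_div, abs_of_pos h.tau_pos,
    abs_of_pos (a := φ x * γ x) (by positivity), ← mul_div_assoc, div_le_iff₀ (by positivity)]
  calc _ ≤ φ x * ((3 * P0 + 2 * nb (bil (ḡ x)) (𝒱 x)) * γ x) := by
        have := h.tau_le x; gcongr
    _ = _ := by ring

theorem a12_mem (x : E n) : a1 x * a2 x ∈ Icc (0 : ℝ) 1 :=
  ⟨mul_nonneg (h.bg.a1_mem x).1 (h.bg.a2_mem x).1,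
    mul_le_one₀ (h.bg.a1_mem x).2 (h.bg.a2_mem x).1 (h.bg.a2_mem x).2⟩

variable {C3 : ℝ} (hC : ∀ t, |deriv (c3 P) t| ≤ C3 ∧ |deriv (deriv (c3 P)) t| ≤ C3)
include hC

theorem nb_u3 (x : E n) : nb (bil (ḡ x)) (grad ḡ (fun y => c3 P (P.τ * f y)) x) ≤ C3 := by
  rw [grad_comp (f := fun y => P.τ * f y) ((contDiff_c3 P).differentiable (by simp) _)
    (Bs.smooth_diff h.c_F x), IP.nb_smul]
  have h1 := (hC (P.τ * f x)).1
  have h2 := h.nb_F x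
  have h3 := IP.nb_nonneg (bil (ḡ x)) (grad ḡ (fun y => P.τ * f y) x)
  have h4 := abs_nonneg (deriv (c3 P) (P.τ * f x))
  nlinarith

theorem nb_X (x : E n) : nb (bil (ḡ x)) (grad ḡ χ x) ≤ 2 * P0 + C3 := by
  have d1 := Bs.smooth_diff h.bg.a1_b2.smooth x
  have d2 := Bs.smooth_diff h.bg.a12_b2.smooth x
  have d3 := Bs.smooth_diff h.c_u3 x
  have e : grad ḡ χ x = grad ḡ a1 x - ((a1 x * a2 x) • grad ḡ (fun y => c3 P (P.τ * f y)) x
      + c3 P (P.τ * f x) • grad ḡ (fun y => a1 y * a2 y) x) := by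
    rw [← grad_mul d2 d3, ← grad_sub d1 (d2.fun_mul d3), ← chd_eq]
  have h1 := h.nb_B2 h.bg.a1_b2 x
  have h2 := h.nb_B2 h.bg.a12_b2 x
  have h3 := h.nb_u3 hC x
  have h4 := IP.nb_smul_le (b := bil (ḡ x)) (h.a12_mem x).1 (h.a12_mem x).2
    (grad ḡ (fun y => c3 P (P.τ * f y)) x)
  have h5 := IP.nb_smul_le (b := bil (ḡ x)) (c3_mem P (P.τ * f x)).1 (c3_mem P _).2
    (grad ḡ (fun y => a1 y * a2 y) x)
  rw [e]
  refine ((h.ip x).nb_sub _ _).trans ((add_le_add_right ((h.ip x).nb_add _ _) _).trans ?_)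
  linarith

theorem lap_chi (x : E n) : |laplaceBeltrami ḡ χ x|
    ≤ (2 * (n * P0 + 3 * P0 ^ 2) + 6 * P0 * C3) * (1 + nb (bil (ḡ x)) (𝒱 x)) := by
  have hP := h.bg.P_ge
  have hv := IP.nb_nonneg (bil (ḡ x)) (𝒱 x)
  have hb := h.jd.riemb
  have hx := mem_univ x
  have c2 : ∀ {u : E n → ℝ}, ContDiff ℝ ∞ u → ContDiffAt ℝ 2 u x := fun hu =>
    hu.contDiffAt.of_le (by norm_cast)
  have e : laplaceBeltrami ḡ χ x = laplaceBeltrami ḡ a1 x - (a1 x * a2 x *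
      (deriv (c3 P) (P.τ * f x) * laplaceBeltrami ḡ (fun y => P.τ * f y) x
        + deriv (deriv (c3 P)) (P.τ * f x) * gam ḡ (fun y => P.τ * f y) (fun y => P.τ * f y) x)
      + c3 P (P.τ * f x) * laplaceBeltrami ḡ (fun y => a1 y * a2 y) x
      + 2 * gam ḡ (fun y => a1 y * a2 y) (fun y => c3 P (P.τ * f y)) x) := by
    rw [← lap_comp hb hx (f := fun y => P.τ * f y)
      ((contDiff_c3 P).contDiffAt.of_le (by norm_cast)) (c2 h.c_F),
      ← lap_mul hb hx (c2 h.bg.a12_b2.smooth) (c2 h.c_u3),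
      ← lap_sub hb hx (c2 h.bg.a1_b2.smooth) (c2 (h.bg.a12_b2.smooth.mul h.c_u3)), ← chd_eq]
  have hC0 : 0 ≤ C3 := (abs_nonneg _).trans (hC 0).1
  have h1 := abs_le.1 (h.lap_B2 h.bg.a1_b2 x)
  have h2 := abs_le.1 (abs_mul_le' (abs_le_of_mem (c3_mem P (P.τ * f x)))
    (h.lap_B2 h.bg.a12_b2 x))
  have h3 := abs_mul_le' (hC (P.τ * f x)).1 (h.lap_F x)
  have h4 := abs_mul_le' (hC (P.τ * f x)).2
    (abs_le_of_mem ⟨gam_self_nonneg hb hx _, h.gam_F x⟩)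
  have h5 := abs_le.1 (abs_mul_le' (abs_le_of_mem (h.a12_mem x))
    ((abs_add_le _ _).trans (add_le_add h3 h4)))
  have h6 : |gam ḡ (fun y => a1 y * a2 y) (fun y => c3 P (P.τ * f y)) x| ≤ P0 * C3 := by
    rw [gam_eq_bil hb hx]
    refine ((h.ip x).abs_b _ _).trans ?_
    have := h.nb_B2 h.bg.a12_b2 x
    have := h.nb_u3 hC x
    have := IP.nb_nonneg (bil (ḡ x)) (grad ḡ (fun y => c3 P (P.τ * f y)) x)
    gcongr
  have h7 := abs_le.1 h6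
  have h8 : C3 ≤ P0 * C3 := by nlinarith
  have h9 : C3 * nb (bil (ḡ x)) (𝒱 x) ≤ P0 * C3 * nb (bil (ḡ x)) (𝒱 x) := by gcongr
  have h10 : 0 ≤ C3 * nb (bil (ḡ x)) (𝒱 x) := by positivity
  rw [e, abs_le]
  constructor <;> linarith

omit hC

theorem dH0 (x : E n) : P.τ * γ x * 𝓅 x - 2 * P0
    - 2 * P0 * (nb (bil (ḡ x)) (𝒬 x) + nb (bil (ḡ x)) (𝒱 x)) ≤ fderiv ℝ ℋ x (𝓌 x) := by
  have hP := h.bg.P_ge
  have hx := mem_univ x
  have dw : DifferentiableAt ℝ 𝓌 x := (h.jd.c_wv hx).differentiableAt (by simp)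
  have hKc := h.bg.symK.contDiffAt isOpen_univ hx
  have d1 := Bs.smooth_diff h.cf x
  have d2 : DifferentiableAt ℝ (traceK g K) x :=
    (contDiffAt_traceK h.bg.riem hx le_rfl hKc).differentiableAt (by simp)
  have d3 : DifferentiableAt ℝ (fun y => bil (K y) (𝓌 y) (𝓌 y)) x :=
    (contDiffAt_bil_apply hKc (h.jd.c_wv hx) (h.jd.c_wv hx)).differentiableAt (by simp)
  have e : ℋ = fun y => P.τ * f y + (traceK g K y - bil (K y) (𝓌 y) (𝓌 y)) :=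
    funext fun y => by rw [H0_eq_Th h.jd (mem_univ y) K, h.J]
  have e1 := (congrArg (fun F => fderiv ℝ F x) e).trans
    ((d1.hasFDerivAt.const_mul P.τ).add (d2.hasFDerivAt.sub d3.hasFDerivAt)).fderiv
  have h1 := abs_le.1 (h.bg.dtrK_le x _ (h.ww_le x))
  have h2 := abs_le.1 (h.bg.cK_le x _ (h.ww_le x))
  have h3 : P.τ * γ x * 𝓅 x ≤ P.τ * fderiv ℝ f x (𝓌 x) := by
    have a1 := h.jd.df_wv hx
    have a2 := h.phi_pos x
    have a3 : 0 ≤ γ x * 𝓅 x := mul_nonneg (h.jd.gm_pos hx).le (h.p_mem x).1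
    have a4 : 0 ≤ fderiv ℝ f x (𝓌 x) := by
      by_contra hn
      nlinarith [mul_pos a2 (neg_pos.2 (not_le.1 hn))]
    have a5 := mul_le_of_le_one_left a4 (h.phi_mem x).2
    have := h.tau_pos
    rw [mul_assoc, ← a1]
    gcongr
  have h4 : nb (bil (ḡ x)) (𝒬 x - 𝓅 x • 𝒱 x) ≤ nb (bil (ḡ x)) (𝒬 x) + nb (bil (ḡ x)) (𝒱 x) := by
    have a1 := (h.ip x).nb_sub (𝒬 x) (𝓅 x • 𝒱 x)
    have a2 := IP.nb_smul_le (b := bil (ḡ x)) (h.p_mem x).1 (h.p_mem x).2 (𝒱 x)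
    linarith
  have h5 : bil (K x) (𝒬 x - 𝓅 x • 𝒱 x) (𝓌 x) ≤ P0 * nb (bil (ḡ x)) (𝒬 x - 𝓅 x • 𝒱 x) := by
    have a0 := IP.nb_nonneg (bil (ḡ x)) (𝒬 x - 𝓅 x • 𝒱 x)
    refine (abs_le_of_sq_le_sq' ((h.bg.K_le x _ _).trans ?_) (by positivity)).2
    have a1 := h.jd.bil_le_gb hx (𝒬 x - 𝓅 x • 𝒱 x)
    have a2 := h.ww_le x
    have a3 := bil_self_nonneg h.bg.riem hx (𝓌 x)
    have a4 := (h.ip x).nonneg (𝒬 x - 𝓅 x • 𝒱 x)
    rw [mul_pow, (h.ip x).nb_sq]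
    calc _ ≤ P0 ^ 2 * (bil (ḡ x) (𝒬 x - 𝓅 x • 𝒱 x) (𝒬 x - 𝓅 x • 𝒱 x) * 1) := by gcongr
      _ = _ := by ring
  have h6 : P0 * nb (bil (ḡ x)) (𝒬 x - 𝓅 x • 𝒱 x)
      ≤ P0 * (nb (bil (ḡ x)) (𝒬 x) + nb (bil (ḡ x)) (𝒱 x)) := by gcongr
  rw [e1, add_apply, sub_apply, smul_apply, smul_eq_mul, fderiv_Kww (g := g) h.bg.symK dw,
    h.jd.cov_wv_wv hx]
  linarith

theorem nb_ell (x : E n) :
    nb (bil (ḡ x)) (grad ḡ ℓ x) ≤ nb (bil (ḡ x)) (𝒬 x) + nb (bil (ḡ x)) (𝒱 x) := by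
  rw [h.jd.grad_gb_ell (mem_univ x), h.a_eq]
  exact ((h.ip x).nb_sub _ _).trans
    (add_le_add_right ((h.ip x).nb_aw (h.p_mem x).1 (h.p_mem x).2 (h.hw x) _) _)

theorem dkp_ge {B : ℝ} (hB : P.e⁻¹ ^ 4 ≤ B) (x : E n) (hX : nb (bil (ḡ x)) (grad ḡ χ x) ≤ B) :
    -(B ^ 2 * (8 * nb (bil (ḡ x)) (grad ḡ z x) + 2 * nb (bil (ḡ x)) (𝒬 x)
      + 4 * nb (bil (ḡ x)) (𝒱 x))) ≤ fderiv ℝ κ x (grad ḡ χ x) := by
  have hb := h.jd.riemb
  have hx := mem_univ x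
  have key : ∀ (Y : E n) (c : ℝ), nb (bil (ḡ x)) Y ≤ c → |bil (ḡ x) Y (grad ḡ χ x)| ≤ c * B :=
    fun Y c hc => ((h.ip x).abs_b _ _).trans (mul_le_mul hc hX (IP.nb_nonneg _ _)
      ((IP.nb_nonneg _ _).trans hc))
  have h1 := key (grad ḡ z x) _ le_rfl
  have h2 := key _ _ (h.nb_ell x)
  have h3 := key (𝒱 x) _ le_rfl
  rw [bil_grad hb hx] at h1 h2
  rw [h.jd.gb_Vv hx] at h3
  have h4 : |-(4 * fderiv ℝ z x (grad ḡ χ x)) - 2 * fderiv ℝ ℓ x (grad ḡ χ x)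
      - 2 * fderiv ℝ (lv φ) x (grad ḡ χ x)| ≤ (4 * nb (bil (ḡ x)) (grad ḡ z x)
        + 2 * nb (bil (ḡ x)) (𝒬 x) + 4 * nb (bil (ḡ x)) (𝒱 x)) * B := by
    have := abs_le.1 h1; have := abs_le.1 h2; have := abs_le.1 h3
    rw [abs_le]; constructor <;> linarith
  have h5 := abs_le.1 (abs_mul_le' ((abs_le_of_mem (h.kp_mem x)).trans hB) h4)
  have hd1 : 0 ≤ 1 - d := sub_nonneg.2 h.d_le
  have hσ := h.sg_pos x
  have h6 : |σ x * Real.exp (4 * z x) * (8 * (1 - d) * P.Ph (z x) * φ x)| ≤ B / 2 * 8 := by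
    refine abs_mul_le' (abs_le_of_mem ⟨by positivity, (h.sg_exp_le x).trans (by linarith)⟩)
      (abs_le_of_mem ⟨?_, ?_⟩)
    · have := (Ph_mem P (z x)).1; have := h.phi_pos x; positivity
    · have a1 := Ph_mem P (z x)
      have a2 := a1.1
      have a3 := h.phi_pos x
      have a4 := (h.phi_mem x).2
      have a5 : 1 - d ≤ 1 := by linarith [h.d_pos]
      calc _ ≤ 8 * 1 * 1 * (1 : ℝ) := by have := a1.2; gcongr
        _ = _ := by ring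
  have h7 := abs_le.1 (abs_mul_le' h6 h1)
  have h8 : 0 ≤ σ x * (2 * (1 - d) ^ 2 * II P 2 (z x)) * fderiv ℝ χ x (grad ḡ χ x) := by
    have a1 := (II_mem h.θ_pos two_ne_zero (z x)).1
    have a2 := gam_self_nonneg hb hx χ
    rw [gam_eq_fderiv_grad] at a2
    positivity
  rw [h.dkp]
  linarith

end WH

theorem err_alg {B P s ζ q v : ℝ} (hB : 1 ≤ B) (hP : P ≤ B) (hs : 1 ≤ s) (hζ : ζ ≤ s)
    (hq0 : 0 ≤ q) (hq : q ≤ 4 * B ^ 2 * s) (hv0 : 0 ≤ v) (hv : v ≤ B ^ 2 * s) :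
    4 * P + 3 * P * v + 2 * P * (q + v) + B * (B * (1 + v)) + B ^ 2 * (8 * ζ + 2 * q + 4 * v)
      ≤ 40 * B ^ 4 * s := by
  have hB0 : 0 ≤ B := by linarith
  have h12 : B ≤ B ^ 2 := by nlinarith
  have h24 : B ^ 2 ≤ B ^ 4 := pow_le_pow_right₀ hB (by norm_num)
  have h1 : B ^ 4 ≤ B ^ 4 * s := le_mul_of_one_le_right (by positivity) hs
  have h2 : P * v ≤ B ^ 2 * v := by gcongr; linarith
  have h3 : P * q ≤ B ^ 2 * q := by gcongr; linarith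
  have h4 : B ^ 2 * v ≤ B ^ 2 * (B ^ 2 * s) := by gcongr
  have h5 : B ^ 2 * q ≤ B ^ 2 * (4 * B ^ 2 * s) := by gcongr
  have h6 : B ^ 2 * ζ ≤ B ^ 2 * s := by gcongr
  have h7 : B ^ 2 * s ≤ B ^ 4 * s := by gcongr
  nlinarith

/-- The `W`-inequality. -/
theorem wineq : WStmt := by
  intro n hn θ t1 P0 hθ ht1
  obtain ⟨C3, hC3, hC⟩ := exists_c3_bound ht1
  obtain ⟨CΦ, hCΦ, hΦ⟩ := exists_Ph_bound hθ
  obtain ⟨C1, hC1⟩ : ∃ C1 : ℝ, C1 = 2 * (n * P0 + 3 * P0 ^ 2) + 6 * P0 * C3 + CΦ := ⟨_, rfl⟩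
  refine ⟨33, min 1 (800 * C1 ^ 8 + 1)⁻¹, by positivity,
    fun P hPθ hPt he he1 d hd hd1 g K EE a1 a2 f z bg cf cz J fb => ?_⟩
  have h : WH P0 P d g K EE a1 a2 f z := ⟨bg, hPθ ▸ hθ, he, he1.trans (min_le_left _ _), hd, hd1,
    cf, cz, J, fb⟩
  refine ⟨h.jd, h.c_WW, h.c_sg, fun x => ⟨⟨hd.trans (h.phi_mem x).1, (h.phi_mem x).2⟩,
    (h.WW_bounds x).1, (h.WW_bounds x).2, ?_⟩⟩
  have hx := mem_univ x
  have hP := bg.P_ge
  have hC' := hC P hPt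
  have hi : 1 ≤ P.e⁻¹ := (one_le_inv₀ he).2 h.e_le
  have hi4 : 1 ≤ P.e⁻¹ ^ 4 := one_le_pow₀ hi
  have hi24 : P.e⁻¹ ^ 2 ≤ P.e⁻¹ ^ 4 := pow_le_pow_right₀ hi (by norm_num)
  have hn0 : 0 ≤ n * P0 := by positivity
  have k1 : 2 * P0 + C3 ≤ 6 * P0 * C3 := by nlinarith
  have k2 : 0 ≤ P0 ^ 2 := sq_nonneg _
  have k3 : 1 ≤ C1 := by linarith
  obtain ⟨B, hB⟩ : ∃ B, B = C1 * P.e⁻¹ ^ 4 := ⟨_, rfl⟩
  have b1 : C1 ≤ B := hB ▸ le_mul_of_one_le_right (by linarith) hi4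
  have b2 : P.e⁻¹ ^ 4 ≤ B := hB ▸ le_mul_of_one_le_left (by linarith) k3
  have b3 : 1 ≤ B := k3.trans b1
  have hφ := h.phi_pos x
  have hd0 : 0 ≤ 1 - d := sub_nonneg.2 hd1
  have hd2 : 1 - d ≤ 1 := by linarith [h.d_pos]
  have hχ := h.chi_mem x
  have hχ0 := hχ.1
  have hΦ' := hΦ P hPθ (z x)
  have hΦ0 := hΦ'.1
  have hPh := Ph_mem P (z x)
  have hPh0 := hPh.1
  have hφi := h.inv_phi_le x
  have hX : nb (bil (gb g (phd P d a1 a2 f z) f x))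
      (grad (gb g (phd P d a1 a2 f z) f) (chd P a1 a2 f) x) ≤ B :=
    (h.nb_X hC' x).trans (by linarith)
  have vz1 : (1 - d) * chd P a1 a2 f x * deriv P.Ph (z x) / phd P d a1 a2 f z x ≤ B := by
    rw [div_eq_mul_inv, hB]
    calc _ ≤ 1 * 1 * CΦ * P.e⁻¹ ^ 4 := by
          have := hχ.2; have := hΦ'.2.1; have := hφi.trans hi24; gcongr
      _ ≤ _ := by rw [one_mul, one_mul]; gcongr; nlinarith
  have vc1 : (1 - d) * P.Ph (z x) / phd P d a1 a2 f z x ≤ B := by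
    rw [div_eq_mul_inv]
    calc _ ≤ 1 * 1 * P.e⁻¹ ^ 4 := by have := hPh.2; have := hφi.trans hi24; gcongr
      _ ≤ _ := by linarith
  have hY := h.vec_id x
  rw [h.jd.grad_gb_ell hx, h.a_eq] at hY
  obtain ⟨c1, c2, c3⟩ := (h.ip x).core b3 (h.p_mem x).1 (h.p_mem x).2 (h.hw x) (by positivity) vz1
    (by positivity) vc1 (h.kp_mem x).1 ((h.kp_mem x).2.trans b2) hX (h.V_eq x) hY
  have e1 := h.jd.id_W hx
  have e2 := h.dH0 x
  have e3 := h.dkp_ge b2 x hX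
  have e4 := abs_le.1 (abs_mul_le' ((abs_le_of_mem (h.kp_mem x)).trans b2)
    ((h.lap_chi hC' x).trans (mul_le_mul_of_nonneg_right (c := B) (by linarith)
      (add_nonneg zero_le_one (IP.nb_nonneg _ _)))))
  have e5 := (abs_le.1 (bg.R_le x)).1
  have e6 := ((abs_le.1 (bg.Ric_le x _)).2.trans
    (mul_le_of_le_one_right (by linarith) (h.ww_le x)))
  have e7 := sq_nonneg (H0 g (phd P d a1 a2 f z) f x)
  have e8 := abs_le.1 (abs_mul_le' (h.abs_H0 x)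
    ((h.ip x).abs_a (h.p_mem x).1 (h.p_mem x).2 (h.hw x) (Vv g (phd P d a1 a2 f z) f x)))
  rw [← h.a_eq] at e8
  have y2 : nb (bil (gb g (phd P d a1 a2 f z) f x)) (sg P d g a1 a2 f z x •
      grad (gb g (phd P d a1 a2 f z) f) (WW P d g a1 a2 f z) x) ^ 2
      = sg P d g a1 a2 f z x ^ 2 * gam (gb g (phd P d a1 a2 f z) f)
        (WW P d g a1 a2 f z) (WW P d g a1 a2 f z) x := by
    rw [IP.nb_smul, mul_pow, sq_abs, (h.ip x).nb_sq, gam_eq_bil h.jd.riemb hx]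
  have z2 : nb (bil (gb g (phd P d a1 a2 f z) f x)) (grad (gb g (phd P d a1 a2 f z) f) z x) ^ 2
      = gam (gb g (phd P d a1 a2 f z) f) z z x := by
    rw [(h.ip x).nb_sq, gam_eq_bil h.jd.riemb hx]
  rw [h.div_eq, ← y2, ← z2]
  have hy := IP.nb_nonneg (bil (gb g (phd P d a1 a2 f z) f x)) (sg P d g a1 a2 f z x •
      grad (gb g (phd P d a1 a2 f z) f) (WW P d g a1 a2 f z) x)
  have hζ := IP.nb_nonneg (bil (gb g (phd P d a1 a2 f z) f x))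
    (grad (gb g (phd P d a1 a2 f z) f) z x)
  have f1 := final_alg b3 hy hζ (al_le hn)
  have f2 := err_alg (P := P0) b3 (by linarith) (by linarith) (le_add_of_nonneg_left (by linarith))
    (IP.nb_nonneg _ _) c2 (IP.nb_nonneg _ _) c1
  have f3 : 800 * B ^ 8 ≤ P.e⁻¹ ^ 33 := by
    have a1 : 800 * C1 ^ 8 + 1 ≤ P.e⁻¹ :=
      (le_inv_comm₀ he (by positivity)).1 (he1.trans (min_le_right _ _))
    calc _ = 800 * C1 ^ 8 * P.e⁻¹ ^ 32 := by rw [hB]; ring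
      _ ≤ P.e⁻¹ * P.e⁻¹ ^ 32 := by gcongr; linarith
      _ = _ := by ring
  have f4 := mul_le_mul_of_nonneg_right f3 (add_nonneg zero_le_one (sq_nonneg (nb (bil (gb g
    (phd P d a1 a2 f z) f x)) (sg P d g a1 a2 f z x •
      grad (gb g (phd P d a1 a2 f z) f) (WW P d g a1 a2 f z) x))))
  linarith

end Crest.Agent.N346.Bd

end
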